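import Vale.Agent.P232.Scalar.Defs

/-!
# P232: elementary facts on the profile of the square torus and its chords
-/

noncomputable section

namespace Vale.Agent.P232.Scalar

open Real Set MeasureTheory

theorem prof_nonneg (a : ℝ) : 0 ≤ prof a :=
  mul_nonneg zero_le_two (le_min (le_min (Real.sqrt_nonneg _) zero_le_one) (Real.sqrt_nonneg _))

theorem prof_le_two (a : ℝ) : prof a ≤ 2 := by
  have : min (min (Real.sqrt (Real.pi * a)) 1) (Real.sqrt (Real.pi * (1 - a))) ≤ 1 :=
    (min_le_left _ _).trans (min_le_right _ _)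
  unfold prof
  linarith

theorem prof_le_sqrt (a : ℝ) : prof a ≤ 2 * √(π * a) := by
  unfold prof
  exact mul_le_mul_of_nonneg_left ((min_le_left _ _).trans (min_le_left _ _)) zero_le_two

theorem prof_le_sqrt' (a : ℝ) : prof a ≤ 2 * √(π * (1 - a)) := by
  unfold prof
  exact mul_le_mul_of_nonneg_left (min_le_right _ _) zero_le_two

theorem prof_eq_sqrt {a : ℝ} (h1 : π * a ≤ 1) : prof a = 2 * √(π * a) := by
  have h2 : 2 ≤ π := Real.two_le_pi
  unfold prof
  rw [min_eq_left (Real.sqrt_le_one.2 h1), min_eq_left (Real.sqrt_le_sqrt (by nlinarith))]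

theorem prof_eq_two {a : ℝ} (h0 : 1 ≤ π * a) (h1 : 1 ≤ π * (1 - a)) : prof a = 2 := by
  unfold prof
  rw [min_eq_right (Real.one_le_sqrt.2 h0), min_eq_left (Real.one_le_sqrt.2 h1), mul_one]

theorem prof_interp {c m t : ℝ} (hc : 0 ≤ c) (hc1 : c ≤ 1) (hm : 0 ≤ m) (hm1 : m ≤ 1)
    (ht0 : 0 ≤ t) (ht1 : t ≤ 1) :
    (1 - t) * prof c + t * prof m ≤ prof ((1 - t) * c + t * m) := by
  have hu : 0 ≤ 1 - t := by linarith
  have key : ∀ f g : ℝ, prof c ≤ 2 * √f → prof m ≤ 2 * √g → 0 ≤ f → 0 ≤ g →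
      (1 - t) * prof c + t * prof m ≤ 2 * √((1 - t) * f + t * g) := by
    intro f g hf hg hf0 hg0
    have e0 := pow_le_pow_left₀ (prof_nonneg c) hf 2
    have e1 := pow_le_pow_left₀ (prof_nonneg m) hg 2
    rw [mul_pow, Real.sq_sqrt hf0] at e0
    rw [mul_pow, Real.sq_sqrt hg0] at e1
    have : ((1 - t) * prof c + t * prof m) / 2 ≤ √((1 - t) * f + t * g) := by
      refine Real.le_sqrt_of_sq_le ?_
      nlinarith [mul_nonneg (mul_nonneg hu ht0) (sq_nonneg (prof c - prof m))]
    linarith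
  have k1 := key (π * c) (π * m) (prof_le_sqrt c) (prof_le_sqrt m) (by positivity) (by positivity)
  have k2 := key (π * (1 - c)) (π * (1 - m)) (prof_le_sqrt' c) (prof_le_sqrt' m)
    (mul_nonneg pi_pos.le (by linarith)) (mul_nonneg pi_pos.le (by linarith))
  have k3 : (1 - t) * prof c + t * prof m ≤ 2 := by nlinarith [prof_le_two c, prof_le_two m]
  rw [show (1 - t) * (π * c) + t * (π * m) = π * ((1 - t) * c + t * m) by ring] at k1
  rw [show (1 - t) * (π * (1 - c)) + t * (π * (1 - m)) = π * (1 - ((1 - t) * c + t * m)) by ring]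
    at k2
  conv_rhs => rw [prof]
  rw [mul_min_of_nonneg _ _ zero_le_two, mul_min_of_nonneg _ _ zero_le_two, mul_one]
  exact le_min (le_min k1 k3) k2

theorem chord_eq (C M a : ℝ) :
    chord C M a = (1 - (a - C) / (M - C)) * prof C + (a - C) / (M - C) * prof M := by
  simp only [chord]; ring

theorem chord_nonneg {C M a : ℝ} (hCM : C < M) (ha : a ∈ Icc C M) : 0 ≤ chord C M a := by
  rw [chord_eq]
  have h0 : 0 ≤ (a - C) / (M - C) := div_nonneg (by linarith [ha.1]) (by linarith)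
  have h1 : 0 ≤ 1 - (a - C) / (M - C) := sub_nonneg.2 ((div_le_one (by linarith)).2 (by linarith [ha.2]))
  have := prof_nonneg C
  have := prof_nonneg M
  positivity

theorem weight_nonneg (C M a : ℝ) : 0 ≤ weight C M a := Real.sqrt_nonneg _

theorem weight_le_one (C M a : ℝ) : weight C M a ≤ 1 :=
  Real.sqrt_le_one.2 (max_le zero_le_one (by nlinarith [sq_nonneg (chord C M a / prof a)]))

theorem weight_measurable (C M : ℝ) : Measurable (weight C M) := by
  unfold weight chord prof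
  fun_prop

theorem intervalIntegrable_weight (C M x y : ℝ) : IntervalIntegrable (weight C M) volume x y := by
  refine (intervalIntegrable_const (c := (1 : ℝ))).mono_fun
    (weight_measurable C M).aestronglyMeasurable ?_
  refine Filter.Eventually.of_forall fun a => ?_
  simp only [norm_one]
  rw [Real.norm_of_nonneg (weight_nonneg C M a)]
  exact weight_le_one C M a

theorem pi_low : (31415926535 / 10 ^ 10 : ℝ) ≤ π := by
  have := Real.pi_gt_d20
  linarith

theorem pi_up : π ≤ (31415926536 / 10 ^ 10 : ℝ) := by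
  have := Real.pi_lt_d20
  linarith

theorem lowSqR_nonneg {a : ℝ} (h0 : 0 ≤ a) (h1 : a ≤ 1) : 0 ≤ lowSqR a :=
  le_min (by positivity) (le_min zero_le_one (mul_nonneg (by norm_num) (by linarith)))

theorem lowSqR_concave (x y t : ℝ) (ht0 : 0 ≤ t) (ht1 : t ≤ 1) :
    (1 - t) * lowSqR x + t * lowSqR y ≤ lowSqR ((1 - t) * x + t * y) := by
  have hu : 0 ≤ 1 - t := by linarith
  have key : ∀ {f g : ℝ}, lowSqR x ≤ f → lowSqR y ≤ g →
      (1 - t) * lowSqR x + t * lowSqR y ≤ (1 - t) * f + t * g := fun hf hg =>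
    add_le_add (mul_le_mul_of_nonneg_left hf hu) (mul_le_mul_of_nonneg_left hg ht0)
  refine le_min ((key (min_le_left _ _) (min_le_left _ _)).trans (by linarith)) (le_min ?_ ?_)
  · exact (key ((min_le_right _ _).trans (min_le_left _ _))
      ((min_le_right _ _).trans (min_le_left _ _))).trans (by linarith)
  · exact (key ((min_le_right _ _).trans (min_le_right _ _))
      ((min_le_right _ _).trans (min_le_right _ _))).trans (by linarith)

theorem lowSqR_le {a : ℝ} (h0 : 0 ≤ a) (h1 : a ≤ 1) : lowSqR a ≤ (prof a / 2) ^ 2 := by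
  have e1 : lowSqR a ≤ π * a := (min_le_left _ _).trans (mul_le_mul_of_nonneg_right pi_low h0)
  have e2 : lowSqR a ≤ 1 := (min_le_right _ _).trans (min_le_left _ _)
  have e3 : lowSqR a ≤ π * (1 - a) := ((min_le_right _ _).trans (min_le_right _ _)).trans
    (mul_le_mul_of_nonneg_right pi_low (by linarith))
  have : √(lowSqR a) ≤ prof a / 2 := by
    rw [prof, mul_div_cancel_left₀ _ two_ne_zero]
    exact le_min (le_min (Real.sqrt_le_sqrt e1) (Real.sqrt_le_one.2 e2)) (Real.sqrt_le_sqrt e3)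
  calc lowSqR a = √(lowSqR a) ^ 2 := (Real.sq_sqrt (lowSqR_nonneg h0 h1)).symm
    _ ≤ (prof a / 2) ^ 2 := pow_le_pow_left₀ (Real.sqrt_nonneg _) this 2

theorem le_upSqR {a : ℝ} (h0 : 0 ≤ a) (h1 : a ≤ 1) : (prof a / 2) ^ 2 ≤ upSqR a := by
  have hn : 0 ≤ prof a / 2 := div_nonneg (prof_nonneg a) zero_le_two
  have e1 := pow_le_pow_left₀ hn (show prof a / 2 ≤ √(π * a) by linarith [prof_le_sqrt a]) 2
  have e2 := pow_le_pow_left₀ hn (show prof a / 2 ≤ 1 by linarith [prof_le_two a]) 2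
  have e3 := pow_le_pow_left₀ hn
    (show prof a / 2 ≤ √(π * (1 - a)) by linarith [prof_le_sqrt' a]) 2
  rw [Real.sq_sqrt (by positivity)] at e1
  rw [Real.sq_sqrt (mul_nonneg pi_pos.le (by linarith))] at e3
  rw [one_pow] at e2
  exact le_min (e1.trans (mul_le_mul_of_nonneg_right pi_up h0))
    (le_min e2 (e3.trans (mul_le_mul_of_nonneg_right pi_up (by linarith))))

theorem cauchy_two {s t A B q r P R : ℝ} (hs : 0 ≤ s) (ht : 0 ≤ t) (hq : 0 ≤ q) (hr : 0 ≤ r)
    (hP : 0 ≤ P) (hR : 0 ≤ R) (hA : A ^ 2 ≤ q * P) (hB : B ^ 2 ≤ r * R) :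
    (s * A + t * B) ^ 2 ≤ (s * q + t * r) * (s * P + t * R) := by
  have h1 : (A * B) ^ 2 ≤ (q * R) * (r * P) := by
    have := mul_le_mul hA hB (sq_nonneg B) (mul_nonneg hq hP)
    linear_combination this
  have h0 : 0 ≤ q * R + r * P := by positivity
  have h2 : 2 * (A * B) ≤ q * R + r * P := by
    nlinarith [sq_nonneg (q * R - r * P)]
  nlinarith [mul_le_mul_of_nonneg_left hA (mul_nonneg hs hs),
    mul_le_mul_of_nonneg_left hB (mul_nonneg ht ht),
    mul_le_mul_of_nonneg_left h2 (mul_nonneg hs ht)]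

end Vale.Agent.P232.Scalar
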