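import Vale.Agent.P232.Scalar.Check

/-!
# P232: the box test, arranged for evaluation by the kernel

Every operation is on natural numbers or on the constructors of the integers, so that the kernel
spends little memory on a leaf.
-/

namespace Vale.Agent.P232.Scalar

namespace Fast

/-- `≤` on the integers, by cases on the constructors. -/
def zle : ℤ → ℤ → Bool
  | .ofNat a, .ofNat b => Nat.ble a b
  | .ofNat _, .negSucc _ => false
  | .negSucc _, .ofNat _ => true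
  | .negSucc a, .negSucc b => Nat.ble b a

/-- The smaller integer. -/
def zmin (a b : ℤ) : ℤ := bif zle a b then a else b

/-- The smaller number. -/
def nmin (a b : ℕ) : ℕ := bif Nat.ble a b then a else b

/-- The greater number. -/
def nmax (a b : ℕ) : ℕ := bif Nat.ble a b then b else a

/-- `Scalar.lowSq` at a natural number. -/
def lowSq (X : ℕ) : ℤ :=
  zmin (Int.ofNat (Nat.mul 31415926535 X))
    (zmin (Int.ofNat 1000000000000000000)
      (Int.mul (Int.ofNat 31415926535) (Int.subNatNat 100000000 X)))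

/-- `Scalar.upSq` at a natural number. -/
def upSq (X : ℕ) : ℤ :=
  zmin (Int.ofNat (Nat.mul 31415926536 X))
    (zmin (Int.ofNat 1000000000000000000)
      (Int.mul (Int.ofNat 31415926536) (Int.subNatNat 100000000 X)))

/-- `Scalar.nodesOK`. -/
def nodesOK (C0 M1 U0 U1 lo M0 : ℕ) : List (ℕ × ℕ) → Bool
  | [] => true
  | (X, W) :: r =>
    Nat.ble lo X && Nat.ble X M0 && Nat.ble W 10000 &&
      (let H := Int.subNatNat M1 C0
       let L := Int.add (Int.mul (Int.ofNat U0) (Int.subNatNat M1 X))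
         (Int.mul (Int.ofNat U1) (Int.subNatNat X C0))
       zle (Int.mul (Int.mul L L) (Int.ofNat 10000000000))
         (Int.mul (Int.mul (Int.subNatNat 100000000 (Nat.mul W W)) (lowSq X)) (Int.mul H H))) &&
      nodesOK C0 M1 U0 U1 X M0 r

/-- `Scalar.trap2`. -/
def trap2 : List (ℕ × ℕ) → ℤ
  | [] => Int.ofNat 0
  | (X, W) :: r => match r with
    | [] => Int.ofNat 0
    | (Y, V) :: _ => Int.add (Int.mul (Int.subNatNat Y X) (Int.ofNat (Nat.add W V))) (trap2 r)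

/-- `Scalar.valueOK`. -/
def valueOK (C0 M1 P0 P1 : ℕ) (G : ℤ) (D : ℕ) (A S : ℤ) (V : ℕ) : Bool :=
  let H := Int.subNatNat M1 C0
  zle (Int.mul (Int.mul (Int.ofNat 2) H) (Int.add (Int.add A (Int.mul S (Int.ofNat V))) (Int.ofNat D)))
    (Int.add (Int.mul (Int.ofNat 200000000) (Int.add (Int.mul (Int.ofNat P0) (Int.subNatNat M1 V))
      (Int.mul (Int.ofNat P1) (Int.subNatNat V C0)))) (Int.mul (Int.mul (Int.ofNat 10000) G) H))

/-- `Scalar.binOK`. -/
def binOK (C0 M1 P0 P1 : ℕ) (G : ℤ) (D : ℕ) : Bin → Bool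
  | ⟨a, b, A, S⟩ =>
    Nat.blt (nmin b M1) (nmax a C0) ||
      (valueOK C0 M1 P0 P1 G D A S (nmax a C0) && valueOK C0 M1 P0 P1 G D A S (nmin b M1))

/-- A test on all bins. -/
def allBins (f : Bin → Bool) : List Bin → Bool
  | [] => true
  | q :: r => f q && allBins f r

/-- `Scalar.leafOK`. -/
def leafOK (C0 C1 M0 M1 D : ℕ) (bins : List Bin) (P0 P1 U0 U1 : ℕ) (xs : List (ℕ × ℕ)) : Bool :=
  Nat.blt C0 M1 && Nat.ble M1 100000000 &&
    zle (Int.ofNat (Nat.mul 100 (Nat.mul P0 P0))) (lowSq C0) &&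
    zle (Int.ofNat (Nat.mul 100 (Nat.mul P1 P1))) (lowSq M1) &&
    zle (upSq C0) (Int.ofNat (Nat.mul 100 (Nat.mul U0 U0))) &&
    zle (upSq M1) (Int.ofNat (Nat.mul 100 (Nat.mul U1 U1))) &&
    nodesOK C0 M1 U0 U1 C1 M0 xs &&
    (let G := trap2 xs
     allBins (binOK C0 M1 P0 P1 G D) bins)

/-- `Scalar.check`, made cheap to evaluate. -/
def check (bins : List Bin) (D : ℕ) (sk : ℕ → ℕ → ℕ → ℕ → Bool) :
    Cert → ℕ → ℕ → ℕ → ℕ → Bool
  | .leaf P0 P1 U0 U1 xs, C0, C1, M0, M1 => leafOK C0 C1 M0 M1 D bins P0 P1 U0 U1 xs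
  | .skip, C0, C1, M0, M1 => sk C0 C1 M0 M1
  | .splitC s l r, C0, C1, M0, M1 =>
      Nat.ble C0 s && check bins D sk l C0 s M0 M1 && check bins D sk r s C1 M0 M1
  | .splitM s l r, C0, C1, M0, M1 =>
      check bins D sk l C0 C1 M0 s && check bins D sk r C0 C1 s M1

theorem zle_eq (a b : ℤ) : zle a b = decide (a ≤ b) := by
  rcases a with a | a <;> rcases b with b | b <;> rw [Bool.eq_iff_iff] <;>
    simp [zle, Int.negSucc_eq] <;> omega

theorem zmin_eq (a b : ℤ) : zmin a b = min a b := by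
  rw [zmin, zle_eq]
  by_cases h : a ≤ b <;> simp [h, min_def]

theorem ble_eq (a b : ℕ) : Nat.ble a b = decide (a ≤ b) := by
  rw [Bool.eq_iff_iff]; simp

theorem nmin_eq (a b : ℕ) : nmin a b = min a b := by
  by_cases h : a ≤ b <;> simp [nmin, ble_eq, h, min_def]

theorem nmax_eq (a b : ℕ) : nmax a b = max a b := by
  by_cases h : a ≤ b <;> simp [nmax, ble_eq, h, max_def]

theorem lowSq_eq (X : ℕ) : lowSq X = Scalar.lowSq X := by
  unfold lowSq Scalar.lowSq
  simp [zmin_eq, Int.subNatNat_eq_coe]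

theorem upSq_eq (X : ℕ) : upSq X = Scalar.upSq X := by
  unfold upSq Scalar.upSq
  simp [zmin_eq, Int.subNatNat_eq_coe]

theorem nodesOK_of {C0 M1 U0 U1 M0 : ℕ} : ∀ {xs : List (ℕ × ℕ)} {lo : ℕ},
    nodesOK C0 M1 U0 U1 lo M0 xs = true → Scalar.nodesOK C0 M1 U0 U1 lo M0 xs = true
  | [], _, _ => rfl
  | (X, W) :: r, lo, h => by
    simp only [nodesOK, Bool.and_eq_true, zle_eq, decide_eq_true_eq, Nat.ble_eq] at h
    obtain ⟨⟨⟨⟨h1, h2⟩, h3⟩, h4⟩, h5⟩ := h
    simp only [Scalar.nodesOK, Bool.and_eq_true, decide_eq_true_eq]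
    refine ⟨⟨Int.ofNat_le.2 h1, Int.ofNat_le.2 h2, h3, ?_⟩, nodesOK_of h5⟩
    simp [lowSq_eq, Int.subNatNat_eq_coe] at h4
    linarith

theorem trap2_eq : ∀ xs, trap2 xs = Scalar.trap2 xs
  | [] => rfl
  | [_] => rfl
  | (X, W) :: (Y, V) :: r => by
    show Int.add (Int.mul (Int.subNatNat Y X) (Int.ofNat (Nat.add W V))) (trap2 ((Y, V) :: r)) = _
    rw [trap2_eq ((Y, V) :: r)]
    simp [Scalar.trap2, Int.subNatNat_eq_coe]

theorem valueOK_eq (C0 M1 P0 P1 : ℕ) (G : ℤ) (D : ℕ) (A S : ℤ) (V : ℕ) :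
    valueOK C0 M1 P0 P1 G D A S V = Scalar.valueOK C0 M1 P0 P1 G D A S V := by
  unfold valueOK Scalar.valueOK
  simp [zle_eq, Int.subNatNat_eq_coe]

theorem binOK_of {C0 M1 P0 P1 : ℕ} {G : ℤ} {D : ℕ} {q : Bin} (h : binOK C0 M1 P0 P1 G D q = true) :
    Scalar.binOK C0 M1 P0 P1 G D q = true := by
  obtain ⟨a, b, A, S⟩ := q
  simp only [binOK, Bool.or_eq_true, Bool.and_eq_true, Nat.blt_eq, nmin_eq, nmax_eq, valueOK_eq] at h
  simp only [Scalar.binOK, Bool.or_eq_true, Bool.and_eq_true, decide_eq_true_eq, ← Nat.cast_min,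
    ← Nat.cast_max, Int.ofNat_lt]
  exact h

theorem allBins_eq (f : Bin → Bool) : ∀ l, allBins f l = l.all f
  | [] => rfl
  | q :: r => by simp [allBins, allBins_eq f r]

theorem leafOK_of {C0 C1 M0 M1 D P0 P1 U0 U1 : ℕ} {bins : List Bin} {xs : List (ℕ × ℕ)}
    (h : leafOK C0 C1 M0 M1 D bins P0 P1 U0 U1 xs = true) :
    Scalar.leafOK C0 C1 M0 M1 D bins P0 P1 U0 U1 xs = true := by
  simp only [leafOK, Bool.and_eq_true, Nat.blt_eq, Nat.ble_eq, zle_eq, decide_eq_true_eq,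
    lowSq_eq, upSq_eq, allBins_eq, trap2_eq, List.all_eq_true] at h
  obtain ⟨⟨⟨⟨⟨⟨⟨h1, h2⟩, h3⟩, h4⟩, h5⟩, h6⟩, h7⟩, h8⟩ := h
  simp only [Scalar.leafOK, Bool.and_eq_true, decide_eq_true_eq, List.all_eq_true]
  refine ⟨⟨⟨h1, h2.trans_eq (by norm_num), ?_, ?_, ?_, ?_⟩, nodesOK_of h7⟩,
    fun q hq => binOK_of (h8 q hq)⟩
  all_goals (simp [sq] at h3 h4 h5 h6 ⊢; linarith)

theorem check_of {bins : List Bin} {D : ℕ} {sk : ℕ → ℕ → ℕ → ℕ → Bool} : ∀ {T : Cert}
    {C0 C1 M0 M1 : ℕ}, check bins D sk T C0 C1 M0 M1 = true →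
      Scalar.check bins D sk T C0 C1 M0 M1 = true := by
  intro T
  induction T with
  | leaf P0 P1 U0 U1 xs => exact fun h => leafOK_of h
  | skip => exact fun h => h
  | splitC s l r il ir =>
    intro C0 C1 M0 M1 h
    simp only [check, Bool.and_eq_true, Nat.ble_eq] at h
    simp only [Scalar.check, Bool.and_eq_true, decide_eq_true_eq]
    exact ⟨⟨h.1.1, il h.1.2⟩, ir h.2⟩
  | splitM s l r il ir =>
    intro C0 C1 M0 M1 h
    simp only [check, Bool.and_eq_true] at h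
    simp only [Scalar.check, Bool.and_eq_true]
    exact ⟨il h.1, ir h.2⟩

theorem splitC_ok {bins : List Bin} {D s C0 C1 M0 M1 : ℕ} {sk : ℕ → ℕ → ℕ → ℕ → Bool} {l r : Cert}
    (hs : C0 ≤ s) (hl : check bins D sk l C0 s M0 M1 = true)
    (hr : check bins D sk r s C1 M0 M1 = true) :
    check bins D sk (.splitC s l r) C0 C1 M0 M1 = true := by
  simp only [check, (show Nat.ble C0 s = true by simpa using hs), hl, hr, Bool.and_self]

theorem splitM_ok {bins : List Bin} {D s C0 C1 M0 M1 : ℕ} {sk : ℕ → ℕ → ℕ → ℕ → Bool} {l r : Cert}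
    (hl : check bins D sk l C0 C1 M0 s = true) (hr : check bins D sk r C0 C1 s M1 = true) :
    check bins D sk (.splitM s l r) C0 C1 M0 M1 = true := by simp only [check, hl, hr, Bool.and_self]

end Fast

end Vale.Agent.P232.Scalar
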