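import Vale.Agent.P232.Scalar.Rows
import Vale.Agent.P232.Scalar.Fast

/-!
# P232: box certificates of the scalar inequality (found by the script in the notes)
-/

namespace Vale.Agent.P232.Scalar

-- evaluation is left to the kernel, one subtree at a time
attribute [local irreducible] Fast.check

/-- The bins, with their tangency parameters. -/
def row10Bins : List (Bin × ℕ) :=
  [(⟨15000000, 15350000, 2293077217415344, 302217750⟩, 66177450),
   (⟨15350000, 15700000, 3491891550000000, 224920549⟩, 69837831),
   (⟨15700000, 16050000, 3531033250000000, 222427292⟩, 70620665),
   (⟨16050000, 16400000, 3569745800000000, 220015152⟩, 71394916),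
   (⟨16400000, 16750000, 3608043050000000, 217679821⟩, 72160861),
   (⟨16750000, 17100000, 3645938000000000, 215417312⟩, 72918760),
   (⟨17100000, 17450000, 3683443150000000, 213223914⟩, 73668863),
   (⟨17450000, 17800000, 3720570200000000, 211096182⟩, 74411404),
   (⟨17800000, 18150000, 3757330450000000, 209030900⟩, 75146609),
   (⟨18150000, 18500000, 3793734500000000, 207025074⟩, 75874690),
   (⟨18500000, 18850000, 3829792500000000, 205075906⟩, 76595850),
   (⟨18850000, 19200000, 3865514200000000, 203180774⟩, 77310284),
   (⟨19200000, 19550000, 3900908800000000, 201337228⟩, 78018176),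
   (⟨19550000, 19900000, 3935985100000000, 199542972⟩, 78719702),
   (⟨19900000, 20250000, 3970751600000000, 197795844⟩, 79415032),
   (⟨20250000, 20600000, 4005216300000000, 196093820⟩, 80104326),
   (⟨20600000, 20950000, 4039386950000000, 194434991⟩, 80787739),
   (⟨20950000, 21300000, 4073270950000000, 192817560⟩, 81465419),
   (⟨21300000, 21650000, 4106875400000000, 191239833⟩, 82137508),
   (⟨21650000, 22000000, 4140207100000000, 189700212⟩, 82804142),
   (⟨22000000, 22350000, 4173272600000000, 188197187⟩, 83465452),
   (⟨22350000, 22700000, 4206078200000000, 186729330⟩, 84121564),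
   (⟨22700000, 23050000, 4238629850000000, 185295294⟩, 84772597),
   (⟨23050000, 23400000, 4270933450000000, 183893796⟩, 85418669),
   (⟨23400000, 23750000, 4302994500000000, 182523628⟩, 86059890),
   (⟨23750000, 24100000, 4334818450000000, 181183635⟩, 86696369),
   (⟨24100000, 24450000, 4366410450000000, 179872729⟩, 87328209),
   (⟨24450000, 24800000, 4397775550000000, 178589870⟩, 87955511),
   (⟨24800000, 25150000, 4428918500000000, 177334075⟩, 88578370),
   (⟨25150000, 25500000, 4459844000000000, 176104403⟩, 89196880),
   (⟨25500000, 25850000, 4490556500000000, 174899963⟩, 89811130),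
   (⟨25850000, 26200000, 4521060400000000, 173719901⟩, 90421208)]

theorem row10Bins_dom : row10Bins.all domOK = true := by decide +kernel

theorem row10Bins_covers : covers 15000000 26200000 (row10Bins.map Prod.fst) = true := by
  decide +kernel

/-- A certificate. -/
def row10MainN7 : Cert :=
  .leaf 7089815 81093314 7089816 81093315
    [(263088, 5720), (4868373, 7922), (15000000, 4869)]

/-- A certificate. -/
def row10MainN8 : Cert :=
  .leaf 7089815 91868723 7089816 91868724
    [(263088, 5782), (598008, 7856), (2559685, 8549), (6722266, 7942), (12511604, 6742),
     (18205249, 5247), (20932458, 4345)]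

/-- A certificate. -/
def row10MainN6 : Cert :=
  .splitM 20932458 row10MainN7 row10MainN8

/-- A certificate. -/
def row10MainN10 : Cert :=
  .leaf 9091288 81093314 9091289 81093315
    [(366177, 4729), (4939247, 7647), (15000000, 4744)]

/-- A certificate. -/
def row10MainN11 : Cert :=
  .leaf 9091288 91868723 9091289 91868724
    [(366177, 4795), (1410558, 7988), (6793140, 7711), (15549877, 5855), (20932458, 4249)]

/-- A certificate. -/
def row10MainN9 : Cert :=
  .splitM 20932458 row10MainN10 row10MainN11

/-- A certificate. -/
def row10MainN5 : Cert :=
  .splitC 263088 row10MainN6 row10MainN9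

/-- A certificate. -/
def row10MainN17 : Cert :=
  .leaf 7089815 96807699 7089816 96807700
    [(185772, 3459), (1540572, 8589), (8523004, 7800), (19882484, 5359), (26864916, 2929)]

/-- A certificate. -/
def row10MainN18 : Cert :=
  .leaf 7089815 100000000 7089816 100000000
    [(185772, 3475), (1691201, 8679), (9449951, 7881), (22072395, 5514), (29831145, 3248)]

/-- A certificate. -/
def row10MainN16 : Cert :=
  .splitM 29831145 row10MainN17 row10MainN18

/-- A certificate. -/
def row10MainN20 : Cert :=
  .leaf 7639502 96807699 7639503 96807700
    [(211544, 3223), (3173030, 8501), (16006135, 6273), (26864916, 2912)]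

/-- A certificate. -/
def row10MainN21 : Cert :=
  .leaf 7639502 100000000 7639503 100000000
    [(211544, 3239), (1715664, 8567), (9467669, 7829), (22079140, 5483), (29831145, 3235)]

/-- A certificate. -/
def row10MainN19 : Cert :=
  .splitM 29831145 row10MainN20 row10MainN21

/-- A certificate. -/
def row10MainN15 : Cert :=
  .splitC 185772 row10MainN16 row10MainN19

/-- A certificate. -/
def row10MainN24 : Cert :=
  .leaf 7089815 100000000 7089816 100000000
    [(185772, 3497), (254447, 5715), (698542, 8192), (1792756, 8782), (3701907, 8778),
     (6480936, 8525), (10074902, 8103), (14318987, 7542), (18938493, 6864),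
     (23548842, 6104), (27655578, 5334), (30654365, 4690), (31830988, 4412),
     (31981986, 4331), (32314181, 4146), (32646376, 3950), (32797374, 3857)]

/-- A certificate. -/
def row10MainN26 : Cert :=
  .leaf 7089815 100000000 7089816 100000000
    [(185772, 3506), (698542, 8218), (3701907, 8836), (10074902, 8233), (18938493, 7123),
     (27655578, 5793), (31830988, 5029), (32122293, 4901), (32850555, 4562),
     (33797296, 4066), (34744036, 3485), (35472298, 2948), (35763603, 2700)]

/-- A certificate. -/
def row10MainN27 : Cert :=
  .leaf 7089815 100000000 7089816 100000000
    [(185772, 3515), (698542, 8242), (3701907, 8889), (10074902, 8348), (18938493, 7347),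
     (27655578, 6174), (31830988, 5520), (32232153, 5371), (33235066, 4971),
     (34538853, 4378), (35842640, 3664), (36845553, 2978), (37246718, 2649)]

/-- A certificate. -/
def row10MainN25 : Cert :=
  .splitM 37246718 row10MainN26 row10MainN27

/-- A certificate. -/
def row10MainN23 : Cert :=
  .splitM 35763603 row10MainN24 row10MainN25

/-- A certificate. -/
def row10MainN29 : Cert :=
  .leaf 7639502 100000000 7639503 100000000
    [(211544, 3261), (723896, 8005), (3724816, 8706), (10092620, 8056), (18948992, 6830),
     (27658978, 5314), (31830988, 4401), (31981986, 4320), (32314181, 4136),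
     (32646376, 3940), (32797374, 3848)]

/-- A certificate. -/
def row10MainN30 : Cert :=
  .leaf 7639502 100000000 7639503 100000000
    [(211544, 3279), (280163, 5450), (723896, 8058), (1817219, 8754), (3724816, 8820),
     (6501581, 8637), (10092620, 8303), (14333249, 7853), (18948992, 7315),
     (23555587, 6728), (27658978, 6154), (30655323, 5697), (31830988, 5507),
     (31908366, 5479), (32122293, 5399), (32445459, 5277), (32850555, 5117),
     (33310270, 4928), (33797296, 4716), (34284321, 4491), (34744036, 4264),
     (35149132, 4052), (35472298, 3873), (35686225, 3748), (35763603, 3702)]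

/-- A certificate. -/
def row10MainN28 : Cert :=
  .splitM 35763603 row10MainN29 row10MainN30

/-- A certificate. -/
def row10MainN22 : Cert :=
  .splitC 185772 row10MainN23 row10MainN28

/-- A certificate. -/
def row10MainN14 : Cert :=
  .splitM 32797374 row10MainN15 row10MainN22

/-- A certificate. -/
def row10MainN34 : Cert :=
  .leaf 8152208 96807699 8152209 96807700
    [(237316, 3027), (3195938, 8421), (16016635, 6234), (26864916, 2896)]

/-- A certificate. -/
def row10MainN35 : Cert :=
  .leaf 8152208 100000000 8152209 100000000
    [(237316, 3043), (1740128, 8461), (9485388, 7780), (22085885, 5455), (29831145, 3223)]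

/-- A certificate. -/
def row10MainN33 : Cert :=
  .splitM 29831145 row10MainN34 row10MainN35

/-- A certificate. -/
def row10MainN37 : Cert :=
  .leaf 8634524 96807699 8634525 96807700
    [(263088, 2860), (3218847, 8345), (16027134, 6199), (26864916, 2882)]

/-- A certificate. -/
def row10MainN38 : Cert :=
  .leaf 8634524 100000000 8634525 100000000
    [(263088, 2877), (1764591, 8359), (9503106, 7734), (22092630, 5429), (29831145, 3212)]

/-- A certificate. -/
def row10MainN36 : Cert :=
  .splitM 29831145 row10MainN37 row10MainN38

/-- A certificate. -/
def row10MainN32 : Cert :=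
  .splitC 237316 row10MainN33 row10MainN36

/-- A certificate. -/
def row10MainN41 : Cert :=
  .leaf 8152208 100000000 8152209 100000000
    [(237316, 3065), (749250, 7830), (3747724, 8638), (10110338, 8011), (18959492, 6800),
     (27662379, 5296), (31830988, 4391), (31981986, 4311), (32314181, 4126),
     (32646376, 3931), (32797374, 3839)]

/-- A certificate. -/
def row10MainN42 : Cert :=
  .leaf 8152208 100000000 8152209 100000000
    [(237316, 3083), (461002, 6868), (1841682, 8657), (5027275, 8694), (10110338, 8261),
     (16628076, 7561), (23562332, 6704), (29339592, 5886), (31830988, 5494),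
     (31999968, 5433), (32445459, 5265), (33075292, 5014), (33797296, 4705),
     (34519299, 4367), (35149132, 4043), (35594623, 3793), (35763603, 3694)]

/-- A certificate. -/
def row10MainN40 : Cert :=
  .splitM 35763603 row10MainN41 row10MainN42

/-- A certificate. -/
def row10MainN44 : Cert :=
  .leaf 8634524 100000000 8634525 100000000
    [(263088, 2899), (774605, 7666), (3770632, 8572), (10128057, 7969), (18969992, 6770),
     (27665779, 5279), (31830988, 4382), (31981986, 4301), (32314181, 4117),
     (32646376, 3923), (32797374, 3830)]

/-- A certificate. -/
def row10MainN45 : Cert :=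
  .leaf 8634524 100000000 8634525 100000000
    [(263088, 2917), (774605, 7722), (3770632, 8691), (10128057, 8221), (18969992, 7258),
     (27665779, 6118), (31830988, 5483), (32122293, 5376), (32850555, 5095),
     (33797296, 4695), (34744036, 4245), (35472298, 3855), (35763603, 3685)]

/-- A certificate. -/
def row10MainN43 : Cert :=
  .splitM 35763603 row10MainN44 row10MainN45

/-- A certificate. -/
def row10MainN39 : Cert :=
  .splitC 237316 row10MainN40 row10MainN43

/-- A certificate. -/
def row10MainN31 : Cert :=
  .splitM 32797374 row10MainN32 row10MainN39

/-- A certificate. -/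
def row10MainN13 : Cert :=
  .splitC 211544 row10MainN14 row10MainN31

/-- A certificate. -/
def row10MainN49 : Cert :=
  .leaf 9091288 96807699 9091289 96807700
    [(314632, 3680), (3264664, 8271), (16048134, 6162), (26864916, 2868)]

/-- A certificate. -/
def row10MainN50 : Cert :=
  .leaf 9091288 100000000 9091289 100000000
    [(314632, 3702), (1813517, 8268), (9538542, 7687), (22106120, 5402), (29831145, 3201)]

/-- A certificate. -/
def row10MainN48 : Cert :=
  .splitM 29831145 row10MainN49 row10MainN50

/-- A certificate. -/
def row10MainN52 : Cert :=
  .leaf 9942060 96807699 9942061 96807700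
    [(366177, 3381), (3310481, 8134), (16069133, 6098), (26864916, 2842)]

/-- A certificate. -/
def row10MainN53 : Cert :=
  .leaf 9942060 100000000 9942061 100000000
    [(366177, 3404), (3640062, 8239), (17826899, 6237), (29831145, 3181)]

/-- A certificate. -/
def row10MainN51 : Cert :=
  .splitM 29831145 row10MainN52 row10MainN53

/-- A certificate. -/
def row10MainN47 : Cert :=
  .splitC 314632 row10MainN48 row10MainN51

/-- A certificate. -/
def row10MainN57 : Cert :=
  .leaf 9091288 100000000 9091289 100000000
    [(288860, 2755), (799959, 7510), (3793541, 8509), (10145775, 7929), (18980491, 6743),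
     (27669179, 5263), (31830988, 4373), (31981986, 4293), (32314181, 4109),
     (32646376, 3915), (32797374, 3822)]

/-- A certificate. -/
def row10MainN58 : Cert :=
  .leaf 9091288 100000000 9091289 100000000
    [(288860, 2774), (799959, 7569), (3793541, 8630), (10145775, 8183), (18980491, 7232),
     (27669179, 6102), (31830988, 5472), (32122293, 5365), (32850555, 5085),
     (33797296, 4685), (34744036, 4236), (35472298, 3847), (35763603, 3678)]

/-- A certificate. -/
def row10MainN56 : Cert :=
  .splitM 35763603 row10MainN57 row10MainN58

/-- A certificate. -/
def row10MainN60 : Cert :=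
  .leaf 9526176 100000000 9526177 100000000
    [(314632, 2630), (1915072, 8302), (10163493, 7890), (23582567, 5988), (31830988, 4365),
     (31981986, 4284), (32314181, 4101), (32646376, 3907), (32797374, 3815)]

/-- A certificate. -/
def row10MainN61 : Cert :=
  .leaf 9526176 100000000 9526177 100000000
    [(314632, 2649), (825314, 7423), (3816449, 8572), (10163493, 8147), (18990991, 7207),
     (27672580, 6087), (31830988, 5462), (32122293, 5355), (32850555, 5075),
     (33797296, 4676), (34744036, 4228), (35472298, 3840), (35763603, 3670)]

/-- A certificate. -/
def row10MainN59 : Cert :=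
  .splitM 35763603 row10MainN60 row10MainN61

/-- A certificate. -/
def row10MainN55 : Cert :=
  .splitC 288860 row10MainN56 row10MainN59

/-- A certificate. -/
def row10MainN63 : Cert :=
  .leaf 9942060 100000000 9942061 100000000
    [(366177, 3434), (1963999, 8223), (10198930, 7851), (23596057, 5967), (31830988, 4356),
     (31981986, 4276), (32314181, 4093), (32646376, 3900), (32797374, 3808)]

/-- A certificate. -/
def row10MainN64 : Cert :=
  .leaf 9942060 100000000 9942061 100000000
    [(366177, 3460), (1963999, 8312), (10198930, 8110), (23596057, 6621), (31830988, 5452),
     (32445459, 5224), (33797296, 4667), (35149132, 4010), (35763603, 3663)]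

/-- A certificate. -/
def row10MainN62 : Cert :=
  .splitM 35763603 row10MainN63 row10MainN64

/-- A certificate. -/
def row10MainN54 : Cert :=
  .splitC 314632 row10MainN55 row10MainN62

/-- A certificate. -/
def row10MainN46 : Cert :=
  .splitM 32797374 row10MainN47 row10MainN54

/-- A certificate. -/
def row10MainN12 : Cert :=
  .splitC 263088 row10MainN13 row10MainN46

/-- A certificate. -/
def row10MainN4 : Cert :=
  .splitM 26864916 row10MainN5 row10MainN12

/-- A certificate. -/
def row10MainN67 : Cert :=
  .leaf 10725572 81093314 10725573 81093315
    [(572354, 5227), (5080993, 7403), (15000000, 4644)]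

/-- A certificate. -/
def row10MainN68 : Cert :=
  .leaf 10725572 91868723 10725573 91868724
    [(572354, 5316), (2834588, 7903), (12637601, 6421), (20932458, 4170)]

/-- A certificate. -/
def row10MainN66 : Cert :=
  .splitM 20932458 row10MainN67 row10MainN68

/-- A certificate. -/
def row10MainN71 : Cert :=
  .leaf 10725572 100000000 10725573 100000000
    [(469265, 4217), (493834, 4572), (656148, 5964), (1067372, 7227), (1809669, 7873),
     (2936205, 8102), (4471145, 8090), (6409656, 7925), (8717906, 7648), (11333063, 7278),
     (14163298, 6832), (17087779, 6324), (19956679, 5773), (22591169, 5210),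
     (24783423, 4688), (26296614, 4289), (26864916, 4129)]

/-- A certificate. -/
def row10MainN74 : Cert :=
  .leaf 10725572 100000000 10725573 100000000
    [(417721, 3193), (2012926, 8061), (10234367, 7781), (23609547, 5929), (31830988, 4341),
     (31981986, 4262), (32314181, 4079), (32646376, 3886), (32797374, 3795)]

/-- A certificate. -/
def row10MainN75 : Cert :=
  .leaf 10725572 100000000 10725573 100000000
    [(417721, 3219), (2012926, 8153), (10234367, 8043), (23609547, 6585), (31830988, 5434),
     (32445459, 5206), (33797296, 4651), (35149132, 3996), (35763603, 3650)]

/-- A certificate. -/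
def row10MainN73 : Cert :=
  .splitM 35763603 row10MainN74 row10MainN75

/-- A certificate. -/
def row10MainN77 : Cert :=
  .leaf 11455606 100000000 11455607 100000000
    [(469265, 2994), (2061852, 7909), (10269803, 7715), (23623037, 5895), (31830988, 4328),
     (31981986, 4248), (32314181, 4066), (32646376, 3874), (32797374, 3782)]

/-- A certificate. -/
def row10MainN78 : Cert :=
  .leaf 11455606 100000000 11455607 100000000
    [(469265, 3020), (2061852, 8004), (10269803, 7980), (23623037, 6551), (31830988, 5417),
     (32445459, 5190), (33797296, 4636), (35149132, 3983), (35763603, 3638)]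

/-- A certificate. -/
def row10MainN76 : Cert :=
  .splitM 35763603 row10MainN77 row10MainN78

/-- A certificate. -/
def row10MainN72 : Cert :=
  .splitC 417721 row10MainN73 row10MainN76

/-- A certificate. -/
def row10MainN70 : Cert :=
  .splitM 32797374 row10MainN71 row10MainN72

/-- A certificate. -/
def row10MainN80 : Cert :=
  .leaf 12141826 100000000 12141827 100000000
    [(572354, 3766), (998391, 6419), (3493750, 7888), (8788780, 7500), (16153131, 6395),
     (23395759, 4958), (26864916, 4079)]

/-- A certificate. -/
def row10MainN83 : Cert :=
  .leaf 12141826 100000000 12141827 100000000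
    [(520809, 2825), (2110779, 7764), (10305240, 7652), (23636527, 5862), (31830988, 4315),
     (31981986, 4235), (32314181, 4054), (32646376, 3862), (32797374, 3771)]

/-- A certificate. -/
def row10MainN84 : Cert :=
  .leaf 12141826 100000000 12141827 100000000
    [(520809, 2851), (3999718, 8207), (19074989, 7054), (31830988, 5401), (32850555, 5017),
     (34744036, 4179), (35763603, 3627)]

/-- A certificate. -/
def row10MainN82 : Cert :=
  .splitM 35763603 row10MainN83 row10MainN84

/-- A certificate. -/
def row10MainN86 : Cert :=
  .leaf 12791285 100000000 12791286 100000000
    [(572354, 2679), (4045536, 7973), (19095989, 6515), (31830988, 4302), (32081533, 4170),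
     (32546829, 3909), (32797374, 3760)]

/-- A certificate. -/
def row10MainN87 : Cert :=
  .leaf 12791285 100000000 12791286 100000000
    [(572354, 2706), (4045536, 8114), (19095989, 7016), (31830988, 5386), (32850555, 5003),
     (34744036, 4167), (35763603, 3616)]

/-- A certificate. -/
def row10MainN85 : Cert :=
  .splitM 35763603 row10MainN86 row10MainN87

/-- A certificate. -/
def row10MainN81 : Cert :=
  .splitC 520809 row10MainN82 row10MainN85

/-- A certificate. -/
def row10MainN79 : Cert :=
  .splitM 32797374 row10MainN80 row10MainN81

/-- A certificate. -/
def row10MainN69 : Cert :=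
  .splitC 469265 row10MainN70 row10MainN79

/-- A certificate. -/
def row10MainN65 : Cert :=
  .splitM 26864916 row10MainN66 row10MainN69

/-- A certificate. -/
def row10MainN3 : Cert :=
  .splitC 366177 row10MainN4 row10MainN65

/-- A certificate. -/
def row10MainN97 : Cert :=
  .leaf 7089815 100000000 7089816 100000000
    [(185772, 3525), (698542, 8271), (3701907, 8949), (10074902, 8477), (18938493, 7593),
     (27655578, 6579), (31830988, 6030), (32342014, 5871), (33619577, 5444),
     (35280410, 4806), (36941244, 4034), (38218807, 3289), (38729833, 2931)]

/-- A certificate. -/
def row10MainN98 : Cert :=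
  .leaf 7089815 100000000 7089816 100000000
    [(185772, 3534), (698542, 8296), (3701907, 9001), (10074902, 8588), (18938493, 7803),
     (27655578, 6914), (31830988, 6441), (32483843, 6267), (34115979, 5794),
     (36237756, 5077), (38359534, 4190), (39991670, 3306), (40644525, 2866)]

/-- A certificate. -/
def row10MainN96 : Cert :=
  .splitM 40644525 row10MainN97 row10MainN98

/-- A certificate. -/
def row10MainN100 : Cert :=
  .leaf 7089815 100000000 7089816 100000000
    [(185772, 3543), (1792756, 8965), (10074902, 8685), (23548842, 7577), (31830988, 6781),
     (33507274, 6379), (37195103, 5309), (40882932, 3806), (42559218, 2804)]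

/-- A certificate. -/
def row10MainN101 : Cert :=
  .leaf 7089815 100000000 7089816 100000000
    [(185772, 3551), (1792756, 8994), (10074902, 8771), (23548842, 7774), (31830988, 7067),
     (33806445, 6646), (38152449, 5510), (42498453, 3876), (44473910, 2747)]

/-- A certificate. -/
def row10MainN99 : Cert :=
  .splitM 44473910 row10MainN100 row10MainN101

/-- A certificate. -/
def row10MainN95 : Cert :=
  .splitM 42559218 row10MainN96 row10MainN99

/-- A certificate. -/
def row10MainN104 : Cert :=
  .leaf 7639502 100000000 7639503 100000000
    [(211544, 3290), (723896, 8088), (3724816, 8881), (10092620, 8433), (18948992, 7563),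
     (27658978, 6560), (31830988, 6015), (32342014, 5857), (33619577, 5431),
     (35280410, 4794), (36941244, 4024), (38218807, 3281), (38729833, 2924)]

/-- A certificate. -/
def row10MainN105 : Cert :=
  .leaf 7639502 100000000 7639503 100000000
    [(211544, 3299), (1817219, 8834), (10092620, 8546), (23555587, 7323), (31830988, 6426),
     (33208103, 6050), (36237756, 5065), (39267410, 3719), (40644525, 2858)]

/-- A certificate. -/
def row10MainN103 : Cert :=
  .splitM 40644525 row10MainN104 row10MainN105

/-- A certificate. -/
def row10MainN107 : Cert :=
  .leaf 7639502 100000000 7639503 100000000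
    [(211544, 3307), (1817219, 8868), (10092620, 8645), (23555587, 7553), (31830988, 6766),
     (33507274, 6364), (37195103, 5296), (40882932, 3796), (42559218, 2797)]

/-- A certificate. -/
def row10MainN108 : Cert :=
  .leaf 7639502 100000000 7639503 100000000
    [(211544, 3315), (1817219, 8898), (10092620, 8731), (23555587, 7750), (31830988, 7052),
     (33806445, 6631), (38152449, 5497), (42498453, 3866), (44473910, 2740)]

/-- A certificate. -/
def row10MainN106 : Cert :=
  .splitM 44473910 row10MainN107 row10MainN108

/-- A certificate. -/
def row10MainN102 : Cert :=
  .splitM 42559218 row10MainN103 row10MainN106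

/-- A certificate. -/
def row10MainN94 : Cert :=
  .splitC 185772 row10MainN95 row10MainN102

/-- A certificate. -/
def row10MainN112 : Cert :=
  .leaf 7089815 100000000 7089816 100000000
    [(185772, 3558), (1792756, 9021), (10074902, 8847), (23548842, 7945), (31830988, 7312),
     (34105615, 6876), (39109796, 5686), (44113976, 3939), (46388603, 2693)]

/-- A certificate. -/
def row10MainN113 : Cert :=
  .leaf 7089815 100000000 7089816 100000000
    [(185772, 3564), (1792756, 9045), (10074902, 8914), (23548842, 8094), (31830988, 7523),
     (34404786, 7077), (40067142, 5842), (45729497, 3995), (48303295, 2642)]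

/-- A certificate. -/
def row10MainN111 : Cert :=
  .splitM 48303295 row10MainN112 row10MainN113

/-- A certificate. -/
def row10MainN115 : Cert :=
  .leaf 7089815 100000000 7089816 100000000
    [(185772, 3570), (698542, 8393), (3701907, 9192), (10074902, 8974), (18938493, 8497),
     (27655578, 7974), (31830988, 7708), (33192988, 7500), (36597988, 6915),
     (41024488, 5980), (45450988, 4739), (48855988, 3372), (50217988, 2593)]

/-- A certificate. -/
def row10MainN116 : Cert :=
  .leaf 7089815 100000000 7089816 100000000
    [(185772, 3576), (698542, 8408), (3701907, 9220), (10074902, 9028), (18938493, 8591),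
     (27655578, 8112), (31830988, 7869), (33334817, 7659), (37094390, 7065),
     (41981834, 6105), (46869279, 4818), (50628852, 3382), (52132681, 2548)]

/-- A certificate. -/
def row10MainN114 : Cert :=
  .splitM 52132681 row10MainN115 row10MainN116

/-- A certificate. -/
def row10MainN110 : Cert :=
  .splitM 50217988 row10MainN111 row10MainN114

/-- A certificate. -/
def row10MainN118 : Cert :=
  .leaf 7639502 100000000 7639503 100000000
    [(211544, 3329), (220407, 3781), (280163, 5534), (435412, 7213), (723896, 8199),
     (1176493, 8703), (1817219, 8951), (2663229, 9064), (3724816, 9101), (5005410, 9088),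
     (6501581, 9042), (8203036, 8970), (10092620, 8876), (12146317, 8766), (14333249, 8642),
     (16615674, 8507), (18948992, 8365), (21281738, 8218), (23555587, 8071),
     (25705350, 7929), (27658978, 7798), (29337560, 7682), (30655323, 7590),
     (31519631, 7529), (31830988, 7507), (31904703, 7495), (32117423, 7460),
     (32456511, 7404), (32909330, 7327), (33463244, 7231), (34105615, 7116),
     (34823808, 6982), (35605184, 6831), (36437108, 6663), (37306943, 6479),
     (38202051, 6280), (39109796, 6066), (40017540, 5840), (40912648, 5604),
     (41782483, 5359), (42614407, 5109), (43395783, 4858), (44113976, 4611),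
     (44756347, 4375), (45310261, 4159), (45763080, 3971), (46102168, 3823),
     (46314888, 3727), (46388603, 3693)]

/-- A certificate. -/
def row10MainN120 : Cert :=
  .leaf 7639502 100000000 7639503 100000000
    [(211544, 3335), (1817219, 8974), (10092620, 8937), (23555587, 8203), (31830988, 7691),
     (34703957, 7236), (41024488, 5966), (47345019, 4037), (50217988, 2587)]

/-- A certificate. -/
def row10MainN121 : Cert :=
  .leaf 7639502 100000000 7639503 100000000
    [(211544, 3341), (1817219, 8995), (10092620, 8992), (23555587, 8320), (31830988, 7853),
     (35003128, 7392), (41981834, 6090), (48960541, 4084), (52132681, 2541)]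

/-- A certificate. -/
def row10MainN119 : Cert :=
  .splitM 52132681 row10MainN120 row10MainN121

/-- A certificate. -/
def row10MainN117 : Cert :=
  .splitM 50217988 row10MainN118 row10MainN119

/-- A certificate. -/
def row10MainN109 : Cert :=
  .splitC 185772 row10MainN110 row10MainN117

/-- A certificate. -/
def row10MainN93 : Cert :=
  .splitM 46388603 row10MainN94 row10MainN109

/-- A certificate. -/
def row10MainN126 : Cert :=
  .leaf 8152208 100000000 8152209 100000000
    [(237316, 3094), (1841682, 8701), (10110338, 8393), (23562332, 7029), (31830988, 6002),
     (32908933, 5661), (35280410, 4783), (37651888, 3624), (38729833, 2917)]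

/-- A certificate. -/
def row10MainN127 : Cert :=
  .leaf 8152208 100000000 8152209 100000000
    [(237316, 3103), (1841682, 8740), (10110338, 8507), (23562332, 7300), (31830988, 6412),
     (33208103, 6037), (36237756, 5053), (39267410, 3710), (40644525, 2851)]

/-- A certificate. -/
def row10MainN125 : Cert :=
  .splitM 40644525 row10MainN126 row10MainN127

/-- A certificate. -/
def row10MainN128 : Cert :=
  .leaf 8152208 100000000 8152209 100000000
    [(237316, 3120), (305879, 5255), (749250, 7991), (1841682, 8806), (3747724, 8967),
     (6522226, 8892), (10110338, 8694), (14347511, 8415), (18959492, 8082),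
     (23562332, 7728), (27662379, 7395), (30656281, 7140), (31830988, 7037),
     (32042076, 6994), (32625672, 6874), (33507274, 6684), (34612381, 6431),
     (35866491, 6121), (37195103, 5764), (38523715, 5370), (39777825, 4956),
     (40882932, 4550), (41764534, 4189), (42348130, 3927), (42559218, 3827)]

/-- A certificate. -/
def row10MainN124 : Cert :=
  .splitM 42559218 row10MainN125 row10MainN128

/-- A certificate. -/
def row10MainN130 : Cert :=
  .leaf 8634524 100000000 8634525 100000000
    [(263088, 2937), (331595, 5001), (774605, 7783), (1866145, 8649), (3770632, 8813),
     (6542871, 8713), (10128057, 8469), (14361773, 8128), (18969992, 7719),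
     (23569077, 7278), (27665779, 6858), (30657239, 6532), (31830988, 6399),
     (31966729, 6364), (32342014, 6264), (32908933, 6109), (33619577, 5905),
     (34426040, 5659), (35280410, 5381), (36134781, 5080), (36941244, 4773),
     (37651888, 4479), (38218807, 4226), (38594092, 4048), (38729833, 3981)]

/-- A certificate. -/
def row10MainN131 : Cert :=
  .leaf 8634524 100000000 8634525 100000000
    [(263088, 2954), (774605, 7832), (3770632, 8909), (10128057, 8659), (18969992, 8057),
     (27665779, 7377), (31830988, 7023), (32625672, 6860), (34612381, 6418),
     (37195103, 5752), (39777825, 4945), (41764534, 4179), (42559218, 3819)]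

/-- A certificate. -/
def row10MainN129 : Cert :=
  .splitM 42559218 row10MainN130 row10MainN131

/-- A certificate. -/
def row10MainN123 : Cert :=
  .splitC 237316 row10MainN124 row10MainN129

/-- A certificate. -/
def row10MainN134 : Cert :=
  .leaf 8152208 100000000 8152209 100000000
    [(237316, 3133), (305879, 5279), (749250, 8031), (1841682, 8861), (3747724, 9043),
     (6522226, 8998), (10110338, 8841), (14347511, 8612), (18959492, 8339),
     (23562332, 8050), (27662379, 7779), (30656281, 7574), (31830988, 7492),
     (32117423, 7445), (32909330, 7312), (34105615, 7101), (35605184, 6817),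
     (37306943, 6465), (39109796, 6053), (40912648, 5591), (42614407, 5097),
     (44113976, 4600), (45310261, 4149), (46102168, 3814), (46388603, 3684)]

/-- A certificate. -/
def row10MainN135 : Cert :=
  .leaf 8152208 100000000 8152209 100000000
    [(237316, 3145), (305879, 5299), (749250, 8065), (1841682, 8907), (3747724, 9105),
     (6522226, 9084), (10110338, 8958), (14347511, 8769), (18959492, 8541),
     (23562332, 8299), (27662379, 8075), (30656281, 7905), (31830988, 7838),
     (32192769, 7789), (33192988, 7648), (34703957, 7423), (36597988, 7118),
     (38747394, 6737), (41024488, 6284), (43301582, 5771), (45450988, 5213),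
     (47345019, 4643), (48855988, 4114), (49856207, 3713), (50217988, 3555)]

/-- A certificate. -/
def row10MainN133 : Cert :=
  .splitM 50217988 row10MainN134 row10MainN135

/-- A certificate. -/
def row10MainN137 : Cert :=
  .leaf 8634524 100000000 8634525 100000000
    [(263088, 2967), (486591, 6778), (1866145, 8774), (5049139, 8991), (10128057, 8807),
     (16640478, 8453), (23569077, 8029), (29341625, 7649), (31830988, 7478),
     (32456511, 7375), (34105615, 7087), (36437108, 6636), (39109796, 6040),
     (41782483, 5335), (44113976, 4590), (45763080, 3952), (46388603, 3675)]

/-- A certificate. -/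
def row10MainN138 : Cert :=
  .leaf 8634524 100000000 8634525 100000000
    [(263088, 2979), (486591, 6806), (1866145, 8822), (5049139, 9066), (10128057, 8926),
     (16640478, 8633), (23569077, 8280), (29341625, 7964), (31830988, 7823),
     (32621054, 7715), (34703957, 7409), (37648750, 6923), (41024488, 6271),
     (44400226, 5484), (47345019, 4633), (49427922, 3882), (50217988, 3547)]

/-- A certificate. -/
def row10MainN136 : Cert :=
  .splitM 50217988 row10MainN137 row10MainN138

/-- A certificate. -/
def row10MainN132 : Cert :=
  .splitC 237316 row10MainN133 row10MainN136

/-- A certificate. -/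
def row10MainN122 : Cert :=
  .splitM 46388603 row10MainN123 row10MainN132

/-- A certificate. -/
def row10MainN92 : Cert :=
  .splitC 211544 row10MainN93 row10MainN122

/-- A certificate. -/
def row10MainN143 : Cert :=
  .leaf 7089815 100000000 7089816 100000000
    [(185772, 3586), (215227, 4876), (409823, 7510), (902830, 8706), (1792756, 9123),
     (3143337, 9256), (4983545, 9268), (7307587, 9216), (10074902, 9122), (13210162, 8998),
     (16603273, 8854), (20109375, 8698), (23548842, 8540), (26707279, 8391),
     (29335528, 8264), (31149662, 8174), (31830988, 8140), (32080488, 8112),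
     (32785598, 8029), (33881231, 7895), (35302298, 7711), (36983714, 7480),
     (38860391, 7200), (40867243, 6874), (42939181, 6504), (45011119, 6093),
     (47017971, 5648), (48894648, 5179), (50576064, 4703), (51997131, 4246),
     (53092764, 3848), (53797874, 3563), (54047374, 3456)]

/-- A certificate. -/
def row10MainN144 : Cert :=
  .leaf 7089815 100000000 7089816 100000000
    [(185772, 3595), (1792756, 9153), (10074902, 9199), (23548842, 8700), (31830988, 8358),
     (35900640, 7920), (44853874, 6663), (53807107, 4735), (57876759, 3350)]

/-- A certificate. -/
def row10MainN142 : Cert :=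
  .splitM 57876759 row10MainN143 row10MainN144

/-- A certificate. -/
def row10MainN145 : Cert :=
  .leaf 7089815 98103493 7089816 98103494
    [(185772, 3612), (1792756, 9211), (10074902, 9338), (23548842, 8979), (31830988, 8731),
     (36498981, 8359), (46768566, 7296), (57038152, 5739), (61706145, 4743)]

/-- A certificate. -/
def row10MainN141 : Cert :=
  .splitM 61706145 row10MainN142 row10MainN145

/-- A certificate. -/
def row10MainN148 : Cert :=
  .leaf 7639502 100000000 7639503 100000000
    [(211544, 3351), (435412, 7263), (1817219, 9032), (5005410, 9219), (10092620, 9087),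
     (16615674, 8827), (23555587, 8518), (29337560, 8246), (31830988, 8124),
     (32785598, 8012), (35302298, 7695), (38860391, 7184), (42939181, 6489),
     (47017971, 5634), (50576064, 4691), (53092764, 3838), (54047374, 3447)]

/-- A certificate. -/
def row10MainN149 : Cert :=
  .leaf 7639502 100000000 7639503 100000000
    [(211544, 3360), (1817219, 9064), (10092620, 9165), (23555587, 8679), (31830988, 8341),
     (35900640, 7904), (44853874, 6648), (53807107, 4723), (57876759, 3341)]

/-- A certificate. -/
def row10MainN147 : Cert :=
  .splitM 57876759 row10MainN148 row10MainN149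

/-- A certificate. -/
def row10MainN150 : Cert :=
  .leaf 7639502 98103493 7639503 98103494
    [(211544, 3377), (1817219, 9125), (10092620, 9307), (23555587, 8959), (31830988, 8716),
     (36498981, 8343), (46768566, 7280), (57038152, 5725), (61706145, 4733)]

/-- A certificate. -/
def row10MainN146 : Cert :=
  .splitM 61706145 row10MainN147 row10MainN150

/-- A certificate. -/
def row10MainN140 : Cert :=
  .splitC 185772 row10MainN141 row10MainN146

/-- A certificate. -/
def row10MainN154 : Cert :=
  .leaf 8152208 100000000 8152209 100000000
    [(237316, 3155), (749250, 8094), (3747724, 9157), (10110338, 9054), (18959492, 8702),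
     (27662379, 8308), (31830988, 8109), (33476646, 7913), (37590792, 7360),
     (42939181, 6474), (48287570, 5311), (52401716, 4084), (54047374, 3438)]

/-- A certificate. -/
def row10MainN155 : Cert :=
  .leaf 8152208 100000000 8152209 100000000
    [(237316, 3164), (1841682, 8979), (10110338, 9134), (23562332, 8659), (31830988, 8326),
     (35900640, 7888), (44853874, 6633), (53807107, 4712), (57876759, 3333)]

/-- A certificate. -/
def row10MainN153 : Cert :=
  .splitM 57876759 row10MainN154 row10MainN155

/-- A certificate. -/
def row10MainN157 : Cert :=
  .leaf 8634524 100000000 8634525 100000000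
    [(263088, 2990), (774605, 7938), (3770632, 9104), (10128057, 9023), (18969992, 8680),
     (27665779, 8291), (31830988, 8094), (33476646, 7899), (37590792, 7346),
     (42939181, 6461), (48287570, 5299), (52401716, 4074), (54047374, 3430)]

/-- A certificate. -/
def row10MainN158 : Cert :=
  .leaf 8634524 100000000 8634525 100000000
    [(263088, 2998), (1866145, 8896), (10128057, 9104), (23569077, 8640), (31830988, 8312),
     (35900640, 7874), (44853874, 6619), (53807107, 4701), (57876759, 3325)]

/-- A certificate. -/
def row10MainN156 : Cert :=
  .splitM 57876759 row10MainN157 row10MainN158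

/-- A certificate. -/
def row10MainN152 : Cert :=
  .splitC 237316 row10MainN153 row10MainN156

/-- A certificate. -/
def row10MainN159 : Cert :=
  .leaf 8152208 98103493 8152209 98103494
    [(263088, 4273), (1866145, 9049), (10128057, 9277), (23569077, 8941), (31830988, 8701),
     (36498981, 8328), (46768566, 7265), (57038152, 5713), (61706145, 4723)]

/-- A certificate. -/
def row10MainN151 : Cert :=
  .splitM 61706145 row10MainN152 row10MainN159

/-- A certificate. -/
def row10MainN139 : Cert :=
  .splitC 211544 row10MainN140 row10MainN151

/-- A certificate. -/
def row10MainN91 : Cert :=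
  .splitM 54047374 row10MainN92 row10MainN139

/-- A certificate. -/
def row10MainN164 : Cert :=
  .leaf 9091288 100000000 9091289 100000000
    [(314632, 3785), (825314, 7686), (3816449, 8755), (10163493, 8432), (18990991, 7693),
     (27672580, 6841), (31830988, 6387), (32342014, 6252), (33619577, 5893),
     (35280410, 5370), (36941244, 4763), (38218807, 4217), (38729833, 3972)]

/-- A certificate. -/
def row10MainN165 : Cert :=
  .leaf 9091288 100000000 9091289 100000000
    [(314632, 3808), (825314, 7738), (3816449, 8854), (10163493, 8624), (18990991, 8033),
     (27672580, 7360), (31830988, 7010), (32625672, 6847), (34612381, 6405),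
     (37195103, 5740), (39777825, 4935), (41764534, 4170), (42559218, 3811)]

/-- A certificate. -/
def row10MainN163 : Cert :=
  .splitM 42559218 row10MainN164 row10MainN165

/-- A certificate. -/
def row10MainN167 : Cert :=
  .leaf 9942060 100000000 9942061 100000000
    [(366177, 3488), (876023, 7410), (3862267, 8645), (10198930, 8365), (19011991, 7646),
     (27679381, 6810), (31830988, 6364), (32342014, 6230), (33619577, 5872),
     (35280410, 5350), (36941244, 4745), (38218807, 4201), (38729833, 3957)]

/-- A certificate. -/
def row10MainN168 : Cert :=
  .leaf 9942060 100000000 9942061 100000000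
    [(366177, 3510), (1963999, 8479), (10198930, 8560), (23596057, 7650), (31830988, 6986),
     (33507274, 6634), (37195103, 5719), (40882932, 4512), (42559218, 3796)]

/-- A certificate. -/
def row10MainN166 : Cert :=
  .splitM 42559218 row10MainN167 row10MainN168

/-- A certificate. -/
def row10MainN162 : Cert :=
  .splitC 314632 row10MainN163 row10MainN166

/-- A certificate. -/
def row10MainN172 : Cert :=
  .leaf 9091288 100000000 9091289 100000000
    [(288860, 2824), (799959, 7724), (3793541, 8933), (10145775, 8774), (18980491, 8292),
     (27669179, 7746), (31830988, 7464), (32909330, 7285), (35605184, 6790),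
     (39109796, 6028), (42614407, 5075), (45310261, 4130), (46388603, 3667)]

/-- A certificate. -/
def row10MainN173 : Cert :=
  .leaf 9091288 100000000 9091289 100000000
    [(288860, 2836), (512181, 6615), (1890609, 8740), (5071004, 9021), (10145775, 8895),
     (16652879, 8609), (23575822, 8261), (29343657, 7949), (31830988, 7810),
     (32621054, 7701), (34703957, 7395), (37648750, 6910), (41024488, 6259),
     (44400226, 5472), (47345019, 4623), (49427922, 3873), (50217988, 3539)]

/-- A certificate. -/
def row10MainN171 : Cert :=
  .splitM 50217988 row10MainN172 row10MainN173

/-- A certificate. -/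
def row10MainN175 : Cert :=
  .leaf 9526176 100000000 9526177 100000000
    [(314632, 2699), (825314, 7582), (3816449, 8880), (10163493, 8743), (18990991, 8270),
     (27672580, 7730), (31830988, 7452), (32909330, 7272), (35605184, 6778),
     (39109796, 6017), (42614407, 5065), (45310261, 4122), (46388603, 3660)]

/-- A certificate. -/
def row10MainN176 : Cert :=
  .leaf 9526176 100000000 9526177 100000000
    [(314632, 2711), (825314, 7619), (3816449, 8947), (10163493, 8865), (18990991, 8474),
     (27672580, 8026), (31830988, 7797), (33192988, 7607), (36597988, 7078),
     (41024488, 6247), (45450988, 5180), (48855988, 4087), (50217988, 3531)]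

/-- A certificate. -/
def row10MainN174 : Cert :=
  .splitM 50217988 row10MainN175 row10MainN176

/-- A certificate. -/
def row10MainN170 : Cert :=
  .splitC 288860 row10MainN171 row10MainN174

/-- A certificate. -/
def row10MainN178 : Cert :=
  .leaf 9942060 100000000 9942061 100000000
    [(366177, 3530), (876023, 7509), (3862267, 8830), (10198930, 8712), (19011991, 8249),
     (27679381, 7715), (31830988, 7440), (32909330, 7260), (35605184, 6766),
     (39109796, 6006), (42614407, 5055), (45310261, 4114), (46388603, 3652)]

/-- A certificate. -/
def row10MainN179 : Cert :=
  .leaf 9942060 100000000 9942061 100000000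
    [(366177, 3546), (876023, 7547), (3862267, 8899), (10198930, 8835), (19011991, 8454),
     (27679381, 8011), (31830988, 7784), (33192988, 7595), (36597988, 7066),
     (41024488, 6236), (45450988, 5171), (48855988, 4079), (50217988, 3524)]

/-- A certificate. -/
def row10MainN177 : Cert :=
  .splitM 50217988 row10MainN178 row10MainN179

/-- A certificate. -/
def row10MainN169 : Cert :=
  .splitC 314632 row10MainN170 row10MainN177

/-- A certificate. -/
def row10MainN161 : Cert :=
  .splitM 46388603 row10MainN162 row10MainN169

/-- A certificate. -/
def row10MainN184 : Cert :=
  .leaf 9091288 100000000 9091289 100000000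
    [(288860, 2846), (799959, 7790), (3793541, 9053), (10145775, 8993), (18980491, 8659),
     (27669179, 8275), (31830988, 8081), (33476646, 7885), (37590792, 7332),
     (42939181, 6448), (48287570, 5288), (52401716, 4065), (54047374, 3423)]

/-- A certificate. -/
def row10MainN185 : Cert :=
  .leaf 9091288 100000000 9091289 100000000
    [(288860, 2855), (1890609, 8816), (10145775, 9075), (23575822, 8622), (31830988, 8298),
     (35900640, 7860), (44853874, 6606), (53807107, 4691), (57876759, 3318)]

/-- A certificate. -/
def row10MainN183 : Cert :=
  .splitM 57876759 row10MainN184 row10MainN185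

/-- A certificate. -/
def row10MainN187 : Cert :=
  .leaf 9526176 100000000 9526177 100000000
    [(314632, 2721), (825314, 7650), (3816449, 9003), (10163493, 8964), (18990991, 8638),
     (27672580, 8260), (31830988, 8068), (33476646, 7872), (37590792, 7320),
     (42939181, 6436), (48287570, 5278), (52401716, 4057), (54047374, 3416)]

/-- A certificate. -/
def row10MainN188 : Cert :=
  .leaf 9526176 100000000 9526177 100000000
    [(314632, 2730), (1915072, 8739), (10163493, 9047), (23582567, 8605), (31830988, 8285),
     (35900640, 7847), (44853874, 6594), (53807107, 4681), (57876759, 3311)]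

/-- A certificate. -/
def row10MainN186 : Cert :=
  .splitM 57876759 row10MainN187 row10MainN188

/-- A certificate. -/
def row10MainN182 : Cert :=
  .splitC 288860 row10MainN183 row10MainN186

/-- A certificate. -/
def row10MainN189 : Cert :=
  .leaf 9091288 98103493 9091289 98103494
    [(314632, 3893), (3816449, 9187), (18990991, 9028), (31830988, 8674), (39576399, 8020),
     (53960734, 6225), (61706145, 4705)]

/-- A certificate. -/
def row10MainN181 : Cert :=
  .splitM 61706145 row10MainN182 row10MainN189

/-- A certificate. -/
def row10MainN193 : Cert :=
  .leaf 9942060 100000000 9942061 100000000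
    [(340404, 2611), (850668, 7517), (3839358, 8955), (10181212, 8936), (19001491, 8618),
     (27675980, 8246), (31830988, 8055), (33476646, 7859), (37590792, 7307),
     (42939181, 6424), (48287570, 5268), (52401716, 4049), (54047374, 3409)]

/-- A certificate. -/
def row10MainN194 : Cert :=
  .leaf 9942060 100000000 9942061 100000000
    [(340404, 2620), (1939535, 8664), (10181212, 9020), (23589312, 8589), (31830988, 8273),
     (35900640, 7834), (44853874, 6582), (53807107, 4672), (57876759, 3304)]

/-- A certificate. -/
def row10MainN192 : Cert :=
  .splitM 57876759 row10MainN193 row10MainN194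

/-- A certificate. -/
def row10MainN196 : Cert :=
  .leaf 10341231 100000000 10341232 100000000
    [(366177, 2512), (1963999, 8552), (10198930, 8909), (23596057, 8410), (31830988, 8043),
     (35302298, 7614), (42939181, 6413), (50576064, 4632), (54047374, 3402)]

/-- A certificate. -/
def row10MainN197 : Cert :=
  .leaf 10341231 100000000 10341232 100000000
    [(366177, 2521), (1963999, 8590), (10198930, 8993), (23596057, 8573), (31830988, 8261),
     (35900640, 7822), (44853874, 6571), (53807107, 4663), (57876759, 3298)]

/-- A certificate. -/
def row10MainN195 : Cert :=
  .splitM 57876759 row10MainN196 row10MainN197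

/-- A certificate. -/
def row10MainN191 : Cert :=
  .splitC 340404 row10MainN192 row10MainN195

/-- A certificate. -/
def row10MainN198 : Cert :=
  .leaf 9942060 98103493 9942061 98103494
    [(366177, 3596), (3862267, 9096), (19011991, 8992), (31830988, 8649), (39576399, 7994),
     (53960734, 6203), (61706145, 4689)]

/-- A certificate. -/
def row10MainN190 : Cert :=
  .splitM 61706145 row10MainN191 row10MainN198

/-- A certificate. -/
def row10MainN180 : Cert :=
  .splitC 314632 row10MainN181 row10MainN190

/-- A certificate. -/
def row10MainN160 : Cert :=
  .splitM 54047374 row10MainN161 row10MainN180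

/-- A certificate. -/
def row10MainN90 : Cert :=
  .splitC 263088 row10MainN91 row10MainN160

/-- A certificate. -/
def row10MainN204 : Cert :=
  .leaf 7089815 84960117 7089816 84960118
    [(185772, 3638), (3701907, 9497), (18938493, 9409), (31830988, 9200), (41251957, 8732),
     (58748043, 7473), (68169012, 6500), (68479061, 6419), (69054867, 6260),
     (69364916, 6170)]

/-- A certificate. -/
def row10MainN205 : Cert :=
  .leaf 7089815 69369645 7089816 69369646
    [(185772, 3662), (10074902, 9667), (31830988, 9525), (50000000, 8989), (68169012, 8202),
     (72596350, 7585), (77023687, 6613)]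

/-- A certificate. -/
def row10MainN203 : Cert :=
  .splitM 77023687 row10MainN204 row10MainN205

/-- A certificate. -/
def row10MainN207 : Cert :=
  .leaf 7639502 84960117 7639503 84960118
    [(211544, 3403), (3724816, 9448), (18948992, 9390), (31830988, 9187), (41251957, 8719),
     (58748043, 7462), (68169012, 6493), (68479061, 6412), (69054867, 6253),
     (69364916, 6163)]

/-- A certificate. -/
def row10MainN208 : Cert :=
  .leaf 7639502 69369645 7639503 69369646
    [(211544, 3427), (10092620, 9644), (31830988, 9515), (50000000, 8978), (68169012, 8195),
     (72596350, 7578), (77023687, 6607)]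

/-- A certificate. -/
def row10MainN206 : Cert :=
  .splitM 77023687 row10MainN207 row10MainN208

/-- A certificate. -/
def row10MainN202 : Cert :=
  .splitC 185772 row10MainN203 row10MainN206

/-- A certificate. -/
def row10MainN211 : Cert :=
  .leaf 7089815 49051746 7089816 49051747
    [(185772, 3686), (10074902, 9785), (31830988, 9765), (50000000, 9546), (68169012, 9247),
     (76425735, 8740), (84682458, 7540)]

/-- A certificate. -/
def row10MainN212 : Cert :=
  .leaf 7089815 0 7089816 0
    [(185772, 3730), (10074902, 9935), (31830988, 9988), (50000000, 9993), (68169012, 9997),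
     (80255120, 9998), (92341229, 9999)]

/-- A certificate. -/
def row10MainN210 : Cert :=
  .splitM 92341229 row10MainN211 row10MainN212

/-- A certificate. -/
def row10MainN214 : Cert :=
  .leaf 7639502 49051746 7639503 49051747
    [(211544, 3452), (10092620, 9766), (31830988, 9758), (50000000, 9538), (68169012, 9242),
     (76425735, 8734), (84682458, 7534)]

/-- A certificate. -/
def row10MainN215 : Cert :=
  .leaf 7639502 0 7639503 0
    [(211544, 3496), (10092620, 9925), (31830988, 9986), (50000000, 9992), (68169012, 9997),
     (80255120, 9998), (92341229, 9999)]

/-- A certificate. -/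
def row10MainN213 : Cert :=
  .splitM 92341229 row10MainN214 row10MainN215

/-- A certificate. -/
def row10MainN209 : Cert :=
  .splitC 185772 row10MainN210 row10MainN213

/-- A certificate. -/
def row10MainN201 : Cert :=
  .splitM 84682458 row10MainN202 row10MainN209

/-- A certificate. -/
def row10MainN219 : Cert :=
  .leaf 8152208 84960117 8152209 84960118
    [(237316, 3208), (3747724, 9401), (18959492, 9372), (31830988, 9175), (41251957, 8706),
     (58748043, 7451), (68169012, 6486), (68479061, 6405), (69054867, 6247),
     (69364916, 6157)]

/-- A certificate. -/
def row10MainN220 : Cert :=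
  .leaf 8152208 69369645 8152209 69369646
    [(237316, 3232), (10110338, 9623), (31830988, 9505), (50000000, 8968), (68169012, 8188),
     (72596350, 7571), (77023687, 6601)]

/-- A certificate. -/
def row10MainN218 : Cert :=
  .splitM 77023687 row10MainN219 row10MainN220

/-- A certificate. -/
def row10MainN222 : Cert :=
  .leaf 8634524 84960117 8634525 84960118
    [(263088, 3043), (3770632, 9356), (18969992, 9356), (31830988, 9163), (41251957, 8694),
     (58748043, 7442), (68169012, 6480), (68479061, 6399), (69054867, 6241),
     (69364916, 6151)]

/-- A certificate. -/
def row10MainN223 : Cert :=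
  .leaf 8634524 69369645 8634525 69369646
    [(263088, 3067), (10128057, 9602), (31830988, 9495), (50000000, 8959), (68169012, 8182),
     (72596350, 7565), (77023687, 6595)]

/-- A certificate. -/
def row10MainN221 : Cert :=
  .splitM 77023687 row10MainN222 row10MainN223

/-- A certificate. -/
def row10MainN217 : Cert :=
  .splitC 237316 row10MainN218 row10MainN221

/-- A certificate. -/
def row10MainN226 : Cert :=
  .leaf 8152208 49051746 8152209 49051747
    [(237316, 3257), (10110338, 9749), (31830988, 9750), (50000000, 9531), (68169012, 9236),
     (76425735, 8729), (84682458, 7529)]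

/-- A certificate. -/
def row10MainN227 : Cert :=
  .leaf 8152208 0 8152209 0
    [(237316, 3302), (10110338, 9914), (31830988, 9984), (50000000, 9991), (68169012, 9996),
     (80255120, 9997), (92341229, 9999)]

/-- A certificate. -/
def row10MainN225 : Cert :=
  .splitM 92341229 row10MainN226 row10MainN227

/-- A certificate. -/
def row10MainN229 : Cert :=
  .leaf 8634524 49051746 8634525 49051747
    [(263088, 3091), (10128057, 9731), (31830988, 9743), (50000000, 9524), (68169012, 9231),
     (76425735, 8723), (84682458, 7524)]

/-- A certificate. -/
def row10MainN230 : Cert :=
  .leaf 8634524 0 8634525 0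
    [(263088, 3137), (10128057, 9904), (31830988, 9982), (50000000, 9990), (68169012, 9996),
     (80255120, 9997), (92341229, 9999)]

/-- A certificate. -/
def row10MainN228 : Cert :=
  .splitM 92341229 row10MainN229 row10MainN230

/-- A certificate. -/
def row10MainN224 : Cert :=
  .splitC 237316 row10MainN225 row10MainN228

/-- A certificate. -/
def row10MainN216 : Cert :=
  .splitM 84682458 row10MainN217 row10MainN224

/-- A certificate. -/
def row10MainN200 : Cert :=
  .splitC 211544 row10MainN201 row10MainN216

/-- A certificate. -/
def row10MainN232 : Cert :=
  .leaf 9091288 69369645 9091289 69369646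
    [(366177, 5194), (374997, 5348), (434460, 6148), (588950, 7281), (876023, 8185),
     (1326407, 8758), (1963999, 9098), (2805872, 9300), (3862267, 9422), (5136599, 9497),
     (6625453, 9543), (8318587, 9569), (10198930, 9582), (12242584, 9586), (14418820, 9584),
     (16690084, 9577), (19011991, 9567), (21333329, 9555), (23596057, 9542),
     (25735307, 9528), (27679381, 9515), (29349754, 9504), (30661072, 9494),
     (31521154, 9488), (31830988, 9486), (32014991, 9482), (32545972, 9469),
     (33392387, 9448), (34522693, 9420), (35905347, 9384), (37508804, 9341),
     (39301522, 9291), (41251957, 9235), (43328566, 9172), (45499805, 9103),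
     (47734131, 9028), (50000000, 8950), (52265869, 8867), (54500195, 8782),
     (56671434, 8696), (58748043, 8610), (60698478, 8526), (62491196, 8446),
     (64094653, 8373), (65477307, 8308), (66607613, 8253), (67454028, 8211),
     (67985009, 8185), (68169012, 8176), (68293386, 8161), (68589970, 8127),
     (68943958, 8084), (69240542, 8048), (69364916, 8032)]

/-- A certificate. -/
def row10MainN236 : Cert :=
  .leaf 9091288 49051746 9091289 49051747
    [(288860, 2949), (10145775, 9715), (31830988, 9736), (50000000, 9517), (68169012, 9226),
     (76425735, 8718), (84682458, 7519)]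

/-- A certificate. -/
def row10MainN237 : Cert :=
  .leaf 9091288 0 9091289 0
    [(288860, 2994), (10145775, 9894), (31830988, 9980), (50000000, 9989), (68169012, 9995),
     (80255120, 9997), (92341229, 9998)]

/-- A certificate. -/
def row10MainN235 : Cert :=
  .splitM 92341229 row10MainN236 row10MainN237

/-- A certificate. -/
def row10MainN239 : Cert :=
  .leaf 9526176 49051746 9526177 49051747
    [(314632, 2824), (10163493, 9698), (31830988, 9730), (50000000, 9511), (68169012, 9221),
     (76425735, 8714), (84682458, 7515)]

/-- A certificate. -/
def row10MainN240 : Cert :=
  .leaf 9526176 0 9526177 0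
    [(314632, 2870), (10163493, 9883), (31830988, 9978), (50000000, 9988), (68169012, 9995),
     (80255120, 9997), (92341229, 9998)]

/-- A certificate. -/
def row10MainN238 : Cert :=
  .splitM 92341229 row10MainN239 row10MainN240

/-- A certificate. -/
def row10MainN234 : Cert :=
  .splitC 288860 row10MainN235 row10MainN238

/-- A certificate. -/
def row10MainN241 : Cert :=
  .leaf 9942060 0 9942061 0
    [(366177, 3763), (876023, 8030), (3862267, 9613), (10198930, 9874), (19011991, 9945),
     (27679381, 9970), (31830988, 9976), (34522693, 9978), (41251957, 9982),
     (50000000, 9987), (58748043, 9991), (65477307, 9994), (68169012, 9994),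
     (69392230, 9995), (72450276, 9995), (76425735, 9996), (80401194, 9996),
     (83459240, 9997), (84682458, 9997)]

/-- A certificate. -/
def row10MainN233 : Cert :=
  .splitC 314632 row10MainN234 row10MainN241

/-- A certificate. -/
def row10MainN231 : Cert :=
  .splitM 84682458 row10MainN232 row10MainN233

/-- A certificate. -/
def row10MainN199 : Cert :=
  .splitC 263088 row10MainN200 row10MainN231

/-- A certificate. -/
def row10MainN89 : Cert :=
  .splitM 69364916 row10MainN90 row10MainN199

/-- A certificate. -/
def row10MainN248 : Cert :=
  .leaf 10725572 100000000 10725573 100000000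
    [(417721, 3247), (2012926, 8250), (10234367, 8302), (23609547, 7184), (31830988, 6343),
     (32908933, 6055), (35280410, 5331), (37651888, 4437), (38729833, 3943)]

/-- A certificate. -/
def row10MainN249 : Cert :=
  .leaf 10725572 100000000 10725573 100000000
    [(417721, 3270), (2012926, 8328), (10234367, 8500), (23609547, 7615), (31830988, 6964),
     (33507274, 6612), (37195103, 5699), (40882932, 4496), (42559218, 3782)]

/-- A certificate. -/
def row10MainN247 : Cert :=
  .splitM 42559218 row10MainN248 row10MainN249

/-- A certificate. -/
def row10MainN251 : Cert :=
  .leaf 11455606 100000000 11455607 100000000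
    [(469265, 3048), (2061852, 8104), (10269803, 8243), (23623037, 7151), (31830988, 6324),
     (32908933, 6036), (35280410, 5314), (37651888, 4422), (38729833, 3929)]

/-- A certificate. -/
def row10MainN252 : Cert :=
  .leaf 11455606 100000000 11455607 100000000
    [(469265, 3071), (2061852, 8184), (10269803, 8443), (23623037, 7583), (31830988, 6943),
     (33507274, 6592), (37195103, 5681), (40882932, 4481), (42559218, 3769)]

/-- A certificate. -/
def row10MainN250 : Cert :=
  .splitM 42559218 row10MainN251 row10MainN252

/-- A certificate. -/
def row10MainN246 : Cert :=
  .splitC 417721 row10MainN247 row10MainN250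

/-- A certificate. -/
def row10MainN255 : Cert :=
  .leaf 10725572 100000000 10725573 100000000
    [(417721, 3289), (2012926, 8392), (10234367, 8655), (23609547, 7940), (31830988, 7417),
     (34105615, 7027), (39109796, 5985), (44113976, 4546), (46388603, 3639)]

/-- A certificate. -/
def row10MainN256 : Cert :=
  .leaf 10725572 100000000 10725573 100000000
    [(417721, 3306), (926732, 7302), (3908084, 8804), (10234367, 8780), (19032990, 8415),
     (27686182, 7983), (31830988, 7761), (33192988, 7572), (36597988, 7043),
     (41024488, 6214), (45450988, 5152), (48855988, 4064), (50217988, 3511)]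

/-- A certificate. -/
def row10MainN254 : Cert :=
  .splitM 50217988 row10MainN255 row10MainN256

/-- A certificate. -/
def row10MainN258 : Cert :=
  .leaf 11455606 100000000 11455607 100000000
    [(469265, 3090), (2061852, 8251), (10269803, 8601), (23623037, 7909), (31830988, 7395),
     (34105615, 7006), (39109796, 5966), (44113976, 4530), (46388603, 3626)]

/-- A certificate. -/
def row10MainN259 : Cert :=
  .leaf 11455606 100000000 11455607 100000000
    [(469265, 3107), (977441, 7077), (3953901, 8713), (10269803, 8728), (19053990, 8379),
     (27692983, 7957), (31830988, 7739), (33192988, 7550), (36597988, 7022),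
     (41024488, 6195), (45450988, 5135), (48855988, 4050), (50217988, 3499)]

/-- A certificate. -/
def row10MainN257 : Cert :=
  .splitM 50217988 row10MainN258 row10MainN259

/-- A certificate. -/
def row10MainN253 : Cert :=
  .splitC 417721 row10MainN254 row10MainN257

/-- A certificate. -/
def row10MainN245 : Cert :=
  .splitM 46388603 row10MainN246 row10MainN253

/-- A certificate. -/
def row10MainN263 : Cert :=
  .leaf 12141826 100000000 12141827 100000000
    [(520809, 2879), (2110779, 7965), (10305240, 8186), (23636527, 7120), (31830988, 6306),
     (32908933, 6019), (35280410, 5298), (37651888, 4408), (38729833, 3917)]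

/-- A certificate. -/
def row10MainN264 : Cert :=
  .leaf 12141826 100000000 12141827 100000000
    [(520809, 2902), (2110779, 8048), (10305240, 8389), (23636527, 7553), (31830988, 6924),
     (33507274, 6574), (37195103, 5664), (40882932, 4467), (42559218, 3757)]

/-- A certificate. -/
def row10MainN262 : Cert :=
  .splitM 42559218 row10MainN263 row10MainN264

/-- A certificate. -/
def row10MainN266 : Cert :=
  .leaf 12791285 100000000 12791286 100000000
    [(572354, 2734), (2159707, 7833), (10340677, 8133), (23650017, 7091), (31830988, 6289),
     (32908933, 6002), (35280410, 5283), (37651888, 4395), (38729833, 3906)]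

/-- A certificate. -/
def row10MainN267 : Cert :=
  .leaf 12791285 100000000 12791286 100000000
    [(572354, 2757), (2159707, 7918), (10340677, 8338), (23650017, 7525), (31830988, 6906),
     (33507274, 6556), (37195103, 5648), (40882932, 4454), (42559218, 3745)]

/-- A certificate. -/
def row10MainN265 : Cert :=
  .splitM 42559218 row10MainN266 row10MainN267

/-- A certificate. -/
def row10MainN261 : Cert :=
  .splitC 520809 row10MainN262 row10MainN265

/-- A certificate. -/
def row10MainN270 : Cert :=
  .leaf 12141826 100000000 12141827 100000000
    [(520809, 2922), (2110779, 8116), (10305240, 8549), (23636527, 7879), (31830988, 7375),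
     (34105615, 6986), (39109796, 5948), (44113976, 4516), (46388603, 3615)]

/-- A certificate. -/
def row10MainN271 : Cert :=
  .leaf 12141826 100000000 12141827 100000000
    [(520809, 2939), (2110779, 8174), (10305240, 8678), (23636527, 8133), (31830988, 7719),
     (34703957, 7306), (41024488, 6176), (47345019, 4557), (50217988, 3487)]

/-- A certificate. -/
def row10MainN269 : Cert :=
  .splitM 50217988 row10MainN270 row10MainN271

/-- A certificate. -/
def row10MainN273 : Cert :=
  .leaf 12791285 100000000 12791286 100000000
    [(572354, 2777), (2159707, 7988), (10340677, 8500), (23650017, 7851), (31830988, 7356),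
     (34105615, 6968), (39109796, 5931), (44113976, 4502), (46388603, 3603)]

/-- A certificate. -/
def row10MainN274 : Cert :=
  .leaf 12791285 100000000 12791286 100000000
    [(572354, 2794), (2159707, 8047), (10340677, 8630), (23650017, 8106), (31830988, 7700),
     (34703957, 7286), (41024488, 6159), (47345019, 4543), (50217988, 3476)]

/-- A certificate. -/
def row10MainN272 : Cert :=
  .splitM 50217988 row10MainN273 row10MainN274

/-- A certificate. -/
def row10MainN268 : Cert :=
  .splitC 520809 row10MainN269 row10MainN272

/-- A certificate. -/
def row10MainN260 : Cert :=
  .splitM 46388603 row10MainN261 row10MainN268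

/-- A certificate. -/
def row10MainN244 : Cert :=
  .splitC 469265 row10MainN245 row10MainN260

/-- A certificate. -/
def row10MainN279 : Cert :=
  .leaf 10725572 100000000 10725573 100000000
    [(417721, 3320), (2012926, 8491), (10234367, 8882), (23609547, 8394), (31830988, 8032),
     (35302298, 7602), (42939181, 6403), (50576064, 4624), (54047374, 3396)]

/-- A certificate. -/
def row10MainN280 : Cert :=
  .leaf 10725572 100000000 10725573 100000000
    [(417721, 3332), (3908084, 8913), (19032990, 8716), (31830988, 8249), (38583595, 7481),
     (51124152, 5331), (57876759, 3291)]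

/-- A certificate. -/
def row10MainN278 : Cert :=
  .splitM 57876759 row10MainN279 row10MainN280

/-- A certificate. -/
def row10MainN282 : Cert :=
  .leaf 11455606 100000000 11455607 100000000
    [(469265, 3121), (2061852, 8353), (10269803, 8832), (23623037, 8364), (31830988, 8010),
     (35302298, 7581), (42939181, 6382), (50576064, 4608), (54047374, 3384)]

/-- A certificate. -/
def row10MainN283 : Cert :=
  .leaf 11455606 100000000 11455607 100000000
    [(469265, 3134), (3953901, 8826), (19053990, 8682), (31830988, 8227), (38583595, 7460),
     (51124152, 5314), (57876759, 3280)]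

/-- A certificate. -/
def row10MainN281 : Cert :=
  .splitM 57876759 row10MainN282 row10MainN283

/-- A certificate. -/
def row10MainN277 : Cert :=
  .splitC 417721 row10MainN278 row10MainN281

/-- A certificate. -/
def row10MainN284 : Cert :=
  .leaf 10725572 98103493 10725573 98103494
    [(469265, 4478), (3953901, 9012), (19053990, 8957), (31830988, 8626), (39576399, 7971),
     (53960734, 6182), (61706145, 4673)]

/-- A certificate. -/
def row10MainN276 : Cert :=
  .splitM 61706145 row10MainN277 row10MainN284

/-- A certificate. -/
def row10MainN288 : Cert :=
  .leaf 12141826 100000000 12141827 100000000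
    [(520809, 2953), (2110779, 8222), (10305240, 8783), (23636527, 8336), (31830988, 7989),
     (35302298, 7560), (42939181, 6363), (50576064, 4593), (54047374, 3373)]

/-- A certificate. -/
def row10MainN289 : Cert :=
  .leaf 12141826 100000000 12141827 100000000
    [(520809, 2965), (3999718, 8742), (19074989, 8650), (31830988, 8206), (38583595, 7439),
     (51124152, 5297), (57876759, 3269)]

/-- A certificate. -/
def row10MainN287 : Cert :=
  .splitM 57876759 row10MainN288 row10MainN289

/-- A certificate. -/
def row10MainN290 : Cert :=
  .leaf 12791285 100000000 12791286 100000000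
    [(572354, 2820), (640190, 4058), (1078860, 6748), (2159707, 8140), (4045536, 8661),
     (6790615, 8824), (10340677, 8826), (14532916, 8745), (19095989, 8619),
     (23650017, 8474), (27706585, 8335), (30668738, 8229), (31830988, 8187),
     (32268116, 8143), (33476646, 8017), (35302298, 7816), (37590792, 7545),
     (40187846, 7206), (42939181, 6807), (45690516, 6359), (48287570, 5881),
     (50576064, 5404), (52401716, 4976), (53610246, 4663), (54047374, 4543)]

/-- A certificate. -/
def row10MainN286 : Cert :=
  .splitC 520809 row10MainN287 row10MainN290

/-- A certificate. -/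
def row10MainN291 : Cert :=
  .leaf 12141826 98103493 12141827 98103494
    [(572354, 4033), (4045536, 8849), (19095989, 8895), (31830988, 8585), (39576399, 7928),
     (53960734, 6146), (61706145, 4646)]

/-- A certificate. -/
def row10MainN285 : Cert :=
  .splitM 61706145 row10MainN286 row10MainN291

/-- A certificate. -/
def row10MainN275 : Cert :=
  .splitC 469265 row10MainN276 row10MainN285

/-- A certificate. -/
def row10MainN243 : Cert :=
  .splitM 54047374 row10MainN244 row10MainN275

/-- A certificate. -/
def row10MainN294 : Cert :=
  .leaf 10725572 69369645 10725573 69369646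
    [(469265, 4573), (2061852, 8838), (10269803, 9507), (23623037, 9499), (31830988, 9453),
     (37508804, 9307), (50000000, 8917), (62491196, 8420), (68169012, 8154),
     (68355872, 8132), (68766964, 8084), (69178056, 8034), (69364916, 8011)]

/-- A certificate. -/
def row10MainN295 : Cert :=
  .leaf 10725572 0 10725573 0
    [(469265, 4704), (2061852, 9101), (10269803, 9854), (23623037, 9954), (31830988, 9973),
     (37508804, 9977), (50000000, 9985), (62491196, 9991), (68169012, 9994),
     (70749238, 9994), (76425735, 9995), (82102232, 9996), (84682458, 9997)]

/-- A certificate. -/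
def row10MainN293 : Cert :=
  .splitM 84682458 row10MainN294 row10MainN295

/-- A certificate. -/
def row10MainN297 : Cert :=
  .leaf 12141826 69369645 12141827 69369646
    [(572354, 4130), (4045536, 9126), (19095989, 9473), (31830988, 9423), (41251957, 9171),
     (58748043, 8557), (68169012, 8135), (68479061, 8099), (69054867, 8030),
     (69364916, 7992)]

/-- A certificate. -/
def row10MainN298 : Cert :=
  .leaf 12141826 0 12141827 0
    [(572354, 4263), (4045536, 9445), (19095989, 9918), (31830988, 9965), (41251957, 9974),
     (58748043, 9987), (68169012, 9992), (72450276, 9993), (80401194, 9995),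
     (84682458, 9996)]

/-- A certificate. -/
def row10MainN296 : Cert :=
  .splitM 84682458 row10MainN297 row10MainN298

/-- A certificate. -/
def row10MainN292 : Cert :=
  .splitC 469265 row10MainN293 row10MainN296

/-- A certificate. -/
def row10MainN242 : Cert :=
  .splitM 69364916 row10MainN243 row10MainN292

/-- A certificate. -/
def row10MainN88 : Cert :=
  .splitC 366177 row10MainN89 row10MainN242

/-- A certificate. -/
def row10MainN2 : Cert :=
  .splitM 38729833 row10MainN3 row10MainN88

/-- A certificate. -/
def row10MainN304 : Cert :=
  .leaf 13409336 81093314 13409337 81093315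
    [(941124, 5249), (7970562, 6505), (15000000, 4480)]

/-- A certificate. -/
def row10MainN305 : Cert :=
  .leaf 13409336 91868723 13409337 91868724
    [(941124, 5365), (3162383, 7417), (12787840, 6173), (20932458, 4044)]

/-- A certificate. -/
def row10MainN303 : Cert :=
  .splitM 20932458 row10MainN304 row10MainN305

/-- A certificate. -/
def row10MainN307 : Cert :=
  .leaf 17194848 81093314 17194849 81093315
    [(1309895, 4238), (8154947, 6062), (15000000, 4252)]

/-- A certificate. -/
def row10MainN308 : Cert :=
  .leaf 17194848 91868723 17194849 91868724
    [(1309895, 4359), (6397226, 6790), (15845127, 5232), (20932458, 3868)]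

/-- A certificate. -/
def row10MainN306 : Cert :=
  .splitM 20932458 row10MainN307 row10MainN308

/-- A certificate. -/
def row10MainN302 : Cert :=
  .splitC 941124 row10MainN303 row10MainN306

/-- A certificate. -/
def row10MainN312 : Cert :=
  .leaf 13409336 100000000 13409337 100000000
    [(756739, 4321), (1179788, 6241), (3657648, 7682), (8915544, 7360), (16228251, 6295),
     (23420087, 4893), (26864916, 4034)]

/-- A certificate. -/
def row10MainN315 : Cert :=
  .leaf 13409336 100000000 13409337 100000000
    [(664546, 3306), (4127484, 7882), (19133549, 6475), (31830988, 4291), (32081533, 4159),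
     (32546829, 3899), (32797374, 3750)]

/-- A certificate. -/
def row10MainN316 : Cert :=
  .leaf 13409336 100000000 13409337 100000000
    [(664546, 3341), (4127484, 8026), (19133549, 6978), (31830988, 5372), (32850555, 4990),
     (34744036, 4155), (35763603, 3606)]

/-- A certificate. -/
def row10MainN314 : Cert :=
  .splitM 35763603 row10MainN315 row10MainN316

/-- A certificate. -/
def row10MainN317 : Cert :=
  .leaf 14448989 100000000 14448990 100000000
    [(756739, 3105), (824174, 3913), (1260257, 6086), (2334728, 7404), (4209433, 7874),
     (6938321, 7912), (10467442, 7715), (14634952, 7367), (19171109, 6917),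
     (23698274, 6411), (27730913, 5911), (30675594, 5513), (31830988, 5348),
     (31981986, 5294), (32314181, 5172), (32646376, 5047), (32797374, 4988)]

/-- A certificate. -/
def row10MainN313 : Cert :=
  .splitC 664546 row10MainN314 row10MainN317

/-- A certificate. -/
def row10MainN311 : Cert :=
  .splitM 32797374 row10MainN312 row10MainN313

/-- A certificate. -/
def row10MainN319 : Cert :=
  .leaf 15418708 100000000 15418709 100000000
    [(941124, 3799), (2257567, 6858), (9042309, 7144), (20080174, 5481), (26864916, 3964)]

/-- A certificate. -/
def row10MainN320 : Cert :=
  .leaf 15418708 100000000 15418709 100000000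
    [(941124, 3905), (1159827, 5189), (2509750, 7255), (5624377, 7808), (10594206, 7624),
     (16966749, 7084), (23746531, 6363), (29395093, 5662), (31830988, 5326),
     (31981986, 5272), (32314181, 5151), (32646376, 5026), (32797374, 4968)]

/-- A certificate. -/
def row10MainN318 : Cert :=
  .splitM 32797374 row10MainN319 row10MainN320

/-- A certificate. -/
def row10MainN310 : Cert :=
  .splitC 756739 row10MainN311 row10MainN318

/-- A certificate. -/
def row10MainN322 : Cert :=
  .leaf 17194848 100000000 17194849 100000000
    [(1309895, 4463), (4149342, 7069), (16453611, 5999), (26864916, 3903)]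

/-- A certificate. -/
def row10MainN323 : Cert :=
  .leaf 17194848 100000000 17194849 100000000
    [(1309895, 4608), (1804450, 5978), (4701128, 7496), (10847737, 7455), (19396469, 6744),
     (27803899, 5811), (31830988, 5286), (31981986, 5233), (32314181, 5112),
     (32646376, 4988), (32797374, 4930)]

/-- A certificate. -/
def row10MainN321 : Cert :=
  .splitM 32797374 row10MainN322 row10MainN323

/-- A certificate. -/
def row10MainN309 : Cert :=
  .splitC 941124 row10MainN310 row10MainN321

/-- A certificate. -/
def row10MainN301 : Cert :=
  .splitM 26864916 row10MainN302 row10MainN309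

/-- A certificate. -/
def row10MainN326 : Cert :=
  .leaf 20285848 81093314 20285849 81093315
    [(2047437, 4560), (8523719, 5665), (15000000, 4068)]

/-- A certificate. -/
def row10MainN327 : Cert :=
  .leaf 20285848 91868723 20285849 91868724
    [(2047437, 4725), (6943554, 6353), (16036341, 4983), (20932458, 3726)]

/-- A certificate. -/
def row10MainN325 : Cert :=
  .splitM 20932458 row10MainN326 row10MainN327

/-- A certificate. -/
def row10MainN330 : Cert :=
  .leaf 20285848 100000000 20285849 100000000
    [(1678666, 3823), (5614018, 6698), (14271791, 6091), (22929564, 4677), (26864916, 3798)]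

/-- A certificate. -/
def row10MainN331 : Cert :=
  .leaf 20285848 100000000 20285849 100000000
    [(1678666, 3975), (6389966, 7196), (16754827, 6801), (27119688, 5788), (31830988, 5218),
     (31981986, 5165), (32314181, 5046), (32646376, 4923), (32797374, 4866)]

/-- A certificate. -/
def row10MainN329 : Cert :=
  .splitM 32797374 row10MainN330 row10MainN331

/-- A certificate. -/
def row10MainN333 : Cert :=
  .leaf 22964504 100000000 22964505 100000000
    [(2047437, 3370), (8481598, 6366), (20430755, 4999), (26864916, 3709)]

/-- A certificate. -/
def row10MainN334 : Cert :=
  .leaf 22964504 100000000 22964505 100000000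
    [(2047437, 3527), (6701117, 6854), (16939213, 6617), (27177308, 5690), (31830988, 5160),
     (31981986, 5107), (32314181, 4989), (32646376, 4867), (32797374, 4811)]

/-- A certificate. -/
def row10MainN332 : Cert :=
  .splitM 32797374 row10MainN333 row10MainN334

/-- A certificate. -/
def row10MainN328 : Cert :=
  .splitC 1678666 row10MainN329 row10MainN332

/-- A certificate. -/
def row10MainN324 : Cert :=
  .splitM 26864916 row10MainN325 row10MainN328

/-- A certificate. -/
def row10MainN300 : Cert :=
  .splitC 1309895 row10MainN301 row10MainN324

/-- A certificate. -/
def row10MainN343 : Cert :=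
  .leaf 13409336 100000000 13409337 100000000
    [(664546, 3378), (4127484, 8174), (19133549, 7453), (31830988, 6273), (33619577, 5785),
     (36941244, 4672), (38729833, 3895)]

/-- A certificate. -/
def row10MainN344 : Cert :=
  .leaf 13409336 100000000 13409337 100000000
    [(664546, 3408), (4127484, 8291), (19133549, 7802), (31830988, 6888), (34612381, 6289),
     (39777825, 4840), (42559218, 3735)]

/-- A certificate. -/
def row10MainN342 : Cert :=
  .splitM 42559218 row10MainN343 row10MainN344

/-- A certificate. -/
def row10MainN346 : Cert :=
  .leaf 14448989 100000000 14448990 100000000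
    [(756739, 3143), (4209433, 8026), (19171109, 7395), (31830988, 6246), (33619577, 5760),
     (36941244, 4650), (38729833, 3876)]

/-- A certificate. -/
def row10MainN347 : Cert :=
  .leaf 14448989 100000000 14448990 100000000
    [(756739, 3173), (4209433, 8148), (19171109, 7746), (31830988, 6859), (34612381, 6261),
     (39777825, 4817), (42559218, 3717)]

/-- A certificate. -/
def row10MainN345 : Cert :=
  .splitM 42559218 row10MainN346 row10MainN347

/-- A certificate. -/
def row10MainN341 : Cert :=
  .splitC 664546 row10MainN342 row10MainN345

/-- A certificate. -/
def row10MainN350 : Cert :=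
  .leaf 13409336 100000000 13409337 100000000
    [(664546, 3434), (2247217, 7888), (10404059, 8451), (23674146, 7824), (31830988, 7338),
     (34105615, 6950), (39109796, 5915), (44113976, 4489), (46388603, 3593)]

/-- A certificate. -/
def row10MainN351 : Cert :=
  .leaf 13409336 100000000 13409337 100000000
    [(664546, 3456), (2247217, 7948), (10404059, 8583), (23674146, 8079), (31830988, 7681),
     (34703957, 7268), (41024488, 6142), (47345019, 4530), (50217988, 3466)]

/-- A certificate. -/
def row10MainN349 : Cert :=
  .splitM 50217988 row10MainN350 row10MainN351

/-- A certificate. -/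
def row10MainN353 : Cert :=
  .leaf 14448989 100000000 14448990 100000000
    [(756739, 3199), (2334728, 7683), (10467442, 8370), (23698274, 7779), (31830988, 7308),
     (34105615, 6920), (39109796, 5888), (44113976, 4468), (46388603, 3575)]

/-- A certificate. -/
def row10MainN354 : Cert :=
  .leaf 14448989 100000000 14448990 100000000
    [(756739, 3221), (2334728, 7746), (10467442, 8505), (23698274, 8035), (31830988, 7650),
     (34703957, 7238), (41024488, 6114), (47345019, 4508), (50217988, 3449)]

/-- A certificate. -/
def row10MainN352 : Cert :=
  .splitM 50217988 row10MainN353 row10MainN354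

/-- A certificate. -/
def row10MainN348 : Cert :=
  .splitC 664546 row10MainN349 row10MainN352

/-- A certificate. -/
def row10MainN340 : Cert :=
  .splitM 46388603 row10MainN341 row10MainN348

/-- A certificate. -/
def row10MainN358 : Cert :=
  .leaf 15418708 100000000 15418709 100000000
    [(848931, 2947), (4291382, 7887), (19208668, 7340), (31830988, 6221), (33619577, 5736),
     (36941244, 4630), (38729833, 3859)]

/-- A certificate. -/
def row10MainN359 : Cert :=
  .leaf 15418708 100000000 15418709 100000000
    [(848931, 2978), (4291382, 8012), (19208668, 7694), (31830988, 6832), (34612381, 6236),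
     (39777825, 4796), (42559218, 3700)]

/-- A certificate. -/
def row10MainN357 : Cert :=
  .splitM 42559218 row10MainN358 row10MainN359

/-- A certificate. -/
def row10MainN361 : Cert :=
  .leaf 16330938 100000000 16330939 100000000
    [(941124, 2782), (4373331, 7755), (19246229, 7288), (31830988, 6197), (33619577, 5713),
     (36941244, 4611), (38729833, 3843)]

/-- A certificate. -/
def row10MainN362 : Cert :=
  .leaf 16330938 100000000 16330939 100000000
    [(941124, 2813), (4373331, 7883), (19246229, 7644), (31830988, 6807), (34612381, 6212),
     (39777825, 4776), (42559218, 3684)]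

/-- A certificate. -/
def row10MainN360 : Cert :=
  .splitM 42559218 row10MainN361 row10MainN362

/-- A certificate. -/
def row10MainN356 : Cert :=
  .splitC 848931 row10MainN357 row10MainN360

/-- A certificate. -/
def row10MainN365 : Cert :=
  .leaf 15418708 100000000 15418709 100000000
    [(848931, 3004), (2422239, 7493), (10530824, 8294), (23722403, 7737), (31830988, 7280),
     (34105615, 6893), (39109796, 5863), (44113976, 4448), (46388603, 3559)]

/-- A certificate. -/
def row10MainN366 : Cert :=
  .leaf 15418708 100000000 15418709 100000000
    [(848931, 3026), (2422239, 7558), (10530824, 8430), (23722403, 7993), (31830988, 7621),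
     (34703957, 7209), (41024488, 6088), (47345019, 4488), (50217988, 3433)]

/-- A certificate. -/
def row10MainN364 : Cert :=
  .splitM 50217988 row10MainN365 row10MainN366

/-- A certificate. -/
def row10MainN368 : Cert :=
  .leaf 16330938 100000000 16330939 100000000
    [(941124, 2839), (4373331, 7987), (19246229, 7916), (31830988, 7253), (35605184, 6587),
     (42614407, 4910), (46388603, 3543)]

/-- A certificate. -/
def row10MainN369 : Cert :=
  .leaf 16330938 100000000 16330939 100000000
    [(941124, 2861), (4373331, 8073), (19246229, 8130), (31830988, 7594), (36597988, 6881),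
     (45450988, 5021), (50217988, 3418)]

/-- A certificate. -/
def row10MainN367 : Cert :=
  .splitM 50217988 row10MainN368 row10MainN369

/-- A certificate. -/
def row10MainN363 : Cert :=
  .splitC 848931 row10MainN364 row10MainN367

/-- A certificate. -/
def row10MainN355 : Cert :=
  .splitM 46388603 row10MainN356 row10MainN363

/-- A certificate. -/
def row10MainN339 : Cert :=
  .splitC 756739 row10MainN340 row10MainN355

/-- A certificate. -/
def row10MainN373 : Cert :=
  .leaf 13409336 100000000 13409337 100000000
    [(664546, 3491), (885207, 5567), (2247217, 8044), (5389732, 8707), (10404059, 8782),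
     (16833660, 8653), (23674146, 8449), (29373283, 8256), (31830988, 8168),
     (32785598, 8071), (35302298, 7798), (38860391, 7365), (42939181, 6789),
     (47017971, 6105), (50576064, 5389), (53092764, 4786), (54047374, 4529)]

/-- A certificate. -/
def row10MainN374 : Cert :=
  .leaf 13409336 98103493 13409337 98103494
    [(664546, 3522), (4127484, 8695), (19133549, 8838), (31830988, 8548), (39576399, 7890),
     (53960734, 6113), (61706145, 4622)]

/-- A certificate. -/
def row10MainN372 : Cert :=
  .splitM 61706145 row10MainN373 row10MainN374

/-- A certificate. -/
def row10MainN376 : Cert :=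
  .leaf 14448989 100000000 14448990 100000000
    [(756739, 3256), (1260257, 6403), (4209433, 8455), (10467442, 8708), (19171109, 8539),
     (27730913, 8276), (31830988, 8136), (33476646, 7967), (37590792, 7494),
     (42939181, 6759), (48287570, 5837), (52401716, 4937), (54047374, 4507)]

/-- A certificate. -/
def row10MainN377 : Cert :=
  .leaf 14448989 98103493 14448990 98103494
    [(756739, 3288), (4209433, 8565), (19171109, 8791), (31830988, 8517), (39576399, 7859),
     (53960734, 6086), (61706145, 4602)]

/-- A certificate. -/
def row10MainN375 : Cert :=
  .splitM 61706145 row10MainN376 row10MainN377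

/-- A certificate. -/
def row10MainN371 : Cert :=
  .splitC 664546 row10MainN372 row10MainN375

/-- A certificate. -/
def row10MainN379 : Cert :=
  .leaf 15418708 100000000 15418709 100000000
    [(941124, 4111), (1441654, 6390), (4373331, 8342), (10594206, 8637), (19246229, 8490),
     (27755242, 8241), (31830988, 8107), (33476646, 7937), (37590792, 7465),
     (42939181, 6730), (48287570, 5811), (52401716, 4914), (54047374, 4486)]

/-- A certificate. -/
def row10MainN380 : Cert :=
  .leaf 15418708 98103493 15418709 98103494
    [(941124, 4154), (10594206, 8811), (31830988, 8488), (46768566, 7055), (61706145, 4584)]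

/-- A certificate. -/
def row10MainN378 : Cert :=
  .splitM 61706145 row10MainN379 row10MainN380

/-- A certificate. -/
def row10MainN370 : Cert :=
  .splitC 756739 row10MainN371 row10MainN378

/-- A certificate. -/
def row10MainN338 : Cert :=
  .splitM 54047374 row10MainN339 row10MainN370

/-- A certificate. -/
def row10MainN385 : Cert :=
  .leaf 17194848 100000000 17194849 100000000
    [(1125509, 3574), (4537229, 7642), (19321348, 7237), (31830988, 6175), (33619577, 5692),
     (36941244, 4594), (38729833, 3828)]

/-- A certificate. -/
def row10MainN386 : Cert :=
  .leaf 17194848 100000000 17194849 100000000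
    [(1125509, 3617), (4537229, 7774), (19321348, 7594), (31830988, 6783), (34612381, 6189),
     (39777825, 4758), (42559218, 3669)]

/-- A certificate. -/
def row10MainN384 : Cert :=
  .splitM 42559218 row10MainN385 row10MainN386

/-- A certificate. -/
def row10MainN388 : Cert :=
  .leaf 18803964 100000000 18803965 100000000
    [(1309895, 3277), (4701128, 7408), (19396469, 7145), (31830988, 6134), (33619577, 5654),
     (36941244, 4561), (38729833, 3800)]

/-- A certificate. -/
def row10MainN389 : Cert :=
  .leaf 18803964 100000000 18803965 100000000
    [(1309895, 3320), (4701128, 7545), (19396469, 7505), (31830988, 6738), (34612381, 6147),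
     (39777825, 4723), (42559218, 3642)]

/-- A certificate. -/
def row10MainN387 : Cert :=
  .splitM 42559218 row10MainN388 row10MainN389

/-- A certificate. -/
def row10MainN383 : Cert :=
  .splitC 1125509 row10MainN384 row10MainN387

/-- A certificate. -/
def row10MainN393 : Cert :=
  .leaf 17194848 100000000 17194849 100000000
    [(1033316, 2696), (4455280, 7866), (19283788, 7870), (31830988, 7228), (35605184, 6563),
     (42614407, 4890), (46388603, 3529)]

/-- A certificate. -/
def row10MainN394 : Cert :=
  .leaf 17194848 100000000 17194849 100000000
    [(1033316, 2718), (4455280, 7954), (19283788, 8085), (31830988, 7568), (36597988, 6856),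
     (45450988, 5001), (50217988, 3403)]

/-- A certificate. -/
def row10MainN392 : Cert :=
  .splitM 50217988 row10MainN393 row10MainN394

/-- A certificate. -/
def row10MainN396 : Cert :=
  .leaf 18017374 100000000 18017375 100000000
    [(1125509, 2572), (4537229, 7750), (19321348, 7826), (31830988, 7204), (35605184, 6540),
     (42614407, 4872), (46388603, 3515)]

/-- A certificate. -/
def row10MainN397 : Cert :=
  .leaf 18017374 100000000 18017375 100000000
    [(1125509, 2594), (4537229, 7840), (19321348, 8042), (31830988, 7543), (36597988, 6832),
     (45450988, 4981), (50217988, 3390)]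

/-- A certificate. -/
def row10MainN395 : Cert :=
  .splitM 50217988 row10MainN396 row10MainN397

/-- A certificate. -/
def row10MainN391 : Cert :=
  .splitC 1033316 row10MainN392 row10MainN395

/-- A certificate. -/
def row10MainN399 : Cert :=
  .leaf 18803964 100000000 18803965 100000000
    [(1309895, 3356), (4701128, 7657), (19396469, 7782), (31830988, 7181), (35605184, 6518),
     (42614407, 4854), (46388603, 3502)]

/-- A certificate. -/
def row10MainN400 : Cert :=
  .leaf 18803964 100000000 18803965 100000000
    [(1309895, 3386), (4701128, 7749), (19396469, 8000), (31830988, 7520), (36597988, 6810),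
     (45450988, 4963), (50217988, 3377)]

/-- A certificate. -/
def row10MainN398 : Cert :=
  .splitM 50217988 row10MainN399 row10MainN400

/-- A certificate. -/
def row10MainN390 : Cert :=
  .splitC 1125509 row10MainN391 row10MainN398

/-- A certificate. -/
def row10MainN382 : Cert :=
  .splitM 46388603 row10MainN383 row10MainN390

/-- A certificate. -/
def row10MainN403 : Cert :=
  .leaf 17194848 100000000 17194849 100000000
    [(1125509, 3731), (2684772, 7388), (10720971, 8505), (23794788, 8291), (31830988, 8052),
     (35302298, 7682), (42939181, 6678), (50576064, 5294), (54047374, 4447)]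

/-- A certificate. -/
def row10MainN404 : Cert :=
  .leaf 17194848 98103493 17194849 98103494
    [(1125509, 3774), (10720971, 8685), (31830988, 8434), (46768566, 7003),
     (61706145, 4550)]

/-- A certificate. -/
def row10MainN402 : Cert :=
  .splitM 61706145 row10MainN403 row10MainN404

/-- A certificate. -/
def row10MainN406 : Cert :=
  .leaf 18803964 100000000 18803965 100000000
    [(1309895, 3435), (4701128, 7893), (19396469, 8321), (31830988, 8003), (37590792, 7361),
     (48287570, 5721), (54047374, 4413)]

/-- A certificate. -/
def row10MainN407 : Cert :=
  .leaf 18803964 98103493 18803965 98103494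
    [(1309895, 3479), (10847737, 8568), (31830988, 8385), (46768566, 6955),
     (61706145, 4519)]

/-- A certificate. -/
def row10MainN405 : Cert :=
  .splitM 61706145 row10MainN406 row10MainN407

/-- A certificate. -/
def row10MainN401 : Cert :=
  .splitC 1125509 row10MainN402 row10MainN405

/-- A certificate. -/
def row10MainN381 : Cert :=
  .splitM 54047374 row10MainN382 row10MainN401

/-- A certificate. -/
def row10MainN337 : Cert :=
  .splitC 941124 row10MainN338 row10MainN381

/-- A certificate. -/
def row10MainN411 : Cert :=
  .leaf 13409336 69369645 13409337 69369646
    [(756739, 4793), (4209433, 9002), (19171109, 9431), (31830988, 9396), (41251957, 9144),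
     (58748043, 8534), (68169012, 8118), (68479061, 8083), (69054867, 8014),
     (69364916, 7975)]

/-- A certificate. -/
def row10MainN412 : Cert :=
  .leaf 13409336 0 13409337 0
    [(756739, 4964), (10467442, 9775), (31830988, 9957), (50000000, 9977), (68169012, 9990),
     (76425735, 9993), (84682458, 9995)]

/-- A certificate. -/
def row10MainN410 : Cert :=
  .splitM 84682458 row10MainN411 row10MainN412

/-- A certificate. -/
def row10MainN414 : Cert :=
  .leaf 15418708 69369645 15418709 69369646
    [(941124, 4283), (10594206, 9262), (31830988, 9352), (50000000, 8822), (68169012, 8091),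
     (68766964, 8022), (69364916, 7949)]

/-- A certificate. -/
def row10MainN415 : Cert :=
  .leaf 15418708 0 15418709 0
    [(941124, 4459), (10594206, 9705), (31830988, 9943), (50000000, 9969), (68169012, 9987),
     (76425735, 9990), (84682458, 9994)]

/-- A certificate. -/
def row10MainN413 : Cert :=
  .splitM 84682458 row10MainN414 row10MainN415

/-- A certificate. -/
def row10MainN409 : Cert :=
  .splitC 756739 row10MainN410 row10MainN413

/-- A certificate. -/
def row10MainN417 : Cert :=
  .leaf 17194848 69369645 17194849 69369646
    [(1309895, 5120), (10847737, 9163), (31830988, 9312), (50000000, 8785),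
     (68169012, 8068), (68766964, 7998), (69364916, 7925)]

/-- A certificate. -/
def row10MainN418 : Cert :=
  .leaf 17194848 0 17194849 0
    [(1309895, 5355), (10847737, 9642), (31830988, 9929), (50000000, 9962),
     (68169012, 9984), (76425735, 9988), (84682458, 9992)]

/-- A certificate. -/
def row10MainN416 : Cert :=
  .splitM 84682458 row10MainN417 row10MainN418

/-- A certificate. -/
def row10MainN408 : Cert :=
  .splitC 941124 row10MainN409 row10MainN416

/-- A certificate. -/
def row10MainN336 : Cert :=
  .splitM 69364916 row10MainN337 row10MainN408

/-- A certificate. -/
def row10MainN425 : Cert :=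
  .leaf 20285848 100000000 20285849 100000000
    [(1494280, 3038), (4865025, 7193), (19471588, 7060), (31830988, 6096), (33619577, 5618),
     (36941244, 4531), (38729833, 3775)]

/-- A certificate. -/
def row10MainN426 : Cert :=
  .leaf 20285848 100000000 20285849 100000000
    [(1494280, 3082), (4865025, 7334), (19471588, 7423), (31830988, 6697), (34612381, 6108),
     (39777825, 4691), (42559218, 3617)]

/-- A certificate. -/
def row10MainN424 : Cert :=
  .splitM 42559218 row10MainN425 row10MainN426

/-- A certificate. -/
def row10MainN428 : Cert :=
  .leaf 21666608 100000000 21666609 100000000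
    [(1678666, 2840), (9495935, 7367), (24013719, 6681), (31830988, 6061), (33619577, 5585),
     (36941244, 4503), (38729833, 3751)]

/-- A certificate. -/
def row10MainN429 : Cert :=
  .leaf 21666608 100000000 21666609 100000000
    [(1678666, 2884), (6389966, 7385), (16754827, 7462), (27119688, 6948), (31830988, 6659),
     (33507274, 6316), (37195103, 5432), (40882932, 4276), (42559218, 3594)]

/-- A certificate. -/
def row10MainN427 : Cert :=
  .splitM 42559218 row10MainN428 row10MainN429

/-- A certificate. -/
def row10MainN423 : Cert :=
  .splitC 1494280 row10MainN424 row10MainN427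

/-- A certificate. -/
def row10MainN432 : Cert :=
  .leaf 20285848 100000000 20285849 100000000
    [(1494280, 3118), (4865025, 7449), (19471588, 7701), (31830988, 7138), (35605184, 6477),
     (42614407, 4821), (46388603, 3477)]

/-- A certificate. -/
def row10MainN433 : Cert :=
  .leaf 20285848 100000000 20285849 100000000
    [(1494280, 3148), (4865025, 7544), (19471588, 7921), (31830988, 7475), (36597988, 6767),
     (45450988, 4929), (50217988, 3352)]

/-- A certificate. -/
def row10MainN431 : Cert :=
  .splitM 50217988 row10MainN432 row10MainN433

/-- A certificate. -/
def row10MainN435 : Cert :=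
  .leaf 21666608 100000000 21666609 100000000
    [(1678666, 2920), (6389966, 7519), (16754827, 7710), (27119688, 7322), (31830988, 7098),
     (34105615, 6715), (39109796, 5703), (44113976, 4320), (46388603, 3454)]

/-- A certificate. -/
def row10MainN436 : Cert :=
  .leaf 21666608 100000000 21666609 100000000
    [(1678666, 2951), (6389966, 7629), (16754827, 7907), (27119688, 7611), (31830988, 7433),
     (34703957, 7025), (41024488, 5920), (47345019, 4356), (50217988, 3330)]

/-- A certificate. -/
def row10MainN434 : Cert :=
  .splitM 50217988 row10MainN435 row10MainN436

/-- A certificate. -/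
def row10MainN430 : Cert :=
  .splitC 1494280 row10MainN431 row10MainN434

/-- A certificate. -/
def row10MainN422 : Cert :=
  .splitM 46388603 row10MainN423 row10MainN430

/-- A certificate. -/
def row10MainN440 : Cert :=
  .leaf 22964504 100000000 22964505 100000000
    [(1863051, 2673), (9632516, 7238), (24061523, 6622), (31830988, 6028), (33619577, 5554),
     (36941244, 4477), (38729833, 3729)]

/-- A certificate. -/
def row10MainN441 : Cert :=
  .leaf 22964504 100000000 22964505 100000000
    [(1863051, 2717), (6545541, 7225), (16847019, 7379), (27148498, 6899), (31830988, 6623),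
     (33507274, 6281), (37195103, 5401), (40882932, 4251), (42559218, 3572)]

/-- A certificate. -/
def row10MainN439 : Cert :=
  .splitM 42559218 row10MainN440 row10MainN441

/-- A certificate. -/
def row10MainN443 : Cert :=
  .leaf 24192865 100000000 24192866 100000000
    [(2047437, 2530), (9769098, 7116), (24109327, 6567), (31830988, 5997), (33619577, 5525),
     (36941244, 4453), (38729833, 3709)]

/-- A certificate. -/
def row10MainN444 : Cert :=
  .leaf 24192865 100000000 24192866 100000000
    [(2047437, 2574), (6701117, 7074), (16939213, 7299), (27177308, 6853), (31830988, 6589),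
     (33507274, 6249), (37195103, 5371), (40882932, 4227), (42559218, 3551)]

/-- A certificate. -/
def row10MainN442 : Cert :=
  .splitM 42559218 row10MainN443 row10MainN444

/-- A certificate. -/
def row10MainN438 : Cert :=
  .splitC 1863051 row10MainN439 row10MainN442

/-- A certificate. -/
def row10MainN447 : Cert :=
  .leaf 22964504 100000000 22964505 100000000
    [(1863051, 2754), (6545541, 7362), (16847019, 7628), (27148498, 7272), (31830988, 7060),
     (34105615, 6678), (39109796, 5670), (44113976, 4293), (46388603, 3433)]

/-- A certificate. -/
def row10MainN448 : Cert :=
  .leaf 22964504 100000000 22964505 100000000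
    [(1863051, 2784), (6545541, 7474), (16847019, 7827), (27148498, 7561), (31830988, 7394),
     (34703957, 6986), (41024488, 5885), (47345019, 4329), (50217988, 3308)]

/-- A certificate. -/
def row10MainN446 : Cert :=
  .splitM 50217988 row10MainN447 row10MainN448

/-- A certificate. -/
def row10MainN450 : Cert :=
  .leaf 24192865 100000000 24192866 100000000
    [(2047437, 2611), (6701117, 7213), (16939213, 7550), (27177308, 7225), (31830988, 7024),
     (34105615, 6643), (39109796, 5638), (44113976, 4268), (46388603, 3412)]

/-- A certificate. -/
def row10MainN451 : Cert :=
  .leaf 24192865 100000000 24192866 100000000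
    [(2047437, 2641), (6701117, 7327), (16939213, 7750), (27177308, 7514), (31830988, 7357),
     (34703957, 6950), (41024488, 5852), (47345019, 4304), (50217988, 3288)]

/-- A certificate. -/
def row10MainN449 : Cert :=
  .splitM 50217988 row10MainN450 row10MainN451

/-- A certificate. -/
def row10MainN445 : Cert :=
  .splitC 1863051 row10MainN446 row10MainN449

/-- A certificate. -/
def row10MainN437 : Cert :=
  .splitM 46388603 row10MainN438 row10MainN445

/-- A certificate. -/
def row10MainN421 : Cert :=
  .splitC 1678666 row10MainN422 row10MainN437

/-- A certificate. -/
def row10MainN454 : Cert :=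
  .leaf 20285848 100000000 20285849 100000000
    [(1678666, 4263), (6389966, 7981), (16754827, 8280), (27119688, 8082), (31830988, 7956),
     (35302298, 7586), (42939181, 6588), (50576064, 5217), (54047374, 4381)]

/-- A certificate. -/
def row10MainN455 : Cert :=
  .leaf 20285848 98103493 20285849 98103494
    [(1678666, 4323), (16754827, 8523), (31830988, 8339), (46768566, 6912),
     (61706145, 4491)]

/-- A certificate. -/
def row10MainN453 : Cert :=
  .splitM 61706145 row10MainN454 row10MainN455

/-- A certificate. -/
def row10MainN457 : Cert :=
  .leaf 22964504 100000000 22964505 100000000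
    [(2047437, 3820), (6701117, 7675), (16939213, 8122), (27177308, 7979), (31830988, 7872),
     (35302298, 7502), (42939181, 6509), (50576064, 5150), (54047374, 4323)]

/-- A certificate. -/
def row10MainN458 : Cert :=
  .leaf 22964504 98103493 22964505 98103494
    [(2047437, 3880), (16939213, 8371), (31830988, 8255), (46768566, 6832),
     (61706145, 4440)]

/-- A certificate. -/
def row10MainN456 : Cert :=
  .splitM 61706145 row10MainN457 row10MainN458

/-- A certificate. -/
def row10MainN452 : Cert :=
  .splitC 1678666 row10MainN453 row10MainN456

/-- A certificate. -/
def row10MainN420 : Cert :=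
  .splitM 54047374 row10MainN421 row10MainN452

/-- A certificate. -/
def row10MainN461 : Cert :=
  .leaf 20285848 69369645 20285849 69369646
    [(1678666, 4504), (16754827, 9143), (31830988, 9239), (50000000, 8719),
     (68169012, 8026), (68766964, 7956), (69364916, 7883)]

/-- A certificate. -/
def row10MainN462 : Cert :=
  .leaf 20285848 0 20285849 0
    [(1678666, 4748), (16754827, 9717), (31830988, 9901), (50000000, 9947),
     (68169012, 9978), (76425735, 9984), (84682458, 9989)]

/-- A certificate. -/
def row10MainN460 : Cert :=
  .splitM 84682458 row10MainN461 row10MainN462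

/-- A certificate. -/
def row10MainN464 : Cert :=
  .leaf 22964504 69369645 22964505 69369646
    [(2047437, 4066), (16939213, 9019), (31830988, 9172), (50000000, 8661),
     (68169012, 7989), (68766964, 7920), (69364916, 7847)]

/-- A certificate. -/
def row10MainN465 : Cert :=
  .leaf 22964504 0 22964505 0
    [(2047437, 4315), (16939213, 9639), (31830988, 9872), (50000000, 9931),
     (68169012, 9972), (76425735, 9979), (84682458, 9986)]

/-- A certificate. -/
def row10MainN463 : Cert :=
  .splitM 84682458 row10MainN464 row10MainN465

/-- A certificate. -/
def row10MainN459 : Cert :=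
  .splitC 1678666 row10MainN460 row10MainN463

/-- A certificate. -/
def row10MainN419 : Cert :=
  .splitM 69364916 row10MainN420 row10MainN459

/-- A certificate. -/
def row10MainN335 : Cert :=
  .splitC 1309895 row10MainN336 row10MainN419

/-- A certificate. -/
def row10MainN299 : Cert :=
  .splitM 38729833 row10MainN300 row10MainN335

/-- A certificate. -/
def row10MainN1 : Cert :=
  .splitC 572354 row10MainN2 row10MainN299

/-- A certificate. -/
def row10MainN472 : Cert :=
  .leaf 25361807 81093314 25361808 81093315
    [(3366609, 4368), (9183305, 5030), (15000000, 3768)]

/-- A certificate. -/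
def row10MainN473 : Cert :=
  .leaf 25361807 91868723 25361808 91868724
    [(3366609, 4587), (7920718, 5666), (16378349, 4579), (20932458, 3497)]

/-- A certificate. -/
def row10MainN471 : Cert :=
  .splitM 20932458 row10MainN472 row10MainN473

/-- A certificate. -/
def row10MainN475 : Cert :=
  .leaf 32521553 81093314 32521554 81093315
    [(4685782, 3336), (9842891, 4214), (15000000, 3346)]

/-- A certificate. -/
def row10MainN476 : Cert :=
  .leaf 32521553 91868723 32521554 91868724
    [(4685782, 3560), (8897883, 4762), (16720357, 4055), (20932458, 3179)]

/-- A certificate. -/
def row10MainN474 : Cert :=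
  .splitM 20932458 row10MainN475 row10MainN476

/-- A certificate. -/
def row10MainN470 : Cert :=
  .splitC 3366609 row10MainN471 row10MainN474

/-- A certificate. -/
def row10MainN480 : Cert :=
  .leaf 25361807 100000000 25361808 100000000
    [(2707023, 3809), (8970180, 6075), (20601759, 4840), (26864916, 3630)]

/-- A certificate. -/
def row10MainN481 : Cert :=
  .leaf 25361807 100000000 25361808 100000000
    [(2707023, 4018), (10257681, 6714), (24280330, 5887), (31830988, 5109),
     (32081533, 5022), (32546829, 4855), (32797374, 4762)]

/-- A certificate. -/
def row10MainN479 : Cert :=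
  .splitM 32797374 row10MainN480 row10MainN481

/-- A certificate. -/
def row10MainN483 : Cert :=
  .leaf 29162241 100000000 29162242 100000000
    [(3366609, 3286), (9458763, 5628), (20772762, 4608), (26864916, 3506)]

/-- A certificate. -/
def row10MainN484 : Cert :=
  .leaf 29162241 100000000 29162242 100000000
    [(3366609, 3504), (10746263, 6332), (24451334, 5714), (31830988, 5029),
     (32081533, 4943), (32546829, 4779), (32797374, 4687)]

/-- A certificate. -/
def row10MainN482 : Cert :=
  .splitM 32797374 row10MainN483 row10MainN484

/-- A certificate. -/
def row10MainN478 : Cert :=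
  .splitC 2707023 row10MainN479 row10MainN482

/-- A certificate. -/
def row10MainN486 : Cert :=
  .leaf 32521553 100000000 32521554 100000000
    [(4685782, 3763), (15775349, 4998), (26864916, 3399)]

/-- A certificate. -/
def row10MainN487 : Cert :=
  .leaf 32521553 100000000 32521554 100000000
    [(4685782, 4074), (11723428, 6018), (24793342, 5551), (31830988, 4959),
     (32081533, 4874), (32546829, 4712), (32797374, 4621)]

/-- A certificate. -/
def row10MainN485 : Cert :=
  .splitM 32797374 row10MainN486 row10MainN487

/-- A certificate. -/
def row10MainN477 : Cert :=
  .splitC 3366609 row10MainN478 row10MainN485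

/-- A certificate. -/
def row10MainN469 : Cert :=
  .splitM 26864916 row10MainN470 row10MainN477

/-- A certificate. -/
def row10MainN492 : Cert :=
  .leaf 38367718 75128272 38367719 75128273
    [(6004954, 2531), (10502477, 3175), (15000000, 2230)]

/-- A certificate. -/
def row10MainN493 : Cert :=
  .leaf 38367718 81093314 38367719 81093315
    [(6004954, 2686), (11985592, 3463), (17966229, 2196)]

/-- A certificate. -/
def row10MainN491 : Cert :=
  .splitM 17966229 row10MainN492 row10MainN493

/-- A certificate. -/
def row10MainN495 : Cert :=
  .leaf 43433995 75128272 43433996 75128273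
    [(7324127, 2069), (11162063, 2650), (15000000, 1993)]

/-- A certificate. -/
def row10MainN496 : Cert :=
  .leaf 43433995 81093314 43433996 81093315
    [(7324127, 2228), (12645178, 2969), (17966229, 2000)]

/-- A certificate. -/
def row10MainN494 : Cert :=
  .splitM 17966229 row10MainN495 row10MainN496

/-- A certificate. -/
def row10MainN490 : Cert :=
  .splitC 6004954 row10MainN491 row10MainN494

/-- A certificate. -/
def row10MainN498 : Cert :=
  .leaf 38367718 91868723 38367719 91868724
    [(6004954, 2913), (9875048, 4066), (17062364, 3629), (20932458, 2920)]

/-- A certificate. -/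
def row10MainN499 : Cert :=
  .leaf 43433995 91868723 43433996 91868724
    [(7324127, 2457), (10852213, 3503), (17404372, 3260), (20932458, 2694)]

/-- A certificate. -/
def row10MainN497 : Cert :=
  .splitC 6004954 row10MainN498 row10MainN499

/-- A certificate. -/
def row10MainN489 : Cert :=
  .splitM 20932458 row10MainN490 row10MainN497

/-- A certificate. -/
def row10MainN502 : Cert :=
  .leaf 38367718 100000000 38367719 100000000
    [(6004954, 3124), (16434935, 4511), (26864916, 3214)]

/-- A certificate. -/
def row10MainN503 : Cert :=
  .leaf 38367718 100000000 38367719 100000000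
    [(6004954, 3457), (12700592, 5470), (25135350, 5293), (31830988, 4839),
     (32081533, 4756), (32546829, 4597), (32797374, 4508)]

/-- A certificate. -/
def row10MainN501 : Cert :=
  .splitM 32797374 row10MainN502 row10MainN503

/-- A certificate. -/
def row10MainN505 : Cert :=
  .leaf 43433995 100000000 43433996 100000000
    [(7324127, 2675), (17094521, 4097), (26864916, 3055)]

/-- A certificate. -/
def row10MainN506 : Cert :=
  .leaf 43433995 100000000 43433996 100000000
    [(7324127, 3029), (7806322, 3413), (9139450, 4108), (11153324, 4673), (13677758, 5019),
     (16542564, 5183), (19577557, 5219), (22612551, 5171), (25477357, 5074),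
     (28001791, 4957), (30015665, 4846), (31348793, 4766), (31830988, 4735),
     (31981986, 4686), (32314181, 4577), (32646376, 4463), (32797374, 4411)]

/-- A certificate. -/
def row10MainN504 : Cert :=
  .splitM 32797374 row10MainN505 row10MainN506

/-- A certificate. -/
def row10MainN500 : Cert :=
  .splitC 6004954 row10MainN501 row10MainN504

/-- A certificate. -/
def row10MainN488 : Cert :=
  .splitM 26864916 row10MainN489 row10MainN500

/-- A certificate. -/
def row10MainN468 : Cert :=
  .splitC 4685782 row10MainN469 row10MainN488

/-- A certificate. -/
def row10MainN515 : Cert :=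
  .leaf 25361807 100000000 25361808 100000000
    [(2377230, 3113), (10013389, 7002), (24194829, 6511), (31830988, 5968),
     (33619577, 5497), (36941244, 4430), (38729833, 3689)]

/-- A certificate. -/
def row10MainN516 : Cert :=
  .leaf 25361807 100000000 25361808 100000000
    [(2377230, 3171), (10013389, 7226), (24194829, 6955), (31830988, 6557),
     (34612381, 5976), (39777825, 4584), (42559218, 3532)]

/-- A certificate. -/
def row10MainN514 : Cert :=
  .splitM 42559218 row10MainN515 row10MainN516

/-- A certificate. -/
def row10MainN518 : Cert :=
  .leaf 27328169 100000000 27328170 100000000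
    [(2707023, 2882), (10257681, 6807), (24280330, 6422), (31830988, 5919),
     (33619577, 5451), (36941244, 4391), (38729833, 3656)]

/-- A certificate. -/
def row10MainN519 : Cert :=
  .leaf 27328169 100000000 27328170 100000000
    [(2707023, 2940), (10257681, 7035), (24280330, 6866), (31830988, 6503),
     (34612381, 5925), (39777825, 4543), (42559218, 3499)]

/-- A certificate. -/
def row10MainN517 : Cert :=
  .splitM 42559218 row10MainN518 row10MainN519

/-- A certificate. -/
def row10MainN513 : Cert :=
  .splitC 2377230 row10MainN514 row10MainN517

/-- A certificate. -/
def row10MainN522 : Cert :=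
  .leaf 25361807 100000000 25361808 100000000
    [(2377230, 3219), (6979380, 7093), (17104109, 7475), (27228838, 7179), (31830988, 6990),
     (34105615, 6610), (39109796, 5609), (44113976, 4245), (46388603, 3393)]

/-- A certificate. -/
def row10MainN523 : Cert :=
  .leaf 25361807 100000000 25361808 100000000
    [(2377230, 3260), (10013389, 7547), (24194829, 7551), (31830988, 7321),
     (36597988, 6619), (45450988, 4811), (50217988, 3269)]

/-- A certificate. -/
def row10MainN521 : Cert :=
  .splitM 50217988 row10MainN522 row10MainN523

/-- A certificate. -/
def row10MainN525 : Cert :=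
  .leaf 27328169 100000000 27328170 100000000
    [(2707023, 2988), (7257643, 6860), (17269005, 7349), (27280368, 7103), (31830988, 6932),
     (34105615, 6554), (39109796, 5558), (44113976, 4205), (46388603, 3360)]

/-- A certificate. -/
def row10MainN526 : Cert :=
  .leaf 27328169 100000000 27328170 100000000
    [(2707023, 3029), (10257681, 7363), (24280330, 7462), (31830988, 7261),
     (36597988, 6562), (45450988, 4766), (50217988, 3237)]

/-- A certificate. -/
def row10MainN524 : Cert :=
  .splitM 50217988 row10MainN525 row10MainN526

/-- A certificate. -/
def row10MainN520 : Cert :=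
  .splitC 2377230 row10MainN521 row10MainN524

/-- A certificate. -/
def row10MainN512 : Cert :=
  .splitM 46388603 row10MainN513 row10MainN520

/-- A certificate. -/
def row10MainN530 : Cert :=
  .leaf 29162241 100000000 29162242 100000000
    [(3036816, 2690), (10501972, 6626), (24365832, 6339), (31830988, 5873),
     (33619577, 5408), (36941244, 4356), (38729833, 3626)]

/-- A certificate. -/
def row10MainN531 : Cert :=
  .leaf 29162241 100000000 29162242 100000000
    [(3036816, 2749), (10501972, 6858), (24365832, 6783), (31830988, 6453),
     (34612381, 5877), (39777825, 4504), (42559218, 3469)]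

/-- A certificate. -/
def row10MainN529 : Cert :=
  .splitM 42559218 row10MainN530 row10MainN531

/-- A certificate. -/
def row10MainN533 : Cert :=
  .leaf 30887600 100000000 30887601 100000000
    [(3366609, 2529), (10746263, 6456), (24451334, 6261), (31830988, 5831),
     (33619577, 5368), (36941244, 4322), (38729833, 3597)]

/-- A certificate. -/
def row10MainN534 : Cert :=
  .leaf 30887600 100000000 30887601 100000000
    [(3366609, 2588), (7814168, 6293), (17598799, 6859), (27383429, 6597), (31830988, 6405),
     (33507274, 6070), (37195103, 5211), (40882932, 4096), (42559218, 3440)]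

/-- A certificate. -/
def row10MainN532 : Cert :=
  .splitM 42559218 row10MainN533 row10MainN534

/-- A certificate. -/
def row10MainN528 : Cert :=
  .splitC 3036816 row10MainN529 row10MainN532

/-- A certificate. -/
def row10MainN537 : Cert :=
  .leaf 29162241 100000000 29162242 100000000
    [(3036816, 2797), (7535905, 6644), (17433902, 7231), (27331899, 7032), (31830988, 6878),
     (34105615, 6501), (39109796, 5511), (44113976, 4168), (46388603, 3330)]

/-- A certificate. -/
def row10MainN538 : Cert :=
  .leaf 29162241 100000000 29162242 100000000
    [(3036816, 2838), (10501972, 7190), (24365832, 7379), (31830988, 7204),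
     (36597988, 6508), (45450988, 4723), (50217988, 3207)]

/-- A certificate. -/
def row10MainN536 : Cert :=
  .splitM 50217988 row10MainN537 row10MainN538

/-- A certificate. -/
def row10MainN540 : Cert :=
  .leaf 30887600 100000000 30887601 100000000
    [(3366609, 2636), (7814168, 6444), (17598799, 7119), (27383429, 6965), (31830988, 6827),
     (34105615, 6452), (39109796, 5467), (44113976, 4133), (46388603, 3302)]

/-- A certificate. -/
def row10MainN541 : Cert :=
  .leaf 30887600 100000000 30887601 100000000
    [(3366609, 2677), (10746263, 7028), (24451334, 7299), (31830988, 7151),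
     (36597988, 6457), (45450988, 4683), (50217988, 3179)]

/-- A certificate. -/
def row10MainN539 : Cert :=
  .splitM 50217988 row10MainN540 row10MainN541

/-- A certificate. -/
def row10MainN535 : Cert :=
  .splitC 3036816 row10MainN536 row10MainN539

/-- A certificate. -/
def row10MainN527 : Cert :=
  .splitM 46388603 row10MainN528 row10MainN535

/-- A certificate. -/
def row10MainN511 : Cert :=
  .splitC 2707023 row10MainN512 row10MainN527

/-- A certificate. -/
def row10MainN545 : Cert :=
  .leaf 25361807 100000000 25361808 100000000
    [(2377230, 3323), (10013389, 7766), (24194829, 7933), (31830988, 7796),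
     (37590792, 7158), (48287570, 5545), (54047374, 4271)]

/-- A certificate. -/
def row10MainN546 : Cert :=
  .leaf 25361807 98103493 25361808 98103494
    [(2377230, 3381), (17104109, 8230), (31830988, 8178), (46768566, 6760),
     (61706145, 4394)]

/-- A certificate. -/
def row10MainN544 : Cert :=
  .splitM 61706145 row10MainN545 row10MainN546

/-- A certificate. -/
def row10MainN548 : Cert :=
  .leaf 27328169 100000000 27328170 100000000
    [(2707023, 3093), (10257681, 7586), (24280330, 7845), (31830988, 7732),
     (37590792, 7095), (48287570, 5492), (54047374, 4228)]

/-- A certificate. -/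
def row10MainN549 : Cert :=
  .leaf 27328169 98103493 27328170 98103494
    [(2707023, 3151), (17269005, 8112), (31830988, 8114), (46768566, 6700),
     (61706145, 4356)]

/-- A certificate. -/
def row10MainN547 : Cert :=
  .splitM 61706145 row10MainN548 row10MainN549

/-- A certificate. -/
def row10MainN543 : Cert :=
  .splitC 2377230 row10MainN544 row10MainN547

/-- A certificate. -/
def row10MainN550 : Cert :=
  .leaf 29162241 98103493 29162242 98103494
    [(3366609, 3973), (3926672, 4996), (5475082, 6353), (7814168, 7188), (10746263, 7641),
     (14073696, 7882), (17598799, 8004), (21123901, 8060), (24451334, 8078),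
     (27383429, 8077), (29722515, 8067), (31270925, 8057), (31830988, 8053),
     (32268116, 8019), (33476646, 7925), (35302298, 7776), (37590792, 7578),
     (40187846, 7338), (42939181, 7064), (45690516, 6767), (48287570, 6463),
     (50576064, 6173), (52401716, 5924), (53610246, 5750), (54047374, 5686)]

/-- A certificate. -/
def row10MainN542 : Cert :=
  .splitC 2707023 row10MainN543 row10MainN550

/-- A certificate. -/
def row10MainN510 : Cert :=
  .splitM 54047374 row10MainN511 row10MainN542

/-- A certificate. -/
def row10MainN555 : Cert :=
  .leaf 32521553 100000000 32521554 100000000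
    [(4026195, 3231), (11234845, 6314), (24622338, 6183), (31830988, 5790),
     (33619577, 5330), (36941244, 4290), (38729833, 3570)]

/-- A certificate. -/
def row10MainN556 : Cert :=
  .leaf 32521553 100000000 32521554 100000000
    [(4026195, 3313), (11234845, 6555), (24622338, 6627), (31830988, 6360),
     (34612381, 5790), (39777825, 4434), (42559218, 3413)]

/-- A certificate. -/
def row10MainN554 : Cert :=
  .splitM 42559218 row10MainN555 row10MainN556

/-- A certificate. -/
def row10MainN558 : Cert :=
  .leaf 35564961 100000000 35564962 100000000
    [(4685782, 2943), (11723428, 6024), (24793342, 6046), (31830988, 5714),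
     (33619577, 5259), (36941244, 4231), (38729833, 3520)]

/-- A certificate. -/
def row10MainN559 : Cert :=
  .leaf 35564961 100000000 35564962 100000000
    [(4685782, 3026), (11723428, 6270), (24793342, 6488), (31830988, 6275),
     (34612381, 5711), (39777825, 4370), (42559218, 3363)]

/-- A certificate. -/
def row10MainN557 : Cert :=
  .splitM 42559218 row10MainN558 row10MainN559

/-- A certificate. -/
def row10MainN553 : Cert :=
  .splitC 4026195 row10MainN554 row10MainN557

/-- A certificate. -/
def row10MainN563 : Cert :=
  .leaf 32521553 100000000 32521554 100000000
    [(3696402, 2498), (8092431, 6257), (17763695, 7012), (27434959, 6901), (31830988, 6778),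
     (34105615, 6405), (39109796, 5425), (44113976, 4099), (46388603, 3275)]

/-- A certificate. -/
def row10MainN564 : Cert :=
  .leaf 32521553 100000000 32521554 100000000
    [(3696402, 2538), (10990554, 6874), (24536836, 7224), (31830988, 7099),
     (36597988, 6408), (45450988, 4645), (50217988, 3152)]

/-- A certificate. -/
def row10MainN562 : Cert :=
  .splitM 50217988 row10MainN563 row10MainN564

/-- A certificate. -/
def row10MainN566 : Cert :=
  .leaf 34077249 100000000 34077250 100000000
    [(4026195, 2378), (8370694, 6083), (17928591, 6910), (27486489, 6839), (31830988, 6732),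
     (34105615, 6360), (39109796, 5385), (44113976, 4068), (46388603, 3249)]

/-- A certificate. -/
def row10MainN567 : Cert :=
  .leaf 34077249 100000000 34077250 100000000
    [(4026195, 2418), (11234845, 6729), (24622338, 7151), (31830988, 7050),
     (36597988, 6361), (45450988, 4609), (50217988, 3126)]

/-- A certificate. -/
def row10MainN565 : Cert :=
  .splitM 50217988 row10MainN566 row10MainN567

/-- A certificate. -/
def row10MainN561 : Cert :=
  .splitC 3696402 row10MainN562 row10MainN565

/-- A certificate. -/
def row10MainN569 : Cert :=
  .leaf 35564961 100000000 35564962 100000000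
    [(4685782, 3094), (11723428, 6464), (24793342, 6821), (31830988, 6687),
     (35605184, 6050), (42614407, 4481), (46388603, 3224)]

/-- A certificate. -/
def row10MainN570 : Cert :=
  .leaf 35564961 100000000 35564962 100000000
    [(4685782, 3149), (11723428, 6621), (24793342, 7081), (31830988, 7003),
     (36597988, 6316), (45450988, 4573), (50217988, 3101)]

/-- A certificate. -/
def row10MainN568 : Cert :=
  .splitM 50217988 row10MainN569 row10MainN570

/-- A certificate. -/
def row10MainN560 : Cert :=
  .splitC 4026195 row10MainN561 row10MainN568

/-- A certificate. -/
def row10MainN552 : Cert :=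
  .splitM 46388603 row10MainN553 row10MainN560

/-- A certificate. -/
def row10MainN571 : Cert :=
  .leaf 32521553 98103493 32521554 98103494
    [(4685782, 4716), (6696538, 6243), (11723428, 7399), (18258385, 7807), (24793342, 7926),
     (29820232, 7942), (31830988, 7938), (33476646, 7810), (37590792, 7465),
     (42939181, 6955), (48287570, 6361), (52401716, 5829), (54047374, 5595)]

/-- A certificate. -/
def row10MainN551 : Cert :=
  .splitM 54047374 row10MainN552 row10MainN571

/-- A certificate. -/
def row10MainN509 : Cert :=
  .splitC 3366609 row10MainN510 row10MainN551

/-- A certificate. -/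
def row10MainN575 : Cert :=
  .leaf 25361807 69369645 25361808 69369646
    [(2707023, 4717), (17269005, 8908), (31830988, 9110), (50000000, 8607),
     (68169012, 7956), (68766964, 7887), (69364916, 7814)]

/-- A certificate. -/
def row10MainN576 : Cert :=
  .leaf 25361807 0 25361808 0
    [(2707023, 5037), (17269005, 9567), (31830988, 9843), (50000000, 9915),
     (68169012, 9965), (76425735, 9974), (84682458, 9983)]

/-- A certificate. -/
def row10MainN574 : Cert :=
  .splitM 84682458 row10MainN575 row10MainN576

/-- A certificate. -/
def row10MainN578 : Cert :=
  .leaf 29162241 69369645 29162242 69369646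
    [(3366609, 4218), (17598799, 8714), (31830988, 9006), (50000000, 8519),
     (68169012, 7903), (68766964, 7834), (69364916, 7761)]

/-- A certificate. -/
def row10MainN579 : Cert :=
  .leaf 29162241 0 29162242 0
    [(3366609, 4547), (17598799, 9432), (31830988, 9789), (50000000, 9887),
     (68169012, 9954), (76425735, 9966), (84682458, 9978)]

/-- A certificate. -/
def row10MainN577 : Cert :=
  .splitM 84682458 row10MainN578 row10MainN579

/-- A certificate. -/
def row10MainN573 : Cert :=
  .splitC 2707023 row10MainN574 row10MainN577

/-- A certificate. -/
def row10MainN581 : Cert :=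
  .leaf 32521553 69369645 32521554 69369646
    [(4685782, 5048), (18258385, 8550), (31830988, 8908), (50000000, 8438),
     (68169012, 7854), (68766964, 7786), (69364916, 7713)]

/-- A certificate. -/
def row10MainN582 : Cert :=
  .leaf 32521553 0 32521554 0
    [(4685782, 5486), (18258385, 9316), (31830988, 9733), (50000000, 9857),
     (68169012, 9942), (76425735, 9957), (84682458, 9972)]

/-- A certificate. -/
def row10MainN580 : Cert :=
  .splitM 84682458 row10MainN581 row10MainN582

/-- A certificate. -/
def row10MainN572 : Cert :=
  .splitC 3366609 row10MainN573 row10MainN580

/-- A certificate. -/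
def row10MainN508 : Cert :=
  .splitM 69364916 row10MainN509 row10MainN572

/-- A certificate. -/
def row10MainN589 : Cert :=
  .leaf 38367718 100000000 38367719 100000000
    [(5345368, 2714), (12212010, 5763), (24964346, 5920), (31830988, 5645),
     (33619577, 5194), (36941244, 4177), (38729833, 3474)]

/-- A certificate. -/
def row10MainN590 : Cert :=
  .leaf 38367718 100000000 38367719 100000000
    [(5345368, 2797), (9483746, 5535), (18588178, 6368), (27692610, 6308), (31830988, 6196),
     (33507274, 5869), (37195103, 5032), (40882932, 3951), (42559218, 3316)]

/-- A certificate. -/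
def row10MainN588 : Cert :=
  .splitM 42559218 row10MainN589 row10MainN590

/-- A certificate. -/
def row10MainN592 : Cert :=
  .leaf 40979225 100000000 40979226 100000000
    [(6004954, 2526), (12700592, 5526), (25135350, 5803), (31830988, 5579),
     (33619577, 5132), (36941244, 4126), (38729833, 3431)]

/-- A certificate. -/
def row10MainN593 : Cert :=
  .leaf 40979225 100000000 40979226 100000000
    [(6004954, 2610), (10040272, 5270), (18917971, 6198), (27795670, 6207),
     (31830988, 6122), (33507274, 5797), (37195103, 4969), (40882932, 3899),
     (42559218, 3272)]

/-- A certificate. -/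
def row10MainN591 : Cert :=
  .splitM 42559218 row10MainN592 row10MainN593

/-- A certificate. -/
def row10MainN587 : Cert :=
  .splitC 5345368 row10MainN588 row10MainN591

/-- A certificate. -/
def row10MainN596 : Cert :=
  .leaf 38367718 100000000 38367719 100000000
    [(5345368, 2865), (12212010, 6208), (24964346, 6690), (31830988, 6601),
     (35605184, 5970), (42614407, 4418), (46388603, 3177)]

/-- A certificate. -/
def row10MainN597 : Cert :=
  .leaf 38367718 100000000 38367719 100000000
    [(5345368, 2921), (12212010, 6366), (24964346, 6948), (31830988, 6912),
     (36597988, 6231), (45450988, 4507), (50217988, 3055)]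

/-- A certificate. -/
def row10MainN595 : Cert :=
  .splitM 50217988 row10MainN596 row10MainN597

/-- A certificate. -/
def row10MainN599 : Cert :=
  .leaf 40979225 100000000 40979226 100000000
    [(6004954, 2678), (12700592, 5974), (25135350, 6567), (31830988, 6520),
     (35605184, 5894), (42614407, 4359), (46388603, 3133)]

/-- A certificate. -/
def row10MainN600 : Cert :=
  .leaf 40979225 100000000 40979226 100000000
    [(6004954, 2734), (12700592, 6132), (25135350, 6823), (31830988, 6826),
     (36597988, 6149), (45450988, 4444), (50217988, 3010)]

/-- A certificate. -/
def row10MainN598 : Cert :=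
  .splitM 50217988 row10MainN599 row10MainN600

/-- A certificate. -/
def row10MainN594 : Cert :=
  .splitC 5345368 row10MainN595 row10MainN598

/-- A certificate. -/
def row10MainN586 : Cert :=
  .splitM 46388603 row10MainN587 row10MainN594

/-- A certificate. -/
def row10MainN604 : Cert :=
  .leaf 43433995 100000000 43433996 100000000
    [(6664540, 2369), (10596798, 4824), (19247764, 5693), (27898730, 5639),
     (31830988, 5517), (32908933, 5257), (35280410, 4610), (37651888, 3822),
     (38729833, 3391)]

/-- A certificate. -/
def row10MainN605 : Cert :=
  .leaf 43433995 100000000 43433996 100000000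
    [(6664540, 2454), (10596798, 5030), (19247764, 6038), (27898730, 6111),
     (31830988, 6051), (33507274, 5729), (37195103, 4908), (40882932, 3850),
     (42559218, 3231)]

/-- A certificate. -/
def row10MainN603 : Cert :=
  .splitM 42559218 row10MainN604 row10MainN605

/-- A certificate. -/
def row10MainN607 : Cert :=
  .leaf 45757261 100000000 45757262 100000000
    [(7324127, 2235), (11153324, 4606), (19577557, 5543), (28001791, 5553),
     (31830988, 5458), (32908933, 5199), (35280410, 4559), (37651888, 3779),
     (38729833, 3352)]

/-- A certificate. -/
def row10MainN608 : Cert :=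
  .leaf 45757261 100000000 45757262 100000000
    [(7324127, 2321), (9139450, 3988), (13677758, 5361), (19577557, 5887), (25477357, 6018),
     (30015665, 6005), (31830988, 5983), (32625672, 5835), (34612381, 5438),
     (37195103, 4850), (39777825, 4151), (41764534, 3497), (42559218, 3191)]

/-- A certificate. -/
def row10MainN606 : Cert :=
  .splitM 42559218 row10MainN607 row10MainN608

/-- A certificate. -/
def row10MainN602 : Cert :=
  .splitC 6664540 row10MainN603 row10MainN606

/-- A certificate. -/
def row10MainN611 : Cert :=
  .leaf 43433995 100000000 43433996 100000000
    [(6664540, 2522), (13189175, 5758), (25306353, 6451), (31830988, 6443),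
     (35605184, 5822), (42614407, 4302), (46388603, 3091)]

/-- A certificate. -/
def row10MainN612 : Cert :=
  .leaf 43433995 100000000 43433996 100000000
    [(6664540, 2577), (13189175, 5916), (25306353, 6703), (31830988, 6743),
     (36597988, 6072), (45450988, 4383), (50217988, 2968)]

/-- A certificate. -/
def row10MainN610 : Cert :=
  .splitM 50217988 row10MainN611 row10MainN612

/-- A certificate. -/
def row10MainN613 : Cert :=
  .leaf 45757261 100000000 45757262 100000000
    [(7324127, 2444), (7599351, 2855), (8377156, 3671), (9585746, 4465), (11153324, 5106),
     (13008091, 5586), (15078251, 5935), (17292006, 6183), (19577557, 6356),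
     (21863109, 6475), (24076864, 6553), (26147024, 6603), (28001791, 6633),
     (29569369, 6650), (30777959, 6658), (31555764, 6662), (31830988, 6663),
     (31994477, 6642), (32456511, 6582), (33174440, 6486), (34105615, 6359),
     (35207388, 6203), (36437108, 6021), (37752127, 5816), (39109796, 5592),
     (40467464, 5354), (41782483, 5109), (43012203, 4865), (44113976, 4631),
     (45045151, 4421), (45763080, 4250), (46225114, 4136), (46388603, 4094)]

/-- A certificate. -/
def row10MainN609 : Cert :=
  .splitC 6664540 row10MainN610 row10MainN613

/-- A certificate. -/
def row10MainN601 : Cert :=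
  .splitM 46388603 row10MainN602 row10MainN609

/-- A certificate. -/
def row10MainN585 : Cert :=
  .splitC 6004954 row10MainN586 row10MainN601

/-- A certificate. -/
def row10MainN614 : Cert :=
  .leaf 38367718 98103493 38367719 98103494
    [(7324127, 5257), (9139450, 6094), (13677758, 7021), (19577557, 7471), (25477357, 7654),
     (30015665, 7716), (31830988, 7730), (33476646, 7602), (37590792, 7261),
     (42939181, 6759), (48287570, 6177), (52401716, 5660), (54047374, 5432)]

/-- A certificate. -/
def row10MainN584 : Cert :=
  .splitM 54047374 row10MainN585 row10MainN614

/-- A certificate. -/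
def row10MainN617 : Cert :=
  .leaf 38367718 69369645 38367719 69369646
    [(6004954, 4458), (18917971, 8221), (31830988, 8723), (50000000, 8289),
     (68169012, 7768), (68766964, 7700), (69364916, 7628)]

/-- A certificate. -/
def row10MainN618 : Cert :=
  .leaf 38367718 0 38367719 0
    [(6004954, 4910), (18917971, 9059), (31830988, 9616), (50000000, 9795),
     (68169012, 9917), (76425735, 9939), (84682458, 9960)]

/-- A certificate. -/
def row10MainN616 : Cert :=
  .splitM 84682458 row10MainN617 row10MainN618

/-- A certificate. -/
def row10MainN619 : Cert :=
  .leaf 43433995 0 43433996 0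
    [(7324127, 4505), (11153324, 7203), (19577557, 8806), (28001791, 9349),
     (31830988, 9490), (37508804, 9574), (50000000, 9729), (62491196, 9848),
     (68169012, 9891), (68355872, 9891), (68766964, 9893), (69178056, 9894),
     (69364916, 9895)]

/-- A certificate. -/
def row10MainN615 : Cert :=
  .splitC 6004954 row10MainN616 row10MainN619

/-- A certificate. -/
def row10MainN583 : Cert :=
  .splitM 69364916 row10MainN584 row10MainN615

/-- A certificate. -/
def row10MainN507 : Cert :=
  .splitC 4685782 row10MainN508 row10MainN583

/-- A certificate. -/
def row10MainN467 : Cert :=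
  .splitM 38729833 row10MainN468 row10MainN507

/-- A certificate. -/
def row10MainN627 : Cert :=
  .leaf 47968138 75128272 47968139 75128273
    [(9683611, 2045), (12341805, 2177), (15000000, 1773)]

/-- A certificate. -/
def row10MainN628 : Cert :=
  .leaf 47968138 81093314 47968139 81093315
    [(9683611, 2273), (10297138, 2406), (11830956, 2557), (13824920, 2510),
     (15818884, 2275), (17352702, 1975), (17966229, 1820)]

/-- A certificate. -/
def row10MainN626 : Cert :=
  .splitM 17966229 row10MainN627 row10MainN628

/-- A certificate. -/
def row10MainN632 : Cert :=
  .leaf 55156106 71960565 55156107 71960566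
    [(10863353, 1089), (12931677, 1316), (15000000, 1010)]

/-- A certificate. -/
def row10MainN633 : Cert :=
  .leaf 55156106 75128272 55156107 75128273
    [(10863353, 1194), (13673233, 1522), (16483114, 1064)]

/-- A certificate. -/
def row10MainN631 : Cert :=
  .splitM 16483114 row10MainN632 row10MainN633

/-- A certificate. -/
def row10MainN630 : Cert :=
  .splitC 10863353 row10MainN631 .skip

/-- A certificate. -/
def row10MainN636 : Cert :=
  .leaf 55156106 81093314 55156107 81093315
    [(10863353, 1360), (11973177, 1702), (14414791, 1902), (16856405, 1713),
     (17966229, 1521)]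

/-- A certificate. -/
def row10MainN635 : Cert :=
  .splitC 10863353 row10MainN636 .skip

/-- A certificate. -/
def row10MainN629 : Cert :=
  .splitM 17966229 row10MainN630 row10MainN635

/-- A certificate. -/
def row10MainN625 : Cert :=
  .splitC 9683611 row10MainN626 row10MainN629

/-- A certificate. -/
def row10MainN640 : Cert :=
  .leaf 47968138 91868723 47968139 91868724
    [(8503869, 2022), (11726096, 3021), (17710231, 2936), (20932458, 2489)]

/-- A certificate. -/
def row10MainN641 : Cert :=
  .leaf 51687225 91868723 51687226 91868724
    [(9683611, 1786), (12599979, 2658), (18016090, 2668), (20932458, 2317)]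

/-- A certificate. -/
def row10MainN639 : Cert :=
  .splitC 8503869 row10MainN640 row10MainN641

/-- A certificate. -/
def row10MainN643 : Cert :=
  .leaf 55156106 86648681 55156107 86648682
    [(12043095, 1904), (14347745, 2202), (18627808, 1988), (20932458, 1578)]

/-- A certificate. -/
def row10MainN644 : Cert :=
  .leaf 55156106 91868723 55156107 91868724
    [(12043095, 2054), (17970891, 2441), (23898687, 1601)]

/-- A certificate. -/
def row10MainN642 : Cert :=
  .splitM 23898687 row10MainN643 row10MainN644

/-- A certificate. -/
def row10MainN638 : Cert :=
  .splitC 9683611 row10MainN639 row10MainN642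

/-- A certificate. -/
def row10MainN624 : Cert :=
  .splitM 20932458 row10MainN625 row10MainN638

/-- A certificate. -/
def row10MainN623 : Cert :=
  .splitC 12043095 row10MainN624 .skip

/-- A certificate. -/
def row10MainN649 : Cert :=
  .leaf 47968138 100000000 47968139 100000000
    [(9683611, 2898), (18274263, 3718), (26864916, 2913)]

/-- A certificate. -/
def row10MainN652 : Cert :=
  .leaf 47968138 100000000 47968139 100000000
    [(8503869, 2438), (20167429, 4403), (31830988, 3724), (32314181, 3496),
     (32797374, 3249)]

/-- A certificate. -/
def row10MainN653 : Cert :=
  .leaf 47968138 100000000 47968139 100000000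
    [(8503869, 2590), (20167429, 4931), (31830988, 4642), (33797296, 3959),
     (35763603, 3096)]

/-- A certificate. -/
def row10MainN651 : Cert :=
  .splitM 35763603 row10MainN652 row10MainN653

/-- A certificate. -/
def row10MainN655 : Cert :=
  .leaf 51687225 100000000 51687226 100000000
    [(9683611, 2221), (20757299, 4168), (31830988, 3667), (32314181, 3442),
     (32797374, 3199)]

/-- A certificate. -/
def row10MainN656 : Cert :=
  .leaf 51687225 100000000 51687226 100000000
    [(9683611, 2378), (15425524, 4329), (26089075, 4723), (31830988, 4564),
     (32850555, 4232), (34744036, 3512), (35763603, 3042)]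

/-- A certificate. -/
def row10MainN654 : Cert :=
  .splitM 35763603 row10MainN655 row10MainN656

/-- A certificate. -/
def row10MainN650 : Cert :=
  .splitC 8503869 row10MainN651 row10MainN654

/-- A certificate. -/
def row10MainN648 : Cert :=
  .splitM 32797374 row10MainN649 row10MainN650

/-- A certificate. -/
def row10MainN658 : Cert :=
  .leaf 55156106 100000000 55156107 100000000
    [(12043095, 2385), (19454005, 3182), (26864916, 2686)]

/-- A certificate. -/
def row10MainN661 : Cert :=
  .leaf 55156106 100000000 55156107 100000000
    [(10863353, 2045), (21347171, 3956), (31830988, 3614), (32314181, 3392),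
     (32797374, 3152)]

/-- A certificate. -/
def row10MainN662 : Cert :=
  .leaf 55156106 100000000 55156107 100000000
    [(10863353, 2208), (14139546, 3655), (21347171, 4492), (28554795, 4560),
     (31830988, 4490), (32445459, 4296), (33797296, 3827), (35149132, 3278),
     (35763603, 2991)]

/-- A certificate. -/
def row10MainN660 : Cert :=
  .splitM 35763603 row10MainN661 row10MainN662

/-- A certificate. -/
def row10MainN664 : Cert :=
  .leaf 58419371 100000000 58419372 100000000
    [(12043095, 1899), (21937041, 3763), (31830988, 3564), (32314181, 3344),
     (32797374, 3108)]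

/-- A certificate. -/
def row10MainN666 : Cert :=
  .leaf 58419371 100000000 58419372 100000000
    [(11453224, 1506), (12962688, 2639), (16736348, 3762), (21642106, 4285),
     (26547864, 4441), (30321524, 4439), (31830988, 4419), (32122293, 4329),
     (32850555, 4095), (33797296, 3765), (34744036, 3397), (35472298, 3079),
     (35763603, 2942)]

/-- A certificate. -/
def row10MainN667 : Cert :=
  .leaf 59984468 100000000 59984469 100000000
    [(12043095, 1460), (12265322, 1695), (12893356, 2191), (13869224, 2715),
     (15134953, 3175), (16632572, 3548), (18304108, 3834), (20091589, 4045),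
     (21937041, 4193), (23782494, 4291), (25569975, 4352), (27241511, 4384),
     (28739130, 4396), (30004859, 4396), (30980727, 4391), (31608761, 4386),
     (31830988, 4383), (31875153, 4370), (31999968, 4332), (32193910, 4272),
     (32445459, 4193), (32743094, 4098), (33075292, 3987), (33430533, 3865),
     (33797296, 3734), (34164058, 3598), (34519299, 3460), (34851497, 3324),
     (35149132, 3198), (35400681, 3086), (35594623, 2997), (35719438, 2938),
     (35763603, 2917)]

/-- A certificate. -/
def row10MainN665 : Cert :=
  .splitC 11453224 row10MainN666 row10MainN667

/-- A certificate. -/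
def row10MainN663 : Cert :=
  .splitM 35763603 row10MainN664 row10MainN665

/-- A certificate. -/
def row10MainN659 : Cert :=
  .splitC 10863353 row10MainN660 row10MainN663

/-- A certificate. -/
def row10MainN657 : Cert :=
  .splitM 32797374 row10MainN658 row10MainN659

/-- A certificate. -/
def row10MainN647 : Cert :=
  .splitC 9683611 row10MainN648 row10MainN657

/-- A certificate. -/
def row10MainN670 : Cert :=
  .leaf 61509754 100000000 61509755 100000000
    [(14402579, 2015), (16349819, 2443), (20633747, 2735), (24917676, 2619),
     (26864916, 2480)]

/-- A certificate. -/
def row10MainN673 : Cert :=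
  .leaf 67265917 100000000 67265918 100000000
    [(16762063, 1736), (23296604, 2379), (29831145, 2064)]

/-- A certificate. -/
def row10MainN671 : Cert :=
  .splitM 29831145 .skip row10MainN673

/-- A certificate. -/
def row10MainN669 : Cert :=
  .splitC 14402579 row10MainN670 row10MainN671

/-- A certificate. -/
def row10MainN677 : Cert :=
  .leaf 61509754 100000000 61509755 100000000
    [(13222837, 1778), (18047172, 3233), (27006653, 3640), (31830988, 3515),
     (32081533, 3404), (32546829, 3188), (32797374, 3065)]

/-- A certificate. -/
def row10MainN680 : Cert :=
  .leaf 61509754 100000000 61509755 100000000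
    [(12632966, 1362), (17610231, 3376), (26853723, 4013), (31830988, 3982),
     (32850555, 3602), (34744036, 2738), (35763603, 2116)]

/-- A certificate. -/
def row10MainN681 : Cert :=
  .leaf 61509754 100000000 61509755 100000000
    [(12632966, 1419), (17610231, 3548), (26853723, 4312), (31830988, 4348),
     (33235066, 3901), (35842640, 2855), (37246718, 2057)]

/-- A certificate. -/
def row10MainN679 : Cert :=
  .splitM 37246718 row10MainN680 row10MainN681

/-- A certificate. -/
def row10MainN683 : Cert :=
  .leaf 62998121 100000000 62998122 100000000
    [(13222837, 1323), (18047172, 3277), (27006653, 3953), (31830988, 3952),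
     (32850555, 3575), (34744036, 2717), (35763603, 2099)]

/-- A certificate. -/
def row10MainN684 : Cert :=
  .leaf 62998121 100000000 62998122 100000000
    [(13222837, 1381), (16130361, 2977), (22526913, 4020), (28923464, 4292),
     (31830988, 4313), (32677196, 4053), (34538853, 3395), (36400510, 2548),
     (37246718, 2039)]

/-- A certificate. -/
def row10MainN682 : Cert :=
  .splitM 37246718 row10MainN683 row10MainN684

/-- A certificate. -/
def row10MainN678 : Cert :=
  .splitC 12632966 row10MainN679 row10MainN682

/-- A certificate. -/
def row10MainN676 : Cert :=
  .splitM 35763603 row10MainN677 row10MainN678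

/-- A certificate. -/
def row10MainN686 : Cert :=
  .leaf 64452127 100000000 64452128 100000000
    [(14402579, 1677), (15693572, 2290), (18921055, 3044), (23116783, 3428),
     (27312512, 3528), (30539995, 3498), (31830988, 3466), (31981986, 3401),
     (32314181, 3253), (32646376, 3096), (32797374, 3022)]

/-- A certificate. -/
def row10MainN689 : Cert :=
  .leaf 64452127 100000000 64452128 100000000
    [(13812708, 1288), (18484114, 3184), (27159582, 3895), (31830988, 3922),
     (32850555, 3547), (34744036, 2696), (35763603, 2083)]

/-- A certificate. -/
def row10MainN690 : Cert :=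
  .leaf 64452127 100000000 64452128 100000000
    [(13812708, 1346), (16628064, 2887), (22821848, 3938), (29015632, 4241),
     (31830988, 4278), (32677196, 4019), (34538853, 3367), (36400510, 2527),
     (37246718, 2022)]

/-- A certificate. -/
def row10MainN688 : Cert :=
  .splitM 37246718 row10MainN689 row10MainN690

/-- A certificate. -/
def row10MainN692 : Cert :=
  .leaf 65874047 100000000 65874048 100000000
    [(14402579, 1256), (18921055, 3095), (27312512, 3838), (31830988, 3892),
     (32850555, 3520), (34744036, 2675), (35763603, 2067)]

/-- A certificate. -/
def row10MainN693 : Cert :=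
  .leaf 65874047 100000000 65874048 100000000
    [(14402579, 1314), (15693572, 2228), (18921055, 3266), (23116783, 3859),
     (27312512, 4129), (30539995, 4224), (31830988, 4243), (32232153, 4123),
     (33235066, 3805), (34538853, 3339), (35842640, 2784), (36845553, 2257),
     (37246718, 2005)]

/-- A certificate. -/
def row10MainN691 : Cert :=
  .splitM 37246718 row10MainN692 row10MainN693

/-- A certificate. -/
def row10MainN687 : Cert :=
  .splitC 13812708 row10MainN688 row10MainN691

/-- A certificate. -/
def row10MainN685 : Cert :=
  .splitM 35763603 row10MainN686 row10MainN687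

/-- A certificate. -/
def row10MainN675 : Cert :=
  .splitC 13222837 row10MainN676 row10MainN685

/-- A certificate. -/
def row10MainN697 : Cert :=
  .leaf 67265917 100000000 67265918 100000000
    [(15582321, 1467), (23706655, 2901), (31830988, 2811), (32314181, 2524),
     (32797374, 2196)]

/-- A certificate. -/
def row10MainN698 : Cert :=
  .leaf 67265917 100000000 67265918 100000000
    [(15582321, 1592), (23706655, 3280), (31830988, 3419), (33055738, 2850),
     (34280488, 2119)]

/-- A certificate. -/
def row10MainN696 : Cert :=
  .splitM 34280488 row10MainN697 row10MainN698

/-- A certificate. -/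
def row10MainN700 : Cert :=
  .leaf 69966638 100000000 69966639 100000000
    [(16762063, 1390), (24296525, 2763), (31830988, 2777), (32314181, 2493),
     (32797374, 2169)]

/-- A certificate. -/
def row10MainN701 : Cert :=
  .leaf 69966638 100000000 69966639 100000000
    [(16762063, 1521), (20668821, 2722), (27924230, 3324), (31830988, 3370),
     (32466044, 3094), (33645432, 2490), (34280488, 2089)]

/-- A certificate. -/
def row10MainN699 : Cert :=
  .splitM 34280488 row10MainN700 row10MainN701

/-- A certificate. -/
def row10MainN695 : Cert :=
  .splitC 15582321 row10MainN696 row10MainN699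

/-- A certificate. -/
def row10MainN704 : Cert :=
  .leaf 67265917 100000000 67265918 100000000
    [(15582321, 1693), (18121175, 2725), (23706655, 3574), (29292134, 3833),
     (31830988, 3862), (32445459, 3645), (33797296, 3105), (35149132, 2433),
     (35763603, 2050)]

/-- A certificate. -/
def row10MainN706 : Cert :=
  .leaf 67265917 100000000 67265918 100000000
    [(14992450, 1286), (16239749, 2162), (19357997, 3180), (23411719, 3782),
     (27465441, 4071), (30583689, 4181), (31830988, 4207), (32232153, 4089),
     (33235066, 3773), (34538853, 3310), (35842640, 2760), (36845553, 2237),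
     (37246718, 1987)]

/-- A certificate. -/
def row10MainN707 : Cert :=
  .leaf 68629564 100000000 68629565 100000000
    [(15582321, 1259), (16785926, 2099), (19794938, 3099), (23706655, 3708),
     (27618371, 4013), (30627383, 4139), (31830988, 4171), (32232153, 4054),
     (33235066, 3741), (34538853, 3281), (35842640, 2735), (36845553, 2217),
     (37246718, 1970)]

/-- A certificate. -/
def row10MainN705 : Cert :=
  .splitC 14992450 row10MainN706 row10MainN707

/-- A certificate. -/
def row10MainN703 : Cert :=
  .splitM 37246718 row10MainN704 row10MainN705

/-- A certificate. -/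
def row10MainN709 : Cert :=
  .leaf 69966638 100000000 69966639 100000000
    [(16762063, 1625), (17058558, 1797), (17878280, 2175), (19116583, 2583),
     (20668821, 2940), (22430351, 3224), (24296525, 3436), (26162700, 3584),
     (27924230, 3683), (29476468, 3744), (30714771, 3779), (31534493, 3796),
     (31830988, 3801), (31908366, 3775), (32122293, 3701), (32445459, 3587),
     (32850555, 3437), (33310270, 3258), (33797296, 3055), (34284321, 2836),
     (34744036, 2611), (35149132, 2393), (35472298, 2204), (35686225, 2068),
     (35763603, 2017)]

/-- A certificate. -/
def row10MainN711 : Cert :=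
  .leaf 69966638 100000000 69966639 100000000
    [(16172192, 1236), (16845031, 1764), (18618879, 2572), (21126733, 3208),
     (24001590, 3636), (26876447, 3897), (29384301, 4043), (31158149, 4114),
     (31830988, 4135), (32063695, 4068), (32677196, 3884), (33544559, 3605),
     (34538853, 3252), (35533147, 2850), (36400510, 2439), (37014011, 2098),
     (37246718, 1952)]

/-- A certificate. -/
def row10MainN712 : Cert :=
  .leaf 71278636 100000000 71278637 100000000
    [(16762063, 1214), (17409556, 1719), (19116583, 2503), (21529965, 3133),
     (24296525, 3566), (27063086, 3837), (29476468, 3994), (31183495, 4073),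
     (31830988, 4098), (32063695, 4031), (32677196, 3849), (33544559, 3573),
     (34538853, 3222), (35533147, 2823), (36400510, 2417), (37014011, 2078),
     (37246718, 1934)]

/-- A certificate. -/
def row10MainN710 : Cert :=
  .splitC 16172192 row10MainN711 row10MainN712

/-- A certificate. -/
def row10MainN708 : Cert :=
  .splitM 37246718 row10MainN709 row10MainN710

/-- A certificate. -/
def row10MainN702 : Cert :=
  .splitC 15582321 row10MainN703 row10MainN708

/-- A certificate. -/
def row10MainN694 : Cert :=
  .splitM 35763603 row10MainN695 row10MainN702

/-- A certificate. -/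
def row10MainN674 : Cert :=
  .splitC 14402579 row10MainN675 row10MainN694

/-- A certificate. -/
def row10MainN668 : Cert :=
  .splitM 32797374 row10MainN669 row10MainN674

/-- A certificate. -/
def row10MainN646 : Cert :=
  .splitC 12043095 row10MainN647 row10MainN668

/-- A certificate. -/
def row10MainN622 : Cert :=
  .splitM 26864916 row10MainN623 row10MainN646

/-- A certificate. -/
def row10MainN720 : Cert :=
  .leaf 72566916 100000000 72566917 100000000
    [(19121547, 1521), (24476346, 2083), (29831145, 1962)]

/-- A certificate. -/
def row10MainN718 : Cert :=
  .splitM 29831145 .skip row10MainN720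

/-- A certificate. -/
def row10MainN724 : Cert :=
  .leaf 77506200 100000000 77506201 100000000
    [(20301289, 1017), (22771992, 1586), (27360442, 1880), (29831145, 1858)]

/-- A certificate. -/
def row10MainN727 : Cert :=
  .leaf 79861367 100000000 79861368 100000000
    [(21481031, 968), (26397645, 1734), (31314259, 1775)]

/-- A certificate. -/
def row10MainN725 : Cert :=
  .splitM 31314259 .skip row10MainN727

/-- A certificate. -/
def row10MainN723 : Cert :=
  .splitC 20301289 row10MainN724 row10MainN725

/-- A certificate. -/
def row10MainN721 : Cert :=
  .splitM 29831145 .skip row10MainN723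

/-- A certificate. -/
def row10MainN717 : Cert :=
  .splitC 19121547 row10MainN718 row10MainN721

/-- A certificate. -/
def row10MainN732 : Cert :=
  .leaf 72566916 100000000 72566917 100000000
    [(17941805, 1325), (24886397, 2637), (31830988, 2743), (32314181, 2462),
     (32797374, 2142)]

/-- A certificate. -/
def row10MainN733 : Cert :=
  .leaf 72566916 100000000 72566917 100000000
    [(17941805, 1462), (20111990, 2275), (24886397, 3018), (29660803, 3280),
     (31830988, 3321), (32213722, 3160), (33055738, 2768), (33897754, 2305),
     (34280488, 2058)]

/-- A certificate. -/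
def row10MainN731 : Cert :=
  .splitM 34280488 row10MainN732 row10MainN733

/-- A certificate. -/
def row10MainN735 : Cert :=
  .leaf 75077188 100000000 75077189 100000000
    [(19121547, 1271), (25476267, 2522), (31830988, 2707), (32314181, 2430),
     (32797374, 2115)]

/-- A certificate. -/
def row10MainN736 : Cert :=
  .leaf 75077188 100000000 75077189 100000000
    [(19121547, 1414), (20062987, 1834), (22416587, 2462), (25476267, 2901),
     (28535948, 3140), (30889548, 3243), (31830988, 3270), (32012432, 3196),
     (32466044, 3001), (33055738, 2725), (33645432, 2415), (34099044, 2145),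
     (34280488, 2026)]

/-- A certificate. -/
def row10MainN734 : Cert :=
  .splitM 34280488 row10MainN735 row10MainN736

/-- A certificate. -/
def row10MainN730 : Cert :=
  .splitC 17941805 row10MainN731 row10MainN734

/-- A certificate. -/
def row10MainN740 : Cert :=
  .leaf 72566916 100000000 72566917 100000000
    [(17351934, 1133), (18424457, 1831), (21105763, 2708), (24591461, 3273),
     (28077159, 3572), (30758465, 3703), (31830988, 3738), (32122293, 3640),
     (32850555, 3380), (33797296, 3004), (34744036, 2567), (35472298, 2167),
     (35763603, 1983)]

/-- A certificate. -/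
def row10MainN741 : Cert :=
  .leaf 73832721 100000000 73832723 100000000
    [(17941805, 1115), (18970633, 1783), (21542704, 2641), (24886397, 3209),
     (28230089, 3521), (30802160, 3665), (31830988, 3706), (32122293, 3609),
     (32850555, 3351), (33797296, 2977), (34744036, 2544), (35472298, 2147),
     (35763603, 1965)]

/-- A certificate. -/
def row10MainN739 : Cert :=
  .splitC 17351934 row10MainN740 row10MainN741

/-- A certificate. -/
def row10MainN743 : Cert :=
  .leaf 72566916 100000000 72566917 100000000
    [(17351934, 1195), (18424457, 1934), (21105763, 2874), (24591461, 3497),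
     (28077159, 3845), (30758465, 4011), (31830988, 4060), (32232153, 3945),
     (33235066, 3640), (34538853, 3192), (35842640, 2661), (36845553, 2156),
     (37246718, 1915)]

/-- A certificate. -/
def row10MainN744 : Cert :=
  .leaf 73832721 100000000 73832723 100000000
    [(17941805, 1177), (18970633, 1886), (21542704, 2805), (24886397, 3430),
     (28230089, 3790), (30802160, 3967), (31830988, 4021), (32232153, 3908),
     (33235066, 3605), (34538853, 3161), (35842640, 2634), (36845553, 2135),
     (37246718, 1896)]

/-- A certificate. -/
def row10MainN742 : Cert :=
  .splitC 17351934 row10MainN743 row10MainN744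

/-- A certificate. -/
def row10MainN738 : Cert :=
  .splitM 37246718 row10MainN739 row10MainN742

/-- A certificate. -/
def row10MainN747 : Cert :=
  .leaf 75077188 100000000 75077189 100000000
    [(18531676, 1099), (19516810, 1738), (21979646, 2577), (25181332, 3147),
     (28383018, 3471), (30845854, 3627), (31830988, 3673), (32122293, 3576),
     (32850555, 3320), (33797296, 2950), (34744036, 2521), (35472298, 2128),
     (35763603, 1947)]

/-- A certificate. -/
def row10MainN748 : Cert :=
  .leaf 76301361 100000000 76301362 100000000
    [(19121547, 1085), (21107397, 2129), (25476267, 3086), (29845138, 3521),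
     (31830988, 3639), (32445459, 3433), (33797296, 2923), (35149132, 2289),
     (35763603, 1928)]

/-- A certificate. -/
def row10MainN746 : Cert :=
  .splitC 18531676 row10MainN747 row10MainN748

/-- A certificate. -/
def row10MainN749 : Cert :=
  .leaf 75077188 100000000 75077189 100000000
    [(19121547, 1612), (19667656, 1917), (21107397, 2487), (23142894, 3010),
     (25476267, 3407), (27809641, 3680), (29845138, 3854), (31284879, 3950),
     (31830988, 3982), (32063695, 3917), (32677196, 3739), (33544559, 3470),
     (34538853, 3129), (35533147, 2741), (36400510, 2346), (37014011, 2017),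
     (37246718, 1877)]

/-- A certificate. -/
def row10MainN745 : Cert :=
  .splitM 37246718 row10MainN746 row10MainN749

/-- A certificate. -/
def row10MainN737 : Cert :=
  .splitC 17941805 row10MainN738 row10MainN745

/-- A certificate. -/
def row10MainN729 : Cert :=
  .splitM 35763603 row10MainN730 row10MainN737

/-- A certificate. -/
def row10MainN753 : Cert :=
  .leaf 77506200 100000000 77506201 100000000
    [(20301289, 1228), (26066139, 2416), (31830988, 2671), (32314181, 2397),
     (32797374, 2086)]

/-- A certificate. -/
def row10MainN754 : Cert :=
  .leaf 77506200 100000000 77506201 100000000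
    [(20301289, 1376), (22102804, 2063), (26066139, 2792), (30029473, 3129),
     (31830988, 3216), (32213722, 3060), (33055738, 2680), (33897754, 2231),
     (34280488, 1992)]

/-- A certificate. -/
def row10MainN752 : Cert :=
  .splitM 34280488 row10MainN753 row10MainN754

/-- A certificate. -/
def row10MainN756 : Cert :=
  .leaf 79861367 100000000 79861368 100000000
    [(21481031, 1194), (26656009, 2319), (31830988, 2633), (32314181, 2363),
     (32797374, 2056)]

/-- A certificate. -/
def row10MainN757 : Cert :=
  .leaf 79861367 100000000 79861368 100000000
    [(21481031, 1349), (26656009, 2689), (31830988, 3159), (33055738, 2632),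
     (34280488, 1956)]

/-- A certificate. -/
def row10MainN755 : Cert :=
  .splitM 34280488 row10MainN756 row10MainN757

/-- A certificate. -/
def row10MainN751 : Cert :=
  .splitC 20301289 row10MainN752 row10MainN755

/-- A certificate. -/
def row10MainN760 : Cert :=
  .leaf 77506200 100000000 77506201 100000000
    [(20301289, 1489), (22102804, 2243), (26066139, 3069), (30029473, 3484),
     (31830988, 3604), (32445459, 3400), (33797296, 2894), (35149132, 2266),
     (35763603, 1909)]

/-- A certificate. -/
def row10MainN761 : Cert :=
  .leaf 77506200 100000000 77506201 100000000
    [(20301289, 1578), (23290470, 2730), (28841807, 3640), (31830988, 3898),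
     (33235066, 3494), (35842640, 2552), (37246718, 1836)]

/-- A certificate. -/
def row10MainN759 : Cert :=
  .splitM 37246718 row10MainN760 row10MainN761

/-- A certificate. -/
def row10MainN763 : Cert :=
  .leaf 79861367 100000000 79861368 100000000
    [(21481031, 1464), (26656009, 2958), (31830988, 3529), (33797296, 2833),
     (35763603, 1869)]

/-- A certificate. -/
def row10MainN764 : Cert :=
  .leaf 79861367 100000000 79861368 100000000
    [(21481031, 1554), (26656009, 3165), (31830988, 3809), (34538853, 2991),
     (37246718, 1793)]

/-- A certificate. -/
def row10MainN762 : Cert :=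
  .splitM 37246718 row10MainN763 row10MainN764

/-- A certificate. -/
def row10MainN758 : Cert :=
  .splitC 20301289 row10MainN759 row10MainN762

/-- A certificate. -/
def row10MainN750 : Cert :=
  .splitM 35763603 row10MainN751 row10MainN758

/-- A certificate. -/
def row10MainN728 : Cert :=
  .splitC 19121547 row10MainN729 row10MainN750

/-- A certificate. -/
def row10MainN716 : Cert :=
  .splitM 32797374 row10MainN717 row10MainN728

/-- A certificate. -/
def row10MainN772 : Cert :=
  .leaf 82149040 100000000 82149041 100000000
    [(22660773, 928), (26987516, 1637), (31314259, 1746)]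

/-- A certificate. -/
def row10MainN770 : Cert :=
  .splitM 31314259 .skip row10MainN772

/-- A certificate. -/
def row10MainN775 : Cert :=
  .leaf 84374710 100000000 84374711 100000000
    [(23840515, 898), (27577387, 1550), (31314259, 1715)]

/-- A certificate. -/
def row10MainN773 : Cert :=
  .splitM 31314259 .skip row10MainN775

/-- A certificate. -/
def row10MainN769 : Cert :=
  .splitC 22660773 row10MainN770 row10MainN773

/-- A certificate. -/
def row10MainN778 : Cert :=
  .leaf 86543160 100000000 86543161 100000000
    [(26200000, 1182), (28757130, 1530), (31314259, 1682)]

/-- A certificate. -/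
def row10MainN776 : Cert :=
  .splitM 31314259 .skip row10MainN778

/-- A certificate. -/
def row10MainN768 : Cert :=
  .splitC 23840515 row10MainN769 row10MainN776

/-- A certificate. -/
def row10MainN766 : Cert :=
  .splitM 29831145 .skip row10MainN768

/-- A certificate. -/
def row10MainN783 : Cert :=
  .leaf 82149040 100000000 82149041 100000000
    [(22660773, 1170), (27245881, 2229), (31830988, 2591), (32314181, 2325),
     (32797374, 2023)]

/-- A certificate. -/
def row10MainN784 : Cert :=
  .leaf 82149040 100000000 82149041 100000000
    [(22660773, 1331), (27245881, 2592), (31830988, 3096), (33055738, 2579),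
     (34280488, 1916)]

/-- A certificate. -/
def row10MainN782 : Cert :=
  .splitM 34280488 row10MainN783 row10MainN784

/-- A certificate. -/
def row10MainN785 : Cert :=
  .leaf 84374710 100000000 84374711 100000000
    [(23840515, 1323), (27835751, 2499), (31830988, 3026), (32314181, 2838),
     (32797374, 2636)]

/-- A certificate. -/
def row10MainN781 : Cert :=
  .splitC 22660773 row10MainN782 row10MainN785

/-- A certificate. -/
def row10MainN787 : Cert :=
  .leaf 82149040 100000000 82149041 100000000
    [(22660773, 1538), (27245881, 3048), (31830988, 3710), (33797296, 3154),
     (35763603, 2458)]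

/-- A certificate. -/
def row10MainN788 : Cert :=
  .leaf 84374710 100000000 84374711 100000000
    [(23840515, 1531), (27835751, 2931), (31830988, 3600), (33797296, 3059),
     (35763603, 2384)]

/-- A certificate. -/
def row10MainN786 : Cert :=
  .splitC 22660773 row10MainN787 row10MainN788

/-- A certificate. -/
def row10MainN780 : Cert :=
  .splitM 35763603 row10MainN781 row10MainN786

/-- A certificate. -/
def row10MainN790 : Cert :=
  .leaf 86543160 100000000 86543161 100000000
    [(26200000, 1821), (29015494, 2524), (31830988, 2946), (32314181, 2763),
     (32797374, 2565)]

/-- A certificate. -/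
def row10MainN791 : Cert :=
  .leaf 86543160 100000000 86543161 100000000
    [(26200000, 2113), (29015494, 2951), (31830988, 3475), (33797296, 2952),
     (35763603, 2299)]

/-- A certificate. -/
def row10MainN789 : Cert :=
  .splitM 35763603 row10MainN790 row10MainN791

/-- A certificate. -/
def row10MainN779 : Cert :=
  .splitC 23840515 row10MainN780 row10MainN789

/-- A certificate. -/
def row10MainN765 : Cert :=
  .splitM 32797374 row10MainN766 row10MainN779

/-- A certificate. -/
def row10MainN715 : Cert :=
  .splitC 21481031 row10MainN716 row10MainN765

/-- A certificate. -/
def row10MainN713 : Cert :=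
  .splitM 26864916 .skip row10MainN715

/-- A certificate. -/
def row10MainN621 : Cert :=
  .splitC 16762063 row10MainN622 row10MainN713

/-- A certificate. -/
def row10MainN800 : Cert :=
  .leaf 47968138 100000000 47968139 100000000
    [(8503869, 2739), (8962852, 3135), (10231804, 3876), (12148731, 4524), (14551641, 4977),
     (17278538, 5258), (20167429, 5411), (23056319, 5478), (25783216, 5489),
     (28186126, 5469), (30103053, 5438), (31372005, 5412), (31830988, 5401),
     (31966729, 5370), (32342014, 5281), (32908933, 5144), (33619577, 4965),
     (34426040, 4751), (35280410, 4510), (36134781, 4251), (36941244, 3987),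
     (37651888, 3737), (38218807, 3522), (38594092, 3371), (38729833, 3315)]

/-- A certificate. -/
def row10MainN801 : Cert :=
  .leaf 47968138 100000000 47968139 100000000
    [(8503869, 2852), (9506206, 3651), (12148731, 4741), (15884715, 5419), (20167429, 5758),
     (24450142, 5897), (28186126, 5932), (30828651, 5925), (31830988, 5917),
     (32291967, 5833), (33507274, 5600), (35225467, 5246), (37195103, 4794),
     (39164739, 4279), (40882932, 3758), (42098239, 3332), (42559218, 3152)]

/-- A certificate. -/
def row10MainN799 : Cert :=
  .splitM 42559218 row10MainN800 row10MainN801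

/-- A certificate. -/
def row10MainN805 : Cert :=
  .leaf 51687225 100000000 51687226 100000000
    [(9093740, 1802), (14988582, 4455), (25936146, 5053), (31830988, 4974),
     (33619577, 4472), (36941244, 3289), (38729833, 2381)]

/-- A certificate. -/
def row10MainN806 : Cert :=
  .leaf 51687225 100000000 51687226 100000000
    [(9093740, 1853), (14988582, 4612), (25936146, 5322), (31830988, 5303),
     (34115979, 4745), (38359534, 3400), (40644525, 2314)]

/-- A certificate. -/
def row10MainN804 : Cert :=
  .splitM 40644525 row10MainN805 row10MainN806

/-- A certificate. -/
def row10MainN808 : Cert :=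
  .leaf 53449814 100000000 53449815 100000000
    [(9683611, 1734), (15425524, 4317), (26089075, 4976), (31830988, 4931),
     (33619577, 4433), (36941244, 3260), (38729833, 2360)]

/-- A certificate. -/
def row10MainN809 : Cert :=
  .leaf 53449814 100000000 53449815 100000000
    [(9683611, 1784), (15425524, 4474), (26089075, 5243), (31830988, 5255),
     (34115979, 4702), (38359534, 3367), (40644525, 2292)]

/-- A certificate. -/
def row10MainN807 : Cert :=
  .splitM 40644525 row10MainN808 row10MainN809

/-- A certificate. -/
def row10MainN803 : Cert :=
  .splitC 9093740 row10MainN804 row10MainN807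

/-- A certificate. -/
def row10MainN811 : Cert :=
  .leaf 51687225 100000000 51687226 100000000
    [(9093740, 1935), (10777981, 3463), (14988582, 4863), (20462364, 5504),
     (25936146, 5739), (30146747, 5798), (31830988, 5803), (32625672, 5658),
     (34612381, 5270), (37195103, 4698), (39777825, 4018), (41764534, 3383),
     (42559218, 3086)]

/-- A certificate. -/
def row10MainN812 : Cert :=
  .leaf 53449814 100000000 53449815 100000000
    [(9683611, 1867), (10635256, 2868), (13144139, 4136), (16691180, 4946),
     (20757299, 5392), (24823419, 5613), (28370460, 5709), (30879343, 5741),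
     (31830988, 5747), (32291967, 5665), (33507274, 5437), (35225467, 5091),
     (37195103, 4651), (39164739, 4149), (40882932, 3643), (42098239, 3228),
     (42559218, 3054)]

/-- A certificate. -/
def row10MainN810 : Cert :=
  .splitC 9093740 row10MainN811 row10MainN812

/-- A certificate. -/
def row10MainN802 : Cert :=
  .splitM 42559218 row10MainN803 row10MainN810

/-- A certificate. -/
def row10MainN798 : Cert :=
  .splitC 8503869 row10MainN799 row10MainN802

/-- A certificate. -/
def row10MainN815 : Cert :=
  .leaf 47968138 100000000 47968139 100000000
    [(8503869, 2942), (14551641, 5439), (25783216, 6235), (31830988, 6295),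
     (35605184, 5684), (42614407, 4194), (46388603, 3012)]

/-- A certificate. -/
def row10MainN816 : Cert :=
  .leaf 47968138 100000000 47968139 100000000
    [(8503869, 3015), (20167429, 6228), (31830988, 6584), (41024488, 5186),
     (50217988, 2889)]

/-- A certificate. -/
def row10MainN814 : Cert :=
  .splitM 50217988 row10MainN815 row10MainN816

/-- A certificate. -/
def row10MainN818 : Cert :=
  .leaf 51687225 100000000 51687226 100000000
    [(9683611, 2734), (15425524, 5142), (26089075, 6054), (31830988, 6168),
     (35605184, 5566), (42614407, 4103), (46388603, 2945)]

/-- A certificate. -/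
def row10MainN819 : Cert :=
  .leaf 51687225 100000000 51687226 100000000
    [(9683611, 2806), (20757299, 5986), (31830988, 6448), (41024488, 5071),
     (50217988, 2821)]

/-- A certificate. -/
def row10MainN817 : Cert :=
  .splitM 50217988 row10MainN818 row10MainN819

/-- A certificate. -/
def row10MainN813 : Cert :=
  .splitC 8503869 row10MainN814 row10MainN817

/-- A certificate. -/
def row10MainN797 : Cert :=
  .splitM 46388603 row10MainN798 row10MainN813

/-- A certificate. -/
def row10MainN825 : Cert :=
  .leaf 55156106 100000000 55156107 100000000
    [(10273482, 1673), (15862465, 4187), (26242005, 4902), (31830988, 4888),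
     (33619577, 4394), (36941244, 3231), (38729833, 2338)]

/-- A certificate. -/
def row10MainN826 : Cert :=
  .leaf 55156106 100000000 55156107 100000000
    [(10273482, 1723), (13641842, 3799), (21052235, 4949), (28462628, 5199),
     (31830988, 5208), (33208103, 4887), (36237756, 4062), (39267410, 2962),
     (40644525, 2270)]

/-- A certificate. -/
def row10MainN824 : Cert :=
  .splitM 40644525 row10MainN825 row10MainN826

/-- A certificate. -/
def row10MainN828 : Cert :=
  .leaf 56811174 100000000 56811175 100000000
    [(10863353, 1617), (14139546, 3549), (21347171, 4636), (28554795, 4853),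
     (31830988, 4847), (32908933, 4559), (35280410, 3830), (37651888, 2886),
     (38729833, 2317)]

/-- A certificate. -/
def row10MainN829 : Cert :=
  .leaf 56811174 100000000 56811175 100000000
    [(10863353, 1668), (14139546, 3675), (21347171, 4848), (28554795, 5136),
     (31830988, 5161), (33208103, 4842), (36237756, 4024), (39267410, 2934),
     (40644525, 2248)]

/-- A certificate. -/
def row10MainN827 : Cert :=
  .splitM 40644525 row10MainN828 row10MainN829

/-- A certificate. -/
def row10MainN823 : Cert :=
  .splitC 10273482 row10MainN824 row10MainN827

/-- A certificate. -/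
def row10MainN831 : Cert :=
  .leaf 55156106 100000000 55156107 100000000
    [(10273482, 1806), (10697646, 2316), (11870334, 3213), (13641842, 4002),
     (15862465, 4593), (18382498, 5006), (21052235, 5283), (23721972, 5462),
     (26242005, 5573), (28462628, 5637), (30234136, 5672), (31406824, 5688),
     (31830988, 5692), (32042076, 5655), (32625672, 5549), (33507274, 5385),
     (34612381, 5167), (35866491, 4904), (37195103, 4604), (38523715, 4277),
     (39777825, 3937), (40882932, 3605), (41764534, 3313), (42348130, 3103),
     (42559218, 3022)]

/-- A certificate. -/
def row10MainN832 : Cert :=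
  .leaf 56811174 100000000 56811175 100000000
    [(10863353, 1751), (11275911, 2237), (12416511, 3102), (14139546, 3877),
     (16299407, 4468), (18750484, 4889), (21347171, 5179), (23943857, 5370),
     (26394934, 5493), (28554795, 5568), (30277830, 5610), (31418430, 5631),
     (31830988, 5638), (32042076, 5600), (32625672, 5496), (33507274, 5332),
     (34612381, 5116), (35866491, 4856), (37195103, 4558), (38523715, 4233),
     (39777825, 3896), (40882932, 3568), (41764534, 3279), (42348130, 3070),
     (42559218, 2991)]

/-- A certificate. -/
def row10MainN830 : Cert :=
  .splitC 10273482 row10MainN831 row10MainN832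

/-- A certificate. -/
def row10MainN822 : Cert :=
  .splitM 42559218 row10MainN823 row10MainN830

/-- A certificate. -/
def row10MainN836 : Cert :=
  .leaf 58419371 100000000 58419372 100000000
    [(11453224, 1567), (14637250, 3433), (21642106, 4540), (28646962, 4795),
     (31830988, 4805), (32908933, 4520), (35280410, 3797), (37651888, 2860),
     (38729833, 2296)]

/-- A certificate. -/
def row10MainN837 : Cert :=
  .leaf 58419371 100000000 58419372 100000000
    [(11453224, 1618), (14637250, 3559), (21642106, 4750), (28646962, 5073),
     (31830988, 5115), (33208103, 4798), (36237756, 3987), (39267410, 2906),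
     (40644525, 2227)]

/-- A certificate. -/
def row10MainN835 : Cert :=
  .splitM 40644525 row10MainN836 row10MainN837

/-- A certificate. -/
def row10MainN839 : Cert :=
  .leaf 59984468 100000000 59984469 100000000
    [(12043095, 1522), (13508865, 2657), (17173289, 3838), (21937041, 4447),
     (26700794, 4690), (30365218, 4757), (31830988, 4764), (32342014, 4633),
     (33619577, 4281), (35280410, 3763), (36941244, 3145), (38218807, 2557),
     (38729833, 2276)]

/-- A certificate. -/
def row10MainN840 : Cert :=
  .leaf 59984468 100000000 59984469 100000000
    [(12043095, 1573), (13508865, 2752), (17173289, 3992), (21937041, 4655),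
     (26700794, 4946), (30365218, 5047), (31830988, 5069), (32483843, 4923),
     (34115979, 4532), (36237756, 3950), (38359534, 3242), (39991670, 2548),
     (40644525, 2205)]

/-- A certificate. -/
def row10MainN838 : Cert :=
  .splitM 40644525 row10MainN839 row10MainN840

/-- A certificate. -/
def row10MainN834 : Cert :=
  .splitC 11453224 row10MainN835 row10MainN838

/-- A certificate. -/
def row10MainN842 : Cert :=
  .leaf 58419371 100000000 58419372 100000000
    [(11453224, 1701), (11854175, 2164), (12962688, 2999), (14637250, 3759),
     (16736348, 4349), (19118471, 4777), (21642106, 5077), (24165741, 5281),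
     (26547864, 5414), (28646962, 5499), (30321524, 5549), (31430037, 5575),
     (31830988, 5583), (32042076, 5546), (32625672, 5442), (33507274, 5280),
     (34612381, 5066), (35866491, 4807), (37195103, 4512), (38523715, 4190),
     (39777825, 3857), (40882932, 3531), (41764534, 3245), (42348130, 3038),
     (42559218, 2960)]

/-- A certificate. -/
def row10MainN843 : Cert :=
  .leaf 59984468 100000000 59984469 100000000
    [(12043095, 1656), (12432440, 2097), (13508865, 2903), (15134953, 3648),
     (17173289, 4235), (19486458, 4670), (21937041, 4979), (24387625, 5193),
     (26700794, 5337), (28739130, 5431), (30365218, 5488), (31441643, 5518),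
     (31830988, 5528), (32042076, 5492), (32625672, 5389), (33507274, 5228),
     (34612381, 5015), (35866491, 4759), (37195103, 4466), (38523715, 4147),
     (39777825, 3817), (40882932, 3494), (41764534, 3211), (42348130, 3006),
     (42559218, 2929)]

/-- A certificate. -/
def row10MainN841 : Cert :=
  .splitC 11453224 row10MainN842 row10MainN843

/-- A certificate. -/
def row10MainN833 : Cert :=
  .splitM 42559218 row10MainN834 row10MainN841

/-- A certificate. -/
def row10MainN821 : Cert :=
  .splitC 10863353 row10MainN822 row10MainN833

/-- A certificate. -/
def row10MainN845 : Cert :=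
  .leaf 55156106 100000000 55156107 100000000
    [(10863353, 2638), (12416511, 3741), (16299407, 5030), (21347171, 5759),
     (26394934, 6115), (30277830, 6270), (31830988, 6314), (32909330, 6178),
     (35605184, 5814), (39109796, 5283), (42614407, 4666), (45310261, 4108),
     (46388603, 3857)]

/-- A certificate. -/
def row10MainN846 : Cert :=
  .leaf 58419371 100000000 58419372 100000000
    [(12043095, 2500), (15134953, 4214), (21937041, 5545), (28739130, 6053),
     (31830988, 6181), (34105615, 5892), (39109796, 5166), (44113976, 4267),
     (46388603, 3768)]

/-- A certificate. -/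
def row10MainN844 : Cert :=
  .splitC 10863353 row10MainN845 row10MainN846

/-- A certificate. -/
def row10MainN820 : Cert :=
  .splitM 46388603 row10MainN821 row10MainN844

/-- A certificate. -/
def row10MainN796 : Cert :=
  .splitC 9683611 row10MainN797 row10MainN820

/-- A certificate. -/
def row10MainN847 : Cert :=
  .leaf 47968138 98103493 47968139 98103494
    [(12043095, 5397), (12893356, 5659), (15134953, 6167), (18304108, 6619),
     (21937041, 6939), (25569975, 7144), (28739130, 7267), (30980727, 7332),
     (31830988, 7353), (32785598, 7281), (35302298, 7084), (38860391, 6785),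
     (42939181, 6410), (47017971, 5994), (50576064, 5589), (53092764, 5275),
     (54047374, 5148)]

/-- A certificate. -/
def row10MainN795 : Cert :=
  .splitM 54047374 row10MainN796 row10MainN847

/-- A certificate. -/
def row10MainN854 : Cert :=
  .leaf 61509754 100000000 61509755 100000000
    [(13222837, 2039), (13317062, 2110), (13588970, 2297), (14022406, 2552),
     (14601219, 2833), (15309254, 3112), (16130361, 3374), (17048384, 3611),
     (18047172, 3819), (19110572, 3998), (20222431, 4150), (21366595, 4277),
     (22526913, 4381), (23687230, 4466), (24831394, 4534), (25943253, 4588),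
     (27006653, 4629), (28005441, 4660), (28923464, 4682), (29744571, 4698),
     (30452606, 4709), (31031419, 4716), (31464855, 4720), (31736763, 4723),
     (31830988, 4723), (31865921, 4715), (31966729, 4689), (32127423, 4648),
     (32342014, 4593), (32604513, 4524), (32908933, 4442), (33249284, 4348),
     (33619577, 4244), (34013826, 4129), (34426040, 4004), (34850231, 3871),
     (35280410, 3730), (35710590, 3583), (36134781, 3430), (36546995, 3274),
     (36941244, 3117), (37311537, 2961), (37651888, 2809), (37956308, 2665),
     (38218807, 2534), (38433398, 2421), (38594092, 2332), (38694900, 2275),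
     (38729833, 2255)]

/-- A certificate. -/
def row10MainN855 : Cert :=
  .leaf 61509754 100000000 61509755 100000000
    [(13222837, 2112), (13588970, 2380), (14601219, 2939), (16130361, 3507),
     (18047172, 3978), (20222431, 4335), (22526913, 4591), (24831394, 4767),
     (27006653, 4882), (28923464, 4954), (30452606, 4995), (31464855, 5016),
     (31830988, 5023), (32004403, 4985), (32483843, 4878), (33208103, 4711),
     (34115979, 4490), (35146265, 4222), (36237756, 3912), (37329248, 3571),
     (38359534, 3211), (39267410, 2851), (39991670, 2524), (40471110, 2279),
     (40644525, 2184)]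

/-- A certificate. -/
def row10MainN853 : Cert :=
  .splitM 40644525 row10MainN854 row10MainN855

/-- A certificate. -/
def row10MainN858 : Cert :=
  .leaf 64452127 100000000 64452128 100000000
    [(13812708, 1409), (14167234, 1756), (15147395, 2411), (16628064, 3035),
     (18484114, 3538), (20590417, 3916), (22821848, 4186), (25053279, 4372),
     (27159582, 4493), (29015632, 4569), (30496301, 4612), (31476462, 4634),
     (31830988, 4641), (31966729, 4607), (32342014, 4513), (32908933, 4364),
     (33619577, 4169), (34426040, 3933), (35280410, 3663), (36134781, 3369),
     (36941244, 3061), (37651888, 2758), (38218807, 2488), (38594092, 2290),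
     (38729833, 2214)]

/-- A certificate. -/
def row10MainN859 : Cert :=
  .leaf 65874047 100000000 65874048 100000000
    [(14402579, 1377), (14490830, 1472), (14745499, 1709), (15151456, 2015),
     (15693572, 2340), (16356719, 2655), (17125768, 2949), (17985590, 3213),
     (18921055, 3447), (19917037, 3652), (20958404, 3828), (22030029, 3978),
     (23116783, 4105), (24203538, 4211), (25275163, 4299), (26316530, 4371),
     (27312512, 4430), (28247977, 4477), (29107799, 4514), (29876848, 4543),
     (30539995, 4565), (31082111, 4581), (31488068, 4591), (31742737, 4598),
     (31830988, 4600), (31865921, 4591), (31966729, 4566), (32127423, 4526),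
     (32342014, 4472), (32604513, 4405), (32908933, 4325), (33249284, 4233),
     (33619577, 4131), (34013826, 4019), (34426040, 3897), (34850231, 3767),
     (35280410, 3630), (35710590, 3486), (36134781, 3338), (36546995, 3186),
     (36941244, 3032), (37311537, 2880), (37651888, 2732), (37956308, 2592),
     (38218807, 2464), (38433398, 2354), (38594092, 2268), (38694900, 2213),
     (38729833, 2193)]

/-- A certificate. -/
def row10MainN857 : Cert :=
  .splitC 13812708 row10MainN858 row10MainN859

/-- A certificate. -/
def row10MainN860 : Cert :=
  .leaf 64452127 100000000 64452128 100000000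
    [(14402579, 2018), (14490830, 2085), (14745499, 2262), (15151456, 2507),
     (15693572, 2781), (16356719, 3058), (17125768, 3323), (17985590, 3567),
     (18921055, 3786), (19917037, 3980), (20958404, 4150), (22030029, 4296),
     (23116783, 4420), (24203538, 4525), (25275163, 4614), (26316530, 4687),
     (27312512, 4747), (28247977, 4796), (29107799, 4836), (29876848, 4867),
     (30539995, 4890), (31082111, 4908), (31488068, 4920), (31742737, 4928),
     (31830988, 4930), (31875617, 4920), (32004403, 4893), (32209695, 4848),
     (32483843, 4788), (32819196, 4712), (33208103, 4623), (33642915, 4521),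
     (34115979, 4406), (34619646, 4279), (35146265, 4142), (35688186, 3994),
     (36237756, 3838), (36787327, 3674), (37329248, 3503), (37855867, 3327),
     (38359534, 3149), (38832598, 2971), (39267410, 2796), (39656317, 2628),
     (39991670, 2474), (40265818, 2341), (40471110, 2235), (40599896, 2166),
     (40644525, 2141)]

/-- A certificate. -/
def row10MainN856 : Cert :=
  .splitM 40644525 row10MainN857 row10MainN860

/-- A certificate. -/
def row10MainN852 : Cert :=
  .splitC 13222837 row10MainN853 row10MainN856

/-- A certificate. -/
def row10MainN863 : Cert :=
  .leaf 61509754 100000000 61509755 100000000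
    [(12632966, 1615), (13010705, 2035), (14055042, 2813), (15632657, 3543),
     (17610231, 4127), (19854444, 4566), (22231977, 4883), (24609510, 5107),
     (26853723, 5261), (28831297, 5363), (30408912, 5427), (31453249, 5462),
     (31830988, 5474), (32042076, 5437), (32625672, 5335), (33507274, 5175),
     (34612381, 4965), (35866491, 4710), (37195103, 4420), (38523715, 4105),
     (39777825, 3777), (40882932, 3458), (41764534, 3177), (42348130, 2975),
     (42559218, 2898)]

/-- A certificate. -/
def row10MainN864 : Cert :=
  .leaf 62998121 100000000 62998122 100000000
    [(13222837, 1577), (14022406, 2345), (16130361, 3443), (19110572, 4260),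
     (22526913, 4790), (25943253, 5112), (28923464, 5296), (31031419, 5390),
     (31830988, 5419), (32291967, 5340), (33507274, 5123), (35225467, 4793),
     (37195103, 4374), (39164739, 3900), (40882932, 3421), (42098239, 3030),
     (42559218, 2866)]

/-- A certificate. -/
def row10MainN862 : Cert :=
  .splitC 12632966 row10MainN863 row10MainN864

/-- A certificate. -/
def row10MainN866 : Cert :=
  .leaf 64452127 100000000 64452128 100000000
    [(14402579, 2080), (17125768, 3433), (23116783, 4591), (29107799, 5052),
     (31830988, 5166), (33507274, 4836), (37195103, 3984), (40882932, 2828),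
     (42559218, 2075)]

/-- A certificate. -/
def row10MainN867 : Cert :=
  .leaf 64452127 100000000 64452128 100000000
    [(14402579, 2133), (18921055, 4030), (27312512, 5122), (31830988, 5363),
     (35108783, 4766), (41196115, 3289), (44473910, 2015)]

/-- A certificate. -/
def row10MainN865 : Cert :=
  .splitM 44473910 row10MainN866 row10MainN867

/-- A certificate. -/
def row10MainN861 : Cert :=
  .splitC 13222837 row10MainN862 row10MainN865

/-- A certificate. -/
def row10MainN851 : Cert :=
  .splitM 42559218 row10MainN852 row10MainN861

/-- A certificate. -/
def row10MainN873 : Cert :=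
  .leaf 67265917 100000000 67265918 100000000
    [(14992450, 1319), (17623472, 2798), (23411719, 3911), (29199966, 4310),
     (31830988, 4393), (32908933, 4096), (35280410, 3329), (37651888, 2280),
     (38729833, 1569)]

/-- A certificate. -/
def row10MainN874 : Cert :=
  .leaf 67265917 100000000 67265918 100000000
    [(14992450, 1349), (17623472, 2867), (23411719, 4026), (29199966, 4460),
     (31830988, 4558), (33058518, 4246), (35759084, 3437), (38459649, 2318),
     (39687179, 1540)]

/-- A certificate. -/
def row10MainN872 : Cert :=
  .splitM 39687179 row10MainN873 row10MainN874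

/-- A certificate. -/
def row10MainN876 : Cert :=
  .leaf 68629564 100000000 68629565 100000000
    [(15582321, 1293), (18121175, 2721), (23706655, 3835), (29292134, 4258),
     (31830988, 4354), (32908933, 4059), (35280410, 3298), (37651888, 2259),
     (38729833, 1554)]

/-- A certificate. -/
def row10MainN877 : Cert :=
  .leaf 68629564 100000000 68629565 100000000
    [(15582321, 1323), (18121175, 2789), (23706655, 3948), (29292134, 4405),
     (31830988, 4516), (33058518, 4206), (35759084, 3404), (38459649, 2296),
     (39687179, 1525)]

/-- A certificate. -/
def row10MainN875 : Cert :=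
  .splitM 39687179 row10MainN876 row10MainN877

/-- A certificate. -/
def row10MainN871 : Cert :=
  .splitC 14992450 row10MainN872 row10MainN875

/-- A certificate. -/
def row10MainN878 : Cert :=
  .leaf 67265917 100000000 67265918 100000000
    [(15582321, 1939), (15902029, 2161), (16785926, 2642), (18121175, 3158),
     (19794938, 3612), (21694377, 3977), (23706655, 4258), (25718932, 4466),
     (27618371, 4616), (29292134, 4719), (30627383, 4785), (31511280, 4823),
     (31830988, 4836), (32004403, 4799), (32483843, 4696), (33208103, 4534),
     (34115979, 4320), (35146265, 4061), (36237756, 3762), (37329248, 3433),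
     (38359534, 3086), (39267410, 2739), (39991670, 2425), (40471110, 2190),
     (40644525, 2098)]

/-- A certificate. -/
def row10MainN870 : Cert :=
  .splitM 40644525 row10MainN871 row10MainN878

/-- A certificate. -/
def row10MainN881 : Cert :=
  .leaf 69966638 100000000 69966639 100000000
    [(16172192, 1300), (16251483, 1380), (16480293, 1586), (16845031, 1857),
     (17332103, 2150), (17927916, 2441), (18618879, 2716), (19391398, 2969),
     (20231880, 3197), (21126733, 3401), (22062364, 3581), (23025181, 3737),
     (24001590, 3873), (24977999, 3990), (25940816, 4089), (26876447, 4174),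
     (27771300, 4244), (28611782, 4303), (29384301, 4351), (30075264, 4390),
     (30671077, 4420), (31158149, 4443), (31522887, 4460), (31751697, 4469),
     (31830988, 4473), (31865921, 4464), (31966729, 4440), (32127423, 4401),
     (32342014, 4348), (32604513, 4282), (32908933, 4204), (33249284, 4115),
     (33619577, 4015), (34013826, 3906), (34426040, 3787), (34850231, 3661),
     (35280410, 3527), (35710590, 3387), (36134781, 3242), (36546995, 3095),
     (36941244, 2945), (37311537, 2797), (37651888, 2654), (37956308, 2517),
     (38218807, 2393), (38433398, 2286), (38594092, 2203), (38694900, 2148),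
     (38729833, 2129)]

/-- A certificate. -/
def row10MainN882 : Cert :=
  .leaf 71278636 100000000 71278637 100000000
    [(16762063, 1279), (17409556, 1812), (19116583, 2645), (21529965, 3323),
     (24296525, 3799), (27063086, 4109), (29476468, 4297), (31183495, 4397),
     (31830988, 4429), (32127423, 4358), (32908933, 4163), (34013826, 3867),
     (35280410, 3492), (36546995, 3063), (37651888, 2626), (38433398, 2263),
     (38729833, 2108)]

/-- A certificate. -/
def row10MainN880 : Cert :=
  .splitC 16172192 row10MainN881 row10MainN882

/-- A certificate. -/
def row10MainN883 : Cert :=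
  .leaf 69966638 100000000 69966639 100000000
    [(16762063, 1874), (17878280, 2521), (20668821, 3451), (24296525, 4104),
     (27924230, 4486), (30714771, 4679), (31830988, 4739), (32483843, 4601),
     (34115979, 4232), (36237756, 3685), (38359534, 3021), (39991670, 2373),
     (40644525, 2053)]

/-- A certificate. -/
def row10MainN879 : Cert :=
  .splitM 40644525 row10MainN880 row10MainN883

/-- A certificate. -/
def row10MainN869 : Cert :=
  .splitC 15582321 row10MainN870 row10MainN879

/-- A certificate. -/
def row10MainN885 : Cert :=
  .leaf 67265917 100000000 67265918 100000000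
    [(15582321, 2055), (16785926, 2804), (19794938, 3848), (23706655, 4563),
     (27618371, 4977), (30627383, 5185), (31830988, 5251), (32625672, 5117),
     (34612381, 4759), (37195103, 4234), (39777825, 3615), (41764534, 3039),
     (42559218, 2772)]

/-- A certificate. -/
def row10MainN886 : Cert :=
  .leaf 69966638 100000000 69966639 100000000
    [(16762063, 1989), (20668821, 3680), (27924230, 4832), (31830988, 5135),
     (34612381, 4652), (39777825, 3531), (42559218, 2706)]

/-- A certificate. -/
def row10MainN884 : Cert :=
  .splitC 15582321 row10MainN885 row10MainN886

/-- A certificate. -/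
def row10MainN868 : Cert :=
  .splitM 42559218 row10MainN869 row10MainN884

/-- A certificate. -/
def row10MainN850 : Cert :=
  .splitC 14402579 row10MainN851 row10MainN868

/-- A certificate. -/
def row10MainN888 : Cert :=
  .leaf 61509754 100000000 61509755 100000000
    [(14402579, 3225), (15693572, 3832), (18921055, 4758), (23116783, 5412),
     (27312512, 5793), (30539995, 5986), (31830988, 6047), (32909330, 5915),
     (35605184, 5562), (39109796, 5049), (42614407, 4455), (45310261, 3920),
     (46388603, 3680)]

/-- A certificate. -/
def row10MainN889 : Cert :=
  .leaf 67265917 100000000 67265918 100000000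
    [(16762063, 3004), (24296525, 5044), (31830988, 5772), (39109796, 4811),
     (46388603, 3499)]

/-- A certificate. -/
def row10MainN887 : Cert :=
  .splitC 14402579 row10MainN888 row10MainN889

/-- A certificate. -/
def row10MainN849 : Cert :=
  .splitM 46388603 row10MainN850 row10MainN887

/-- A certificate. -/
def row10MainN890 : Cert :=
  .leaf 61509754 98103493 61509755 98103494
    [(16762063, 4576), (24296525, 6084), (31830988, 6710), (42939181, 5831),
     (54047374, 4689)]

/-- A certificate. -/
def row10MainN848 : Cert :=
  .splitM 54047374 row10MainN849 row10MainN890

/-- A certificate. -/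
def row10MainN794 : Cert :=
  .splitC 12043095 row10MainN795 row10MainN848

/-- A certificate. -/
def row10MainN892 : Cert :=
  .leaf 47968138 0 47968139 0
    [(12043095, 6724), (21937041, 8735), (31830988, 9356), (50000000, 9659),
     (68169012, 9863), (68766964, 9865), (69364916, 9868)]

/-- A certificate. -/
def row10MainN893 : Cert :=
  .leaf 61509754 0 61509755 0
    [(16762063, 5971), (24296525, 7954), (31830988, 8790), (50000000, 9368),
     (68169012, 9749), (68766964, 9753), (69364916, 9758)]

/-- A certificate. -/
def row10MainN891 : Cert :=
  .splitC 12043095 row10MainN892 row10MainN893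

/-- A certificate. -/
def row10MainN793 : Cert :=
  .splitM 69364916 row10MainN794 row10MainN891

/-- A certificate. -/
def row10MainN903 : Cert :=
  .leaf 72566916 100000000 72566917 100000000
    [(17351934, 1259), (18424457, 2042), (21105763, 3046), (24591461, 3727),
     (28077159, 4123), (30758465, 4322), (31830988, 4384), (32342014, 4261),
     (33619577, 3935), (35280410, 3455), (36941244, 2885), (38218807, 2344),
     (38729833, 2085)]

/-- A certificate. -/
def row10MainN904 : Cert :=
  .leaf 73832721 100000000 73832723 100000000
    [(17941805, 1242), (20111990, 2514), (24886397, 3656), (29660803, 4187),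
     (31830988, 4338), (32908933, 4077), (35280410, 3418), (37651888, 2571),
     (38729833, 2062)]

/-- A certificate. -/
def row10MainN902 : Cert :=
  .splitC 17351934 row10MainN903 row10MainN904

/-- A certificate. -/
def row10MainN905 : Cert :=
  .leaf 72566916 100000000 72566917 100000000
    [(17941805, 1821), (21542704, 3302), (28230089, 4357), (31830988, 4638),
     (34115979, 4141), (38359534, 2955), (40644525, 2007)]

/-- A certificate. -/
def row10MainN901 : Cert :=
  .splitM 40644525 row10MainN902 row10MainN905

/-- A certificate. -/
def row10MainN907 : Cert :=
  .leaf 75077188 100000000 75077189 100000000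
    [(19121547, 1704), (21107397, 2635), (25476267, 3633), (29845138, 4139),
     (31830988, 4291), (32908933, 4032), (35280410, 3380), (37651888, 2542),
     (38729833, 2039)]

/-- A certificate. -/
def row10MainN908 : Cert :=
  .leaf 75077188 100000000 75077189 100000000
    [(19121547, 1777), (25476267, 3812), (31830988, 4532), (36237756, 3519),
     (40644525, 1959)]

/-- A certificate. -/
def row10MainN906 : Cert :=
  .splitM 40644525 row10MainN907 row10MainN908

/-- A certificate. -/
def row10MainN900 : Cert :=
  .splitC 17941805 row10MainN901 row10MainN906

/-- A certificate. -/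
def row10MainN909 : Cert :=
  .leaf 72566916 100000000 72566917 100000000
    [(19121547, 2642), (22416587, 3747), (28535948, 4720), (31830988, 5014),
     (34612381, 4540), (39777825, 3444), (42559218, 2639)]

/-- A certificate. -/
def row10MainN899 : Cert :=
  .splitM 42559218 row10MainN900 row10MainN909

/-- A certificate. -/
def row10MainN912 : Cert :=
  .leaf 77506200 100000000 77506201 100000000
    [(20301289, 1743), (23290470, 3033), (28841807, 4096), (31830988, 4419),
     (33619577, 4052), (36941244, 3239), (38729833, 2686)]

/-- A certificate. -/
def row10MainN913 : Cert :=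
  .leaf 79861367 100000000 79861368 100000000
    [(21481031, 1717), (26656009, 3532), (31830988, 4297), (35280410, 3569),
     (38729833, 2609)]

/-- A certificate. -/
def row10MainN911 : Cert :=
  .splitC 20301289 row10MainN912 row10MainN913

/-- A certificate. -/
def row10MainN914 : Cert :=
  .leaf 77506200 100000000 77506201 100000000
    [(21481031, 2541), (26656009, 4037), (31830988, 4751), (37195103, 3820),
     (42559218, 2493)]

/-- A certificate. -/
def row10MainN910 : Cert :=
  .splitM 42559218 row10MainN911 row10MainN914

/-- A certificate. -/
def row10MainN898 : Cert :=
  .splitC 19121547 row10MainN899 row10MainN910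

/-- A certificate. -/
def row10MainN915 : Cert :=
  .leaf 72566916 100000000 72566917 100000000
    [(21481031, 3784), (26656009, 4885), (31830988, 5479), (39109796, 4557),
     (46388603, 3309)]

/-- A certificate. -/
def row10MainN897 : Cert :=
  .splitM 46388603 row10MainN898 row10MainN915

/-- A certificate. -/
def row10MainN918 : Cert :=
  .leaf 82149040 100000000 82149041 100000000
    [(23840515, 2479), (27835751, 3746), (31830988, 4447), (35280410, 3910),
     (38729833, 3267)]

/-- A certificate. -/
def row10MainN919 : Cert :=
  .leaf 86543160 100000000 86543161 100000000
    [(26200000, 2453), (29015494, 3444), (31830988, 4076), (35280410, 3580),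
     (38729833, 2988)]

/-- A certificate. -/
def row10MainN917 : Cert :=
  .splitC 23840515 row10MainN918 row10MainN919

/-- A certificate. -/
def row10MainN920 : Cert :=
  .leaf 82149040 100000000 82149041 100000000
    [(26200000, 3573), (29015494, 4282), (31830988, 4782), (39109796, 3963),
     (46388603, 2867)]

/-- A certificate. -/
def row10MainN916 : Cert :=
  .splitM 46388603 row10MainN917 row10MainN920

/-- A certificate. -/
def row10MainN896 : Cert :=
  .splitC 21481031 row10MainN897 row10MainN916

/-- A certificate. -/
def row10MainN921 : Cert :=
  .leaf 72566916 98103493 72566917 98103494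
    [(26200000, 5262), (29015494, 5689), (31830988, 6015), (42939181, 5223),
     (54047374, 4218)]

/-- A certificate. -/
def row10MainN895 : Cert :=
  .splitM 54047374 row10MainN896 row10MainN921

/-- A certificate. -/
def row10MainN922 : Cert :=
  .leaf 72566916 0 72566917 0
    [(26200000, 7050), (29015494, 7614), (31830988, 8042), (50000000, 8999),
     (68169012, 9607), (68766964, 9614), (69364916, 9622)]

/-- A certificate. -/
def row10MainN894 : Cert :=
  .splitM 69364916 row10MainN895 row10MainN922

/-- A certificate. -/
def row10MainN792 : Cert :=
  .splitC 16762063 row10MainN793 row10MainN894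

/-- A certificate. -/
def row10MainN620 : Cert :=
  .splitM 38729833 row10MainN621 row10MainN792

/-- A certificate. -/
def row10MainN466 : Cert :=
  .splitC 7324127 row10MainN467 row10MainN620

/-- A certificate. -/
def row10Main : Cert :=
  .splitC 2047437 row10MainN1 row10MainN466

/-- A certificate. -/
def row10FloorN3 : Cert :=
  .leaf 7089815 81093314 7089816 81093315
    [(1808889, 8391), (8954074, 6894), (15000000, 4869)]

/-- A certificate. -/
def row10FloorN5 : Cert :=
  .leaf 7089815 86648681 7089816 86648682
    [(1214851, 8391), (6651393, 7757), (15495916, 5452), (20932458, 3244)]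

/-- A certificate. -/
def row10FloorN6 : Cert :=
  .leaf 7089815 91868723 7089816 91868724
    [(544655, 7722), (2797632, 8531), (7578340, 7782), (14227370, 6331), (20766499, 4406),
     (23898687, 3074)]

/-- A certificate. -/
def row10FloorN4 : Cert :=
  .splitM 23898687 row10FloorN5 row10FloorN6

/-- A certificate. -/
def row10FloorN2 : Cert :=
  .splitM 20932458 row10FloorN3 row10FloorN4

/-- A certificate. -/
def row10FloorN9 : Cert :=
  .leaf 7089815 96807699 7089816 96807700
    [(592719, 7881), (3127213, 8587), (8505286, 7803), (15985135, 6316), (23341351, 4331),
     (26864916, 2929)]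

/-- A certificate. -/
def row10FloorN10 : Cert :=
  .leaf 7089815 100000000 7089816 100000000
    [(224391, 4996), (640782, 8028), (1666738, 8675), (3456794, 8660), (6062463, 8368),
     (9432233, 7884), (13411566, 7234), (17742901, 6435), (22065650, 5515),
     (25916202, 4536), (28727921, 3658), (29831145, 3248)]

/-- A certificate. -/
def row10FloorN8 : Cert :=
  .splitM 29831145 row10FloorN9 row10FloorN10

/-- A certificate. -/
def row10FloorN13 : Cert :=
  .leaf 7089815 100000000 7089816 100000000
    [(384233, 7132), (1768292, 8736), (4961681, 8597), (10057184, 7957), (16590871, 6961),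
     (23542097, 5683), (29333496, 4330), (31830988, 3590), (31981986, 3482),
     (32314181, 3228), (32646376, 2949), (32797374, 2813)]

/-- A certificate. -/
def row10FloorN14 : Cert :=
  .leaf 7089815 100000000 7089816 100000000
    [(228730, 5144), (673187, 8148), (1768292, 8778), (3678999, 8780), (6460291, 8527),
     (10057184, 8105), (14304725, 7544), (18927993, 6865), (23542097, 6105),
     (27652177, 5335), (30653406, 4691), (31830988, 4412), (31899574, 4376),
     (32085736, 4274), (32360080, 4120), (32693212, 3922), (33055738, 3692),
     (33418264, 3444), (33751396, 3197), (34025740, 2977), (34211902, 2816),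
     (34280488, 2755)]

/-- A certificate. -/
def row10FloorN12 : Cert :=
  .splitM 34280488 row10FloorN13 row10FloorN14

/-- A certificate. -/
def row10FloorN16 : Cert :=
  .leaf 7089815 100000000 7089816 100000000
    [(168878, 2159), (228730, 5158), (384233, 7176), (673187, 8175), (1126522, 8627),
     (1768292, 8817), (2615681, 8869), (3678999, 8838), (4961681, 8749), (6460291, 8615),
     (8164519, 8442), (10057184, 8235), (12114229, 7997), (14304725, 7730),
     (16590871, 7438), (18927993, 7125), (21264542, 6795), (23542097, 6457),
     (25695364, 6119), (27652177, 5794), (29333496, 5499), (30653406, 5256),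
     (31519124, 5090), (31830988, 5029), (31875153, 5010), (31999968, 4955),
     (32193910, 4869), (32445459, 4754), (32743094, 4614), (33075292, 4450),
     (33430533, 4266), (33797296, 4066), (34164058, 3853), (34519299, 3632),
     (34851497, 3411), (35149132, 3199), (35400681, 3005), (35594623, 2847),
     (35719438, 2739), (35763603, 2700)]

/-- A certificate. -/
def row10FloorN18 : Cert :=
  .leaf 7089815 100000000 7089816 100000000
    [(228730, 5165), (673187, 8187), (1768292, 8835), (3678999, 8864), (6460291, 8655),
     (10057184, 8294), (14304725, 7814), (18927993, 7240), (23542097, 6611),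
     (27652177, 5992), (30653406, 5495), (31830988, 5287), (31937548, 5245),
     (32232153, 5126), (32677196, 4938), (33235066, 4688), (33868155, 4383),
     (34538853, 4028), (35209551, 3630), (35842640, 3203), (36400510, 2765),
     (36845553, 2352), (37140158, 2030), (37246718, 1899)]

/-- A certificate. -/
def row10FloorN19 : Cert :=
  .leaf 7089815 100000000 7089816 100000000
    [(228730, 5171), (673187, 8198), (1768292, 8852), (3678999, 8890), (6460291, 8693),
     (10057184, 8349), (14304725, 7892), (18927993, 7348), (23542097, 6754),
     (27652177, 6174), (30653406, 5712), (31830988, 5520), (31952138, 5476),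
     (32287083, 5350), (32793064, 5153), (33427322, 4890), (34147097, 4567),
     (34909632, 4190), (35672166, 3766), (36391941, 3308), (37026199, 2835),
     (37532180, 2384), (37867125, 2028), (37988275, 1881)]

/-- A certificate. -/
def row10FloorN17 : Cert :=
  .splitM 37988275 row10FloorN18 row10FloorN19

/-- A certificate. -/
def row10FloorN15 : Cert :=
  .splitM 37246718 row10FloorN16 row10FloorN17

/-- A certificate. -/
def row10FloorN11 : Cert :=
  .splitM 35763603 row10FloorN12 row10FloorN15

/-- A certificate. -/
def row10FloorN7 : Cert :=
  .splitM 32797374 row10FloorN8 row10FloorN11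

/-- A certificate. -/
def row10FloorN1 : Cert :=
  .splitM 26864916 row10FloorN2 row10FloorN7

/-- A certificate. -/
def row10FloorN26 : Cert :=
  .leaf 7089815 100000000 7089816 100000000
    [(228730, 5179), (673187, 8213), (1768292, 8872), (3678999, 8920), (6460291, 8739),
     (10057184, 8416), (14304725, 7987), (18927993, 7477), (23542097, 6923),
     (27652177, 6387), (30653406, 5964), (31830988, 5789), (31966729, 5744),
     (32342014, 5616), (32908933, 5415), (33619577, 5146), (34426040, 4817),
     (35280410, 4432), (36134781, 4000), (36941244, 3534), (37651888, 3056),
     (38218807, 2604), (38594092, 2252), (38729833, 2109)]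

/-- A certificate. -/
def row10FloorN27 : Cert :=
  .leaf 7089815 100000000 7089816 100000000
    [(228730, 5186), (673187, 8226), (1768292, 8892), (3678999, 8949), (6460291, 8781),
     (10057184, 8478), (14304725, 8074), (18927993, 7595), (23542097, 7078),
     (27652177, 6580), (30653406, 6190), (31830988, 6030), (31985566, 5982),
     (32412928, 5849), (33058518, 5638), (33867778, 5355), (34786152, 5008),
     (35759084, 4600), (36732015, 4141), (37650389, 3642), (38459649, 3126),
     (39105239, 2634), (39532601, 2244), (39687179, 2084)]

/-- A certificate. -/
def row10FloorN25 : Cert :=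
  .splitM 39687179 row10FloorN26 row10FloorN27

/-- A certificate. -/
def row10FloorN29 : Cert :=
  .leaf 7089815 100000000 7089816 100000000
    [(228730, 5193), (673187, 8239), (1768292, 8911), (3678999, 8977), (6460291, 8821),
     (10057184, 8536), (14304725, 8154), (18927993, 7703), (23542097, 7219),
     (27652177, 6755), (30653406, 6393), (31830988, 6246), (32004403, 6197),
     (32483843, 6058), (33208103, 5839), (34115979, 5545), (35146265, 5181),
     (36237756, 4754), (37329248, 4270), (38359534, 3742), (39267410, 3192),
     (39991670, 2662), (40471110, 2237), (40644525, 2060)]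

/-- A certificate. -/
def row10FloorN30 : Cert :=
  .leaf 7089815 100000000 7089816 100000000
    [(228730, 5200), (673187, 8251), (1768292, 8928), (3678999, 9002), (6460291, 8859),
     (10057184, 8590), (14304725, 8229), (18927993, 7804), (23542097, 7348),
     (27652177, 6914), (30653406, 6578), (31830988, 6441), (32023239, 6391),
     (32554757, 6248), (33357688, 6021), (34364180, 5717), (35506378, 5340),
     (36716430, 4895), (37926481, 4390), (39068679, 3835), (40075171, 3254),
     (40878102, 2689), (41409620, 2230), (41601871, 2037)]

/-- A certificate. -/
def row10FloorN28 : Cert :=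
  .splitM 41601871 row10FloorN29 row10FloorN30

/-- A certificate. -/
def row10FloorN24 : Cert :=
  .splitM 40644525 row10FloorN25 row10FloorN28

/-- A certificate. -/
def row10FloorN32 : Cert :=
  .leaf 7089815 100000000 7089816 100000000
    [(168878, 2181), (228730, 5213), (384233, 7256), (673187, 8274), (1126522, 8747),
     (1768292, 8960), (2615681, 9042), (3678999, 9049), (4961681, 9006), (6460291, 8927),
     (8164519, 8819), (10057184, 8687), (12114229, 8534), (14304725, 8363),
     (16590871, 8178), (18927993, 7983), (21264542, 7781), (23542097, 7578),
     (25695364, 7380), (27652177, 7194), (29333496, 7031), (30653406, 6900),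
     (31519124, 6813), (31830988, 6781), (31885312, 6769), (32042076, 6733),
     (32291967, 6675), (32625672, 6596), (33033878, 6497), (33507274, 6379),
     (34036546, 6243), (34612381, 6089), (35225467, 5917), (35866491, 5730),
     (36526141, 5527), (37195103, 5309), (37864065, 5079), (38523715, 4836),
     (39164739, 4585), (39777825, 4326), (40353660, 4065), (40882932, 3806),
     (41356328, 3556), (41764534, 3322), (42098239, 3116), (42348130, 2952),
     (42504894, 2843), (42559218, 2804)]

/-- A certificate. -/
def row10FloorN33 : Cert :=
  .leaf 7089815 100000000 7089816 100000000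
    [(189479, 3760), (384233, 7272), (877642, 8578), (1768292, 8990), (3119973, 9091),
     (4961681, 9056), (7287615, 8942), (10057184, 8772), (13194997, 8559), (16590871, 8314),
     (20099829, 8048), (23542097, 7775), (26703106, 7514), (29333496, 7288),
     (31149107, 7128), (31830988, 7067), (31972974, 7039), (32374239, 6956),
     (32997742, 6825), (33806445, 6646), (34763306, 6424), (35831288, 6159),
     (36973348, 5853), (38152449, 5510), (39331550, 5133), (40473610, 4728),
     (41541592, 4305), (42498453, 3876), (43307156, 3464), (43930659, 3104),
     (44331924, 2845), (44473910, 2747)]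

/-- A certificate. -/
def row10FloorN31 : Cert :=
  .splitM 44473910 row10FloorN32 row10FloorN33

/-- A certificate. -/
def row10FloorN23 : Cert :=
  .splitM 42559218 row10FloorN24 row10FloorN31

/-- A certificate. -/
def row10FloorN36 : Cert :=
  .leaf 7089815 100000000 7089816 100000000
    [(228730, 5235), (673187, 8314), (1768292, 9016), (3678999, 9128), (6460291, 9041),
     (10057184, 8848), (14304725, 8584), (18927993, 8273), (23542097, 7945),
     (27652177, 7639), (30653406, 7406), (31830988, 7312), (32117423, 7260),
     (32909330, 7112), (34105615, 6876), (35605184, 6557), (37306943, 6159),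
     (39109796, 5686), (40912648, 5147), (42614407, 4555), (44113976, 3939),
     (45310261, 3349), (46102168, 2883), (46388603, 2693)]

/-- A certificate. -/
def row10FloorN37 : Cert :=
  .leaf 7089815 100000000 7089816 100000000
    [(228730, 5244), (673187, 8331), (1768292, 9040), (3678999, 9162), (6460291, 9089),
     (10057184, 8915), (14304725, 8675), (18927993, 8392), (23542097, 8095),
     (27652177, 7817), (30653406, 7607), (31830988, 7523), (32155096, 7470),
     (33051159, 7319), (34404786, 7077), (36101586, 6748), (38027168, 6335),
     (40067142, 5842), (42107115, 5276), (44032697, 4652), (45729497, 3995),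
     (47083124, 3361), (47979187, 2852), (48303295, 2642)]

/-- A certificate. -/
def row10FloorN35 : Cert :=
  .splitM 48303295 row10FloorN36 row10FloorN37

/-- A certificate. -/
def row10FloorN39 : Cert :=
  .leaf 7089815 100000000 7089816 100000000
    [(189479, 3781), (384233, 7315), (877642, 8635), (1768292, 9062), (3119973, 9184),
     (4961681, 9178), (7287615, 9100), (10057184, 8975), (13194997, 8815), (16590871, 8630),
     (20099829, 8430), (23542097, 8226), (26703106, 8033), (29333496, 7868),
     (31149107, 7752), (31830988, 7708), (32037483, 7677), (32621054, 7589),
     (33527835, 7446), (34703957, 7253), (36095551, 7008), (37648750, 6714),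
     (39309685, 6371), (41024488, 5980), (42739291, 5546), (44400226, 5073),
     (45953425, 4568), (47345019, 4047), (48521141, 3534), (49427922, 3071),
     (50011493, 2727), (50217988, 2593)]

/-- A certificate. -/
def row10FloorN40 : Cert :=
  .leaf 7089815 100000000 7089816 100000000
    [(189479, 3787), (384233, 7327), (877642, 8651), (1768292, 9082), (3119973, 9210),
     (4961681, 9211), (7287615, 9143), (10057184, 9029), (13194997, 8883), (16590871, 8713),
     (20099829, 8530), (23542097, 8343), (26703106, 8166), (29333496, 8016),
     (31149107, 7910), (31830988, 7869), (32058986, 7839), (32703326, 7749),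
     (33704533, 7605), (35003128, 7408), (36539633, 7159), (38254571, 6858),
     (40088464, 6507), (41981834, 6105), (43875205, 5656), (45709098, 5165),
     (47424036, 4640), (48960541, 4095), (50259136, 3554), (51260343, 3062),
     (51904683, 2692), (52132681, 2548)]

/-- A certificate. -/
def row10FloorN38 : Cert :=
  .splitM 52132681 row10FloorN39 row10FloorN40

/-- A certificate. -/
def row10FloorN34 : Cert :=
  .splitM 50217988 row10FloorN35 row10FloorN38

/-- A certificate. -/
def row10FloorN22 : Cert :=
  .splitM 46388603 row10FloorN23 row10FloorN34

/-- A certificate. -/
def row10FloorN44 : Cert :=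
  .leaf 7089815 100000000 7089816 100000000
    [(189479, 3792), (384233, 7338), (877642, 8666), (1768292, 9100), (3119973, 9233),
     (4961681, 9241), (7287615, 9181), (10057184, 9078), (13194997, 8944), (16590871, 8788),
     (20099829, 8619), (23542097, 8447), (26703106, 8285), (29333496, 8147),
     (31149107, 8050), (31830988, 8013), (32080488, 7982), (32785598, 7892),
     (33881231, 7746), (35302298, 7547), (36983714, 7294), (38860391, 6988),
     (40867243, 6629), (42939181, 6218), (45011119, 5756), (47017971, 5250),
     (48894648, 4706), (50576064, 4138), (51997131, 3573), (53092764, 3053),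
     (53797874, 2660), (54047374, 2504)]

/-- A certificate. -/
def row10FloorN45 : Cert :=
  .leaf 7089815 100000000 7089816 100000000
    [(228730, 5277), (673187, 8388), (1768292, 9117), (3678999, 9269), (6460291, 9239),
     (10057184, 9122), (14304725, 8953), (18927993, 8752), (23542097, 8540),
     (27652177, 8345), (30653406, 8199), (31830988, 8140), (32305789, 8085),
     (33618475, 7927), (35601469, 7671), (38087193, 7318), (40908072, 6868),
     (43896527, 6320), (46884982, 5679), (49705861, 4957), (52191585, 4179),
     (54174579, 3400), (55487265, 2746), (55962066, 2463)]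

/-- A certificate. -/
def row10FloorN43 : Cert :=
  .splitM 55962066 row10FloorN44 row10FloorN45

/-- A certificate. -/
def row10FloorN46 : Cert :=
  .leaf 7089815 100000000 7089816 100000000
    [(228730, 5290), (673187, 8411), (1768292, 9148), (3678999, 9310), (6460291, 9296),
     (10057184, 9199), (14304725, 9055), (18927993, 8882), (23542097, 8700),
     (27652177, 8533), (30653406, 8408), (31830988, 8358), (32343463, 8306),
     (33760304, 8159), (35900640, 7920), (38583595, 7591), (41628298, 7171),
     (44853874, 6663), (48079449, 6075), (51124152, 5421), (53807107, 4735),
     (55947443, 4078), (57364284, 3560), (57876759, 3350)]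

/-- A certificate. -/
def row10FloorN42 : Cert :=
  .splitM 57876759 row10FloorN43 row10FloorN46

/-- A certificate. -/
def row10FloorN47 : Cert :=
  .leaf 7089815 98103493 7089816 98103494
    [(384233, 7404), (1768292, 9205), (4961681, 9405), (10057184, 9338), (16590871, 9175),
     (23542097, 8979), (29333496, 8807), (31830988, 8731), (33114686, 8635),
     (36498981, 8359), (41283674, 7910), (46768566, 7296), (52253459, 6545),
     (57038152, 5739), (60422447, 5044), (61706145, 4743)]

/-- A certificate. -/
def row10FloorN41 : Cert :=
  .splitM 61706145 row10FloorN42 row10FloorN47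

/-- A certificate. -/
def row10FloorN21 : Cert :=
  .splitM 54047374 row10FloorN22 row10FloorN41

/-- A certificate. -/
def row10FloorN50 : Cert :=
  .leaf 7089815 84960117 7089816 84960118
    [(1768292, 9290), (10057184, 9525), (23542097, 9337), (31830988, 9200),
     (37508804, 8933), (50000000, 8175), (62491196, 7118), (68169012, 6500),
     (68355872, 6451), (68766964, 6341), (69178056, 6224), (69364916, 6170)]

/-- A certificate. -/
def row10FloorN51 : Cert :=
  .leaf 7089815 69369645 7089816 69369646
    [(3678999, 9585), (18927993, 9625), (31830988, 9525), (41251957, 9275),
     (58748043, 8645), (68169012, 8202), (70464668, 7913), (74728031, 7178),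
     (77023687, 6613)]

/-- A certificate. -/
def row10FloorN49 : Cert :=
  .splitM 77023687 row10FloorN50 row10FloorN51

/-- A certificate. -/
def row10FloorN53 : Cert :=
  .leaf 7089815 49051746 7089816 49051747
    [(3678999, 9667), (18927993, 9792), (31830988, 9765), (41251957, 9661),
     (58748043, 9412), (68169012, 9247), (72450276, 9028), (80401194, 8312),
     (84682458, 7540)]

/-- A certificate. -/
def row10FloorN54 : Cert :=
  .leaf 7089815 0 7089816 0
    [(3678999, 9795), (18927993, 9972), (31830988, 9988), (41251957, 9991),
     (58748043, 9995), (68169012, 9997), (74435883, 9997), (86074358, 9998),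
     (92341229, 9999)]

/-- A certificate. -/
def row10FloorN52 : Cert :=
  .splitM 92341229 row10FloorN53 row10FloorN54

/-- A certificate. -/
def row10FloorN48 : Cert :=
  .splitM 84682458 row10FloorN49 row10FloorN52

/-- A certificate. -/
def row10FloorN20 : Cert :=
  .splitM 69364916 row10FloorN21 row10FloorN48

/-- A certificate. -/
def row10Floor : Cert :=
  .splitM 38729833 row10FloorN1 row10FloorN20

theorem row10Main_ok :
    check (row10Bins.map Prod.fst) (10 ^ 8) tubeSkip row10Main 160000 26200000 15000000 (10 ^ 8) = true := by
  refine Fast.check_of ?_
  iterate 7 all_goals try first | apply Fast.splitM_ok | apply Fast.splitC_ok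
  all_goals decide +kernel

theorem row10Floor_ok :
    check (row10Bins.map Prod.fst) (3043 * 14336 * 10 ^ 6 + 10 ^ 8) noSkip row10Floor 160000 160000 15000000 (10 ^ 8) = true := by
  refine Fast.check_of ?_
  iterate 2 all_goals try apply Fast.splitM_ok
  all_goals decide +kernel

/-- The nodes of a crossing. -/
def row10Cross : List (ℕ × ℕ) :=
  [
  (173125, 2481), (212500, 4473), (278125, 5851), (370000, 6743),
  (488125, 7309), (632500, 7667), (803125, 7890), (1000000, 8025)]

theorem row10Cross_ok :
    excursionOK 160000 1000000 (max 15000000 1000000) (2 * (3043 * 14336 * 10 ^ 6) : ℕ) 7089816 68646843 row10Cross = true := by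
  decide +kernel

end Vale.Agent.P232.Scalar
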