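import Vale.Agent.P232.Scalar.Rows
import Vale.Agent.P232.Scalar.Fast

/-!
# P232: box certificates of the scalar inequality (found by the script in the notes)
-/

namespace Vale.Agent.P232.Scalar

-- evaluation is left to the kernel, one subtree at a time
attribute [local irreducible] Fast.check

/-- The bins, with their tangency parameters. -/
def row11Bins : List (Bin × ℕ) :=
  [(⟨34500000, 36500000, -950000000000000, 300000000⟩, 1)]

theorem row11Bins_covers : covers 34500000 36500000 (row11Bins.map Prod.fst) = true := by
  decide +kernel

/-- A certificate. -/
def row11MainN6 : Cert :=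
  .leaf 7089815 100000000 7089816 100000000
    [(275454, 6196), (10136558, 8932), (31830988, 7589), (33165494, 7373), (34500000, 7141)]

/-- A certificate. -/
def row11MainN7 : Cert :=
  .leaf 7089815 100000000 7089816 100000000
    [(275454, 6266), (1877883, 9208), (10136558, 9288), (23572313, 8883), (31830988, 8604),
     (34806615, 8347), (41352994, 7672), (47899373, 6812), (50875000, 6341)]

/-- A certificate. -/
def row11MainN5 : Cert :=
  .splitM 50875000 row11MainN6 row11MainN7

/-- A certificate. -/
def row11MainN9 : Cert :=
  .leaf 9302495 100000000 9302496 100000000
    [(390908, 5134), (10215933, 8779), (31830988, 7524), (33165494, 7308), (34500000, 7077)]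

/-- A certificate. -/
def row11MainN10 : Cert :=
  .leaf 9302495 100000000 9302496 100000000
    [(390908, 5210), (3884250, 9137), (19022067, 8936), (31830988, 8539), (36768324, 8094),
     (45937664, 7028), (50875000, 6279)]

/-- A certificate. -/
def row11MainN8 : Cert :=
  .splitM 50875000 row11MainN9 row11MainN10

/-- A certificate. -/
def row11MainN4 : Cert :=
  .splitC 275454 row11MainN5 row11MainN8

/-- A certificate. -/
def row11MainN15 : Cert :=
  .leaf 7089815 87843821 7089816 87843822
    [(217727, 5022), (10096871, 9490), (31830988, 9117), (49540494, 7995), (67250000, 6123)]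

/-- A certificate. -/
def row11MainN16 : Cert :=
  .leaf 7089815 71724179 7089816 71724180
    [(217727, 5058), (10096871, 9649), (31830988, 9487), (50000000, 8895), (68169012, 8018),
     (71803256, 7470), (75437500, 6678)]

/-- A certificate. -/
def row11MainN14 : Cert :=
  .splitM 75437500 row11MainN15 row11MainN16

/-- A certificate. -/
def row11MainN18 : Cert :=
  .leaf 7089815 50716653 7089816 50716654
    [(217727, 5093), (10096871, 9777), (31830988, 9751), (50000000, 9513), (68169012, 9188),
     (75897006, 8684), (83625000, 7575)]

/-- A certificate. -/
def row11MainN20 : Cert :=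
  .leaf 7089815 35862089 7089816 35862090
    [(217727, 5114), (10096871, 9838), (31830988, 9861), (50000000, 9753), (68169012, 9613),
     (79990756, 9199), (91812500, 7305)]

/-- A certificate. -/
def row11MainN22 : Cert :=
  .leaf 7089815 25358326 7089816 25358327
    [(217727, 5127), (10096871, 9873), (31830988, 9915), (50000000, 9864), (68169012, 9802),
     (82037631, 9545), (95906250, 7176)]

/-- A certificate. -/
def row11MainN23 : Cert :=
  .leaf 7089815 0 7089816 0
    [(217727, 5157), (3730312, 9798), (18951511, 9972), (31830988, 9988), (41251957, 9991),
     (58748043, 9995), (68169012, 9997), (75890819, 9998), (90231318, 9999),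
     (97953125, 9999)]

/-- A certificate. -/
def row11MainN21 : Cert :=
  .splitM 97953125 row11MainN22 row11MainN23

/-- A certificate. -/
def row11MainN19 : Cert :=
  .splitM 95906250 row11MainN20 row11MainN21

/-- A certificate. -/
def row11MainN17 : Cert :=
  .splitM 91812500 row11MainN18 row11MainN19

/-- A certificate. -/
def row11MainN13 : Cert :=
  .splitM 83625000 row11MainN14 row11MainN17

/-- A certificate. -/
def row11MainN26 : Cert :=
  .leaf 8270486 87843821 8270487 87843822
    [(275454, 4448), (10136558, 9431), (31830988, 9088), (49540494, 7966), (67250000, 6107)]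

/-- A certificate. -/
def row11MainN27 : Cert :=
  .leaf 8270486 71724179 8270487 71724180
    [(275454, 4485), (10136558, 9599), (31830988, 9463), (50000000, 8871), (68169012, 8002),
     (71803256, 7454), (75437500, 6664)]

/-- A certificate. -/
def row11MainN25 : Cert :=
  .splitM 75437500 row11MainN26 row11MainN27

/-- A certificate. -/
def row11MainN29 : Cert :=
  .leaf 8270486 50716653 8270487 50716654
    [(275454, 4521), (10136558, 9736), (31830988, 9733), (50000000, 9496), (68169012, 9175),
     (75897006, 8671), (83625000, 7563)]

/-- A certificate. -/
def row11MainN31 : Cert :=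
  .leaf 8270486 35862089 8270487 35862090
    [(275454, 4542), (10136558, 9803), (31830988, 9847), (50000000, 9740), (68169012, 9603),
     (79990756, 9189), (91812500, 7296)]

/-- A certificate. -/
def row11MainN32 : Cert :=
  .leaf 8270486 0 8270487 0
    [(275454, 4587), (1877883, 9422), (10136558, 9912), (23572313, 9972), (31830988, 9984),
     (37508804, 9986), (50000000, 9991), (62491196, 9995), (68169012, 9996),
     (72502955, 9996), (82037631, 9998), (91572307, 9999), (95906250, 9999)]

/-- A certificate. -/
def row11MainN30 : Cert :=
  .splitM 95906250 row11MainN31 row11MainN32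

/-- A certificate. -/
def row11MainN28 : Cert :=
  .splitM 91812500 row11MainN29 row11MainN30

/-- A certificate. -/
def row11MainN24 : Cert :=
  .splitM 83625000 row11MainN25 row11MainN28

/-- A certificate. -/
def row11MainN12 : Cert :=
  .splitC 217727 row11MainN13 row11MainN24

/-- A certificate. -/
def row11MainN36 : Cert :=
  .leaf 9302495 87843821 9302496 87843822
    [(333181, 4031), (10176246, 9376), (31830988, 9062), (49540494, 7940), (67250000, 6093)]

/-- A certificate. -/
def row11MainN37 : Cert :=
  .leaf 9302495 71724179 9302496 71724180
    [(333181, 4068), (10176246, 9552), (31830988, 9442), (50000000, 8850), (68169012, 7988),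
     (71803256, 7441), (75437500, 6651)]

/-- A certificate. -/
def row11MainN35 : Cert :=
  .splitM 75437500 row11MainN36 row11MainN37

/-- A certificate. -/
def row11MainN39 : Cert :=
  .leaf 10230928 87843821 10230929 87843822
    [(390908, 3710), (10215933, 9326), (31830988, 9038), (49540494, 7917), (67250000, 6081)]

/-- A certificate. -/
def row11MainN40 : Cert :=
  .leaf 10230928 71724179 10230929 71724180
    [(390908, 3749), (10215933, 9509), (31830988, 9422), (50000000, 8832), (68169012, 7976),
     (71803256, 7429), (75437500, 6640)]

/-- A certificate. -/
def row11MainN38 : Cert :=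
  .splitM 75437500 row11MainN39 row11MainN40

/-- A certificate. -/
def row11MainN34 : Cert :=
  .splitC 333181 row11MainN35 row11MainN38

/-- A certificate. -/
def row11MainN43 : Cert :=
  .leaf 9302495 50716653 9302496 50716654
    [(333181, 4106), (10176246, 9698), (31830988, 9718), (50000000, 9480), (68169012, 9164),
     (75897006, 8659), (83625000, 7552)]

/-- A certificate. -/
def row11MainN45 : Cert :=
  .leaf 9302495 35862089 9302496 35862090
    [(333181, 4128), (10176246, 9770), (31830988, 9835), (50000000, 9729), (68169012, 9595),
     (79990756, 9180), (91812500, 7288)]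

/-- A certificate. -/
def row11MainN46 : Cert :=
  .leaf 9302495 0 9302496 0
    [(333181, 4173), (3832937, 9660), (18998548, 9952), (31830988, 9979), (41251957, 9984),
     (58748043, 9992), (68169012, 9995), (75360148, 9996), (88715114, 9998),
     (95906250, 9999)]

/-- A certificate. -/
def row11MainN44 : Cert :=
  .splitM 95906250 row11MainN45 row11MainN46

/-- A certificate. -/
def row11MainN42 : Cert :=
  .splitM 91812500 row11MainN43 row11MainN44

/-- A certificate. -/
def row11MainN48 : Cert :=
  .leaf 10230928 50716653 10230929 50716654
    [(390908, 3786), (10215933, 9661), (31830988, 9703), (50000000, 9466), (68169012, 9154),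
     (75897006, 8649), (83625000, 7542)]

/-- A certificate. -/
def row11MainN50 : Cert :=
  .leaf 10230928 35862089 10230929 35862090
    [(390908, 3809), (10215933, 9738), (31830988, 9824), (50000000, 9718), (68169012, 9587),
     (79990756, 9171), (91812500, 7281)]

/-- A certificate. -/
def row11MainN51 : Cert :=
  .leaf 10230928 0 10230929 0
    [(390908, 3855), (3884250, 9592), (19022067, 9942), (31830988, 9975), (41251957, 9981),
     (58748043, 9991), (68169012, 9994), (75360148, 9995), (88715114, 9998),
     (95906250, 9999)]

/-- A certificate. -/
def row11MainN49 : Cert :=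
  .splitM 95906250 row11MainN50 row11MainN51

/-- A certificate. -/
def row11MainN47 : Cert :=
  .splitM 91812500 row11MainN48 row11MainN49

/-- A certificate. -/
def row11MainN41 : Cert :=
  .splitC 333181 row11MainN42 row11MainN47

/-- A certificate. -/
def row11MainN33 : Cert :=
  .splitM 83625000 row11MainN34 row11MainN41

/-- A certificate. -/
def row11MainN11 : Cert :=
  .splitC 275454 row11MainN12 row11MainN33

/-- A certificate. -/
def row11MainN3 : Cert :=
  .splitM 67250000 row11MainN4 row11MainN11

/-- A certificate. -/
def row11MainN54 : Cert :=
  .leaf 11081848 100000000 11081849 100000000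
    [(621817, 5695), (10374683, 8647), (31830988, 7472), (33165494, 7256), (34500000, 7025)]

/-- A certificate. -/
def row11MainN55 : Cert :=
  .leaf 11081848 100000000 11081849 100000000
    [(621817, 5796), (4089503, 8948), (19116141, 8856), (31830988, 8486), (36768324, 8040),
     (45937664, 6975), (50875000, 6229)]

/-- A certificate. -/
def row11MainN53 : Cert :=
  .splitM 50875000 row11MainN54 row11MainN55

/-- A certificate. -/
def row11MainN60 : Cert :=
  .leaf 11081848 87843821 11081849 87843822
    [(448635, 3454), (10255620, 9278), (31830988, 9016), (49540494, 7896), (67250000, 6070)]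

/-- A certificate. -/
def row11MainN61 : Cert :=
  .leaf 11081848 71724179 11081849 71724180
    [(448635, 3493), (10255620, 9467), (31830988, 9404), (50000000, 8814), (68169012, 7965),
     (71803256, 7418), (75437500, 6630)]

/-- A certificate. -/
def row11MainN59 : Cert :=
  .splitM 75437500 row11MainN60 row11MainN61

/-- A certificate. -/
def row11MainN63 : Cert :=
  .leaf 11871935 87843821 11871936 87843822
    [(506362, 3244), (10295308, 9232), (31830988, 8996), (49540494, 7876), (67250000, 6059)]

/-- A certificate. -/
def row11MainN64 : Cert :=
  .leaf 11871935 71724179 11871936 71724180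
    [(506362, 3283), (10295308, 9428), (31830988, 9387), (50000000, 8798), (68169012, 7954),
     (71803256, 7408), (75437500, 6620)]

/-- A certificate. -/
def row11MainN62 : Cert :=
  .splitM 75437500 row11MainN63 row11MainN64

/-- A certificate. -/
def row11MainN58 : Cert :=
  .splitC 448635 row11MainN59 row11MainN62

/-- A certificate. -/
def row11MainN67 : Cert :=
  .leaf 11081848 50716653 11081849 50716654
    [(448635, 3531), (10255620, 9626), (31830988, 9689), (50000000, 9454), (68169012, 9144),
     (75897006, 8639), (83625000, 7533)]

/-- A certificate. -/
def row11MainN69 : Cert :=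
  .leaf 11081848 35862089 11081849 35862090
    [(448635, 3554), (10255620, 9706), (31830988, 9813), (50000000, 9708), (68169012, 9580),
     (79990756, 9164), (91812500, 7274)]

/-- A certificate. -/
def row11MainN70 : Cert :=
  .leaf 11081848 0 11081849 0
    [(448635, 3601), (3935563, 9526), (19045585, 9931), (31830988, 9971), (41251957, 9978),
     (58748043, 9989), (68169012, 9993), (75360148, 9995), (88715114, 9997),
     (95906250, 9999)]

/-- A certificate. -/
def row11MainN68 : Cert :=
  .splitM 95906250 row11MainN69 row11MainN70

/-- A certificate. -/
def row11MainN66 : Cert :=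
  .splitM 91812500 row11MainN67 row11MainN68

/-- A certificate. -/
def row11MainN72 : Cert :=
  .leaf 11871935 50716653 11871936 50716654
    [(506362, 3321), (10295308, 9593), (31830988, 9676), (50000000, 9441), (68169012, 9135),
     (75897006, 8630), (83625000, 7525)]

/-- A certificate. -/
def row11MainN74 : Cert :=
  .leaf 11871935 35862089 11871936 35862090
    [(506362, 3344), (10295308, 9676), (31830988, 9802), (50000000, 9699), (68169012, 9573),
     (79990756, 9156), (91812500, 7268)]

/-- A certificate. -/
def row11MainN75 : Cert :=
  .leaf 11871935 0 11871936 0
    [(506362, 3391), (3986876, 9462), (19069103, 9921), (31830988, 9966), (41251957, 9975),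
     (58748043, 9987), (68169012, 9992), (75360148, 9994), (88715114, 9997),
     (95906250, 9999)]

/-- A certificate. -/
def row11MainN73 : Cert :=
  .splitM 95906250 row11MainN74 row11MainN75

/-- A certificate. -/
def row11MainN71 : Cert :=
  .splitM 91812500 row11MainN72 row11MainN73

/-- A certificate. -/
def row11MainN65 : Cert :=
  .splitC 448635 row11MainN66 row11MainN71

/-- A certificate. -/
def row11MainN57 : Cert :=
  .splitM 83625000 row11MainN58 row11MainN65

/-- A certificate. -/
def row11MainN78 : Cert :=
  .leaf 12612625 87843821 12612626 87843822
    [(621817, 4130), (10374683, 9189), (31830988, 8976), (49540494, 7858), (67250000, 6049)]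

/-- A certificate. -/
def row11MainN79 : Cert :=
  .leaf 12612625 71724179 12612626 71724180
    [(621817, 4183), (10374683, 9390), (31830988, 9371), (50000000, 8782), (68169012, 7944),
     (71803256, 7398), (75437500, 6611)]

/-- A certificate. -/
def row11MainN77 : Cert :=
  .splitM 75437500 row11MainN78 row11MainN79

/-- A certificate. -/
def row11MainN82 : Cert :=
  .leaf 12612625 50716653 12612626 50716654
    [(564089, 3144), (10334995, 9560), (31830988, 9664), (50000000, 9430), (68169012, 9127),
     (75897006, 8622), (83625000, 7517)]

/-- A certificate. -/
def row11MainN84 : Cert :=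
  .leaf 12612625 35862089 12612626 35862090
    [(564089, 3167), (10334995, 9646), (31830988, 9792), (50000000, 9690), (68169012, 9567),
     (79990756, 9150), (91812500, 7262)]

/-- A certificate. -/
def row11MainN85 : Cert :=
  .leaf 12612625 0 12612626 0
    [(564089, 3215), (4038189, 9398), (19092622, 9911), (31830988, 9962), (41251957, 9972),
     (58748043, 9986), (68169012, 9991), (75360148, 9993), (88715114, 9997),
     (95906250, 9998)]

/-- A certificate. -/
def row11MainN83 : Cert :=
  .splitM 95906250 row11MainN84 row11MainN85

/-- A certificate. -/
def row11MainN81 : Cert :=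
  .splitM 91812500 row11MainN82 row11MainN83

/-- A certificate. -/
def row11MainN87 : Cert :=
  .leaf 13312166 50716653 13312167 50716654
    [(621817, 2993), (10374683, 9527), (31830988, 9652), (50000000, 9419), (68169012, 9119),
     (75897006, 8614), (83625000, 7509)]

/-- A certificate. -/
def row11MainN89 : Cert :=
  .leaf 13312166 35862089 13312167 35862090
    [(621817, 3016), (10374683, 9617), (31830988, 9783), (50000000, 9682), (68169012, 9561),
     (79990756, 9143), (91812500, 7256)]

/-- A certificate. -/
def row11MainN90 : Cert :=
  .leaf 13312166 0 13312167 0
    [(621817, 3064), (4089503, 9336), (19116141, 9901), (31830988, 9958), (41251957, 9969),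
     (58748043, 9984), (68169012, 9990), (75360148, 9992), (88715114, 9996),
     (95906250, 9998)]

/-- A certificate. -/
def row11MainN88 : Cert :=
  .splitM 95906250 row11MainN89 row11MainN90

/-- A certificate. -/
def row11MainN86 : Cert :=
  .splitM 91812500 row11MainN87 row11MainN88

/-- A certificate. -/
def row11MainN80 : Cert :=
  .splitC 564089 row11MainN81 row11MainN86

/-- A certificate. -/
def row11MainN76 : Cert :=
  .splitM 83625000 row11MainN77 row11MainN80

/-- A certificate. -/
def row11MainN56 : Cert :=
  .splitC 506362 row11MainN57 row11MainN76

/-- A certificate. -/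
def row11MainN52 : Cert :=
  .splitM 67250000 row11MainN53 row11MainN56

/-- A certificate. -/
def row11MainN2 : Cert :=
  .splitC 390908 row11MainN3 row11MainN52

/-- A certificate. -/
def row11MainN95 : Cert :=
  .leaf 13976751 100000000 13976752 100000000
    [(1070515, 5945), (10683163, 8425), (31830988, 7387), (33165494, 7172),
     (34500000, 6942)]

/-- A certificate. -/
def row11MainN96 : Cert :=
  .leaf 13976751 100000000 13976752 100000000
    [(1070515, 6082), (4488345, 8630), (19298943, 8721), (31830988, 8399), (36768324, 7951),
     (45937664, 6889), (50875000, 6149)]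

/-- A certificate. -/
def row11MainN94 : Cert :=
  .splitM 50875000 row11MainN95 row11MainN96

/-- A certificate. -/
def row11MainN98 : Cert :=
  .leaf 18338816 100000000 18338817 100000000
    [(1519213, 4875), (10991643, 8082), (31830988, 7259), (33165494, 7045),
     (34500000, 6818)]

/-- A certificate. -/
def row11MainN99 : Cert :=
  .leaf 18338816 100000000 18338817 100000000
    [(1519213, 5021), (4887188, 8087), (19481746, 8512), (31830988, 8264), (36768324, 7815),
     (45937664, 6758), (50875000, 6027)]

/-- A certificate. -/
def row11MainN97 : Cert :=
  .splitM 50875000 row11MainN98 row11MainN99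

/-- A certificate. -/
def row11MainN93 : Cert :=
  .splitC 1070515 row11MainN94 row11MainN97

/-- A certificate. -/
def row11MainN105 : Cert :=
  .leaf 13976751 87843821 13976752 87843822
    [(733991, 3732), (10451803, 9106), (31830988, 8940), (49540494, 7824), (67250000, 6031)]

/-- A certificate. -/
def row11MainN106 : Cert :=
  .leaf 13976751 71724179 13976752 71724180
    [(733991, 3786), (10451803, 9316), (31830988, 9341), (50000000, 8754), (68169012, 7926),
     (71803256, 7381), (75437500, 6595)]

/-- A certificate. -/
def row11MainN104 : Cert :=
  .splitM 75437500 row11MainN105 row11MainN106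

/-- A certificate. -/
def row11MainN108 : Cert :=
  .leaf 15185192 87843821 15185193 87843822
    [(846166, 3464), (10528923, 9029), (31830988, 8908), (49540494, 7793), (67250000, 6015)]

/-- A certificate. -/
def row11MainN109 : Cert :=
  .leaf 15185192 71724179 15185193 71724180
    [(846166, 3518), (10528923, 9249), (31830988, 9314), (50000000, 8729), (68169012, 7909),
     (71803256, 7365), (75437500, 6581)]

/-- A certificate. -/
def row11MainN107 : Cert :=
  .splitM 75437500 row11MainN108 row11MainN109

/-- A certificate. -/
def row11MainN103 : Cert :=
  .splitC 733991 row11MainN104 row11MainN107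

/-- A certificate. -/
def row11MainN112 : Cert :=
  .leaf 13976751 50716653 13976752 50716654
    [(733991, 3838), (10451803, 9497), (31830988, 9641), (50000000, 9408), (68169012, 9112),
     (75897006, 8606), (83625000, 7502)]

/-- A certificate. -/
def row11MainN114 : Cert :=
  .leaf 13976751 35862089 13976752 35862090
    [(733991, 3869), (10451803, 9590), (31830988, 9773), (50000000, 9674), (68169012, 9555),
     (79990756, 9137), (91812500, 7251)]

/-- A certificate. -/
def row11MainN115 : Cert :=
  .leaf 13976751 0 13976752 0
    [(733991, 3933), (10451803, 9755), (31830988, 9953), (50000000, 9975), (68169012, 9989),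
     (82037631, 9994), (95906250, 9998)]

/-- A certificate. -/
def row11MainN113 : Cert :=
  .splitM 95906250 row11MainN114 row11MainN115

/-- A certificate. -/
def row11MainN111 : Cert :=
  .splitM 91812500 row11MainN112 row11MainN113

/-- A certificate. -/
def row11MainN117 : Cert :=
  .leaf 15185192 50716653 15185193 50716654
    [(846166, 3571), (10528923, 9438), (31830988, 9619), (50000000, 9389), (68169012, 9098),
     (75897006, 8592), (83625000, 7489)]

/-- A certificate. -/
def row11MainN119 : Cert :=
  .leaf 15185192 35862089 15185193 35862090
    [(846166, 3602), (10528923, 9536), (31830988, 9756), (50000000, 9659), (68169012, 9544),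
     (79990756, 9126), (91812500, 7242)]

/-- A certificate. -/
def row11MainN120 : Cert :=
  .leaf 15185192 0 15185193 0
    [(846166, 3667), (10528923, 9712), (31830988, 9945), (50000000, 9970), (68169012, 9988),
     (82037631, 9993), (95906250, 9998)]

/-- A certificate. -/
def row11MainN118 : Cert :=
  .splitM 95906250 row11MainN119 row11MainN120

/-- A certificate. -/
def row11MainN116 : Cert :=
  .splitM 91812500 row11MainN117 row11MainN118

/-- A certificate. -/
def row11MainN110 : Cert :=
  .splitC 733991 row11MainN111 row11MainN116

/-- A certificate. -/
def row11MainN102 : Cert :=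
  .splitM 83625000 row11MainN103 row11MainN110

/-- A certificate. -/
def row11MainN124 : Cert :=
  .leaf 16304321 87843821 16304322 87843822
    [(958340, 3245), (10606042, 8957), (31830988, 8878), (49540494, 7765), (67250000, 6001)]

/-- A certificate. -/
def row11MainN125 : Cert :=
  .leaf 16304321 71724179 16304322 71724180
    [(958340, 3299), (10606042, 9183), (31830988, 9288), (50000000, 8705), (68169012, 7894),
     (71803256, 7350), (75437500, 6567)]

/-- A certificate. -/
def row11MainN123 : Cert :=
  .splitM 75437500 row11MainN124 row11MainN125

/-- A certificate. -/
def row11MainN127 : Cert :=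
  .leaf 17351408 87843821 17351409 87843822
    [(1070515, 3062), (10683163, 8887), (31830988, 8849), (49540494, 7738),
     (67250000, 5987)]

/-- A certificate. -/
def row11MainN128 : Cert :=
  .leaf 17351408 71724179 17351409 71724180
    [(1070515, 3116), (10683163, 9121), (31830988, 9263), (50000000, 8682),
     (68169012, 7880), (71803256, 7337), (75437500, 6555)]

/-- A certificate. -/
def row11MainN126 : Cert :=
  .splitM 75437500 row11MainN127 row11MainN128

/-- A certificate. -/
def row11MainN122 : Cert :=
  .splitC 958340 row11MainN123 row11MainN126

/-- A certificate. -/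
def row11MainN131 : Cert :=
  .leaf 16304321 50716653 16304322 50716654
    [(958340, 3353), (10606042, 9380), (31830988, 9599), (50000000, 9371), (68169012, 9085),
     (75897006, 8580), (83625000, 7478)]

/-- A certificate. -/
def row11MainN133 : Cert :=
  .leaf 16304321 35862089 16304322 35862090
    [(958340, 3384), (10606042, 9483), (31830988, 9739), (50000000, 9644), (68169012, 9534),
     (79990756, 9116), (91812500, 7233)]

/-- A certificate. -/
def row11MainN134 : Cert :=
  .leaf 16304321 0 16304322 0
    [(958340, 3450), (10606042, 9670), (31830988, 9936), (50000000, 9966), (68169012, 9986),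
     (82037631, 9992), (95906250, 9998)]

/-- A certificate. -/
def row11MainN132 : Cert :=
  .splitM 95906250 row11MainN133 row11MainN134

/-- A certificate. -/
def row11MainN130 : Cert :=
  .splitM 91812500 row11MainN131 row11MainN132

/-- A certificate. -/
def row11MainN136 : Cert :=
  .leaf 17351408 50716653 17351409 50716654
    [(1070515, 3170), (10683163, 9325), (31830988, 9579), (50000000, 9353),
     (68169012, 9073), (75897006, 8567), (83625000, 7466)]

/-- A certificate. -/
def row11MainN137 : Cert :=
  .leaf 17351408 0 17351409 0
    [(1070515, 3268), (1288302, 5109), (2632570, 8050), (5734151, 9211), (10683163, 9628),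
     (17029012, 9800), (23780395, 9879), (29405296, 9916), (31830988, 9928),
     (33392387, 9931), (37508804, 9939), (43328566, 9950), (50000000, 9961),
     (56671434, 9971), (62491196, 9978), (66607613, 9982), (68169012, 9984),
     (69184943, 9984), (71863307, 9986), (75649959, 9988), (79990756, 9990),
     (84331553, 9992), (88118205, 9994), (90796569, 9995), (91812500, 9995)]

/-- A certificate. -/
def row11MainN135 : Cert :=
  .splitM 91812500 row11MainN136 row11MainN137

/-- A certificate. -/
def row11MainN129 : Cert :=
  .splitC 958340 row11MainN130 row11MainN135

/-- A certificate. -/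
def row11MainN121 : Cert :=
  .splitM 83625000 row11MainN122 row11MainN129

/-- A certificate. -/
def row11MainN101 : Cert :=
  .splitC 846166 row11MainN102 row11MainN121

/-- A certificate. -/
def row11MainN141 : Cert :=
  .leaf 18338816 87843821 18338817 87843822
    [(1294864, 3927), (10837403, 8822), (31830988, 8821), (49540494, 7713),
     (67250000, 5974)]

/-- A certificate. -/
def row11MainN142 : Cert :=
  .leaf 18338816 71724179 18338817 71724180
    [(1294864, 4001), (10837403, 9063), (31830988, 9240), (50000000, 8661),
     (68169012, 7867), (71803256, 7324), (75437500, 6543)]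

/-- A certificate. -/
def row11MainN140 : Cert :=
  .splitM 75437500 row11MainN141 row11MainN142

/-- A certificate. -/
def row11MainN144 : Cert :=
  .leaf 20169123 87843821 20169124 87843822
    [(1519213, 3609), (10991643, 8695), (31830988, 8770), (49540494, 7666),
     (67250000, 5950)]

/-- A certificate. -/
def row11MainN145 : Cert :=
  .leaf 20169123 71724179 20169124 71724180
    [(1519213, 3684), (10991643, 8947), (31830988, 9195), (50000000, 8621),
     (68169012, 7842), (71803256, 7300), (75437500, 6521)]

/-- A certificate. -/
def row11MainN143 : Cert :=
  .splitM 75437500 row11MainN144 row11MainN145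

/-- A certificate. -/
def row11MainN139 : Cert :=
  .splitC 1294864 row11MainN140 row11MainN143

/-- A certificate. -/
def row11MainN149 : Cert :=
  .leaf 18338816 50716653 18338817 50716654
    [(1182689, 3014), (10760282, 9270), (31830988, 9560), (50000000, 9337),
     (68169012, 9062), (75897006, 8556), (83625000, 7456)]

/-- A certificate. -/
def row11MainN150 : Cert :=
  .leaf 18338816 0 18338817 0
    [(1182689, 3112), (2739048, 7888), (10760282, 9586), (23809753, 9865), (31830988, 9919),
     (37508804, 9932), (50000000, 9956), (62491196, 9975), (68169012, 9982),
     (71863307, 9984), (79990756, 9989), (88118205, 9993), (91812500, 9995)]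

/-- A certificate. -/
def row11MainN148 : Cert :=
  .splitM 91812500 row11MainN149 row11MainN150

/-- A certificate. -/
def row11MainN152 : Cert :=
  .leaf 19275702 50716653 19275703 50716654
    [(1294864, 2879), (10837403, 9217), (31830988, 9542), (50000000, 9321),
     (68169012, 9051), (75897006, 8545), (83625000, 7446)]

/-- A certificate. -/
def row11MainN153 : Cert :=
  .leaf 19275702 0 19275703 0
    [(1294864, 2978), (4687767, 8748), (19390345, 9794), (31830988, 9911), (41251957, 9934),
     (58748043, 9967), (68169012, 9980), (74298805, 9984), (85682707, 9991),
     (91812500, 9995)]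

/-- A certificate. -/
def row11MainN151 : Cert :=
  .splitM 91812500 row11MainN152 row11MainN153

/-- A certificate. -/
def row11MainN147 : Cert :=
  .splitC 1182689 row11MainN148 row11MainN151

/-- A certificate. -/
def row11MainN155 : Cert :=
  .leaf 20169123 50716653 20169124 50716654
    [(1519213, 3758), (10991643, 9169), (31830988, 9524), (50000000, 9305),
     (68169012, 9040), (75897006, 8534), (83625000, 7436)]

/-- A certificate. -/
def row11MainN156 : Cert :=
  .leaf 20169123 0 20169124 0
    [(1519213, 3892), (4887188, 8683), (19481746, 9776), (31830988, 9902), (41251957, 9927),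
     (58748043, 9964), (68169012, 9978), (74298805, 9982), (85682707, 9990),
     (91812500, 9994)]

/-- A certificate. -/
def row11MainN154 : Cert :=
  .splitM 91812500 row11MainN155 row11MainN156

/-- A certificate. -/
def row11MainN146 : Cert :=
  .splitC 1294864 row11MainN147 row11MainN154

/-- A certificate. -/
def row11MainN138 : Cert :=
  .splitM 83625000 row11MainN139 row11MainN146

/-- A certificate. -/
def row11MainN100 : Cert :=
  .splitC 1070515 row11MainN101 row11MainN138

/-- A certificate. -/
def row11MainN92 : Cert :=
  .splitM 67250000 row11MainN93 row11MainN100

/-- A certificate. -/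
def row11MainN159 : Cert :=
  .leaf 21846620 100000000 21846621 100000000
    [(2416609, 5356), (10042559, 7772), (24205038, 7490), (31830988, 7156),
     (32522954, 7048), (33808034, 6837), (34500000, 6718)]

/-- A certificate. -/
def row11MainN160 : Cert :=
  .leaf 21846620 100000000 21846621 100000000
    [(2416609, 5553), (10042559, 8220), (24205038, 8285), (31830988, 8154),
     (36768324, 7703), (45937664, 6652), (50875000, 5928)]

/-- A certificate. -/
def row11MainN158 : Cert :=
  .splitM 50875000 row11MainN159 row11MainN160

/-- A certificate. -/
def row11MainN165 : Cert :=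
  .leaf 21846620 87843821 21846621 87843822
    [(1743562, 3355), (16787275, 8725), (31830988, 8722), (49540494, 7623),
     (67250000, 5928)]

/-- A certificate. -/
def row11MainN166 : Cert :=
  .leaf 21846620 71724179 21846621 71724180
    [(1743562, 3431), (16787275, 9035), (31830988, 9153), (50000000, 8584),
     (68169012, 7819), (71803256, 7278), (75437500, 6500)]

/-- A certificate. -/
def row11MainN164 : Cert :=
  .splitM 75437500 row11MainN165 row11MainN166

/-- A certificate. -/
def row11MainN168 : Cert :=
  .leaf 23404191 87843821 23404192 87843822
    [(1967911, 3147), (16899449, 8642), (31830988, 8676), (49540494, 7582),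
     (67250000, 5907)]

/-- A certificate. -/
def row11MainN169 : Cert :=
  .leaf 23404191 71724179 23404192 71724180
    [(1967911, 3224), (16899449, 8960), (31830988, 9113), (50000000, 8548),
     (68169012, 7797), (71803256, 7257), (75437500, 6481)]

/-- A certificate. -/
def row11MainN167 : Cert :=
  .splitM 75437500 row11MainN168 row11MainN169

/-- A certificate. -/
def row11MainN163 : Cert :=
  .splitC 1743562 row11MainN164 row11MainN167

/-- A certificate. -/
def row11MainN172 : Cert :=
  .leaf 21846620 50716653 21846621 50716654
    [(1743562, 3506), (16787275, 9298), (31830988, 9489), (50000000, 9276),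
     (68169012, 9020), (75897006, 8515), (83625000, 7418)]

/-- A certificate. -/
def row11MainN173 : Cert :=
  .leaf 21846620 0 21846621 0
    [(1743562, 3641), (9544006, 9304), (24030544, 9810), (31830988, 9884), (41251957, 9914),
     (58748043, 9958), (68169012, 9975), (74298805, 9979), (85682707, 9988),
     (91812500, 9993)]

/-- A certificate. -/
def row11MainN171 : Cert :=
  .splitM 91812500 row11MainN172 row11MainN173

/-- A certificate. -/
def row11MainN175 : Cert :=
  .leaf 23404191 50716653 23404192 50716654
    [(1967911, 3299), (16899449, 9232), (31830988, 9456), (50000000, 9248),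
     (68169012, 9002), (75897006, 8496), (83625000, 7401)]

/-- A certificate. -/
def row11MainN176 : Cert :=
  .leaf 23404191 0 23404192 0
    [(1967911, 3435), (9710190, 9210), (24088709, 9781), (31830988, 9867), (41251957, 9901),
     (58748043, 9951), (68169012, 9971), (74298805, 9976), (85682707, 9987),
     (91812500, 9992)]

/-- A certificate. -/
def row11MainN174 : Cert :=
  .splitM 91812500 row11MainN175 row11MainN176

/-- A certificate. -/
def row11MainN170 : Cert :=
  .splitC 1743562 row11MainN171 row11MainN174

/-- A certificate. -/
def row11MainN162 : Cert :=
  .splitM 83625000 row11MainN163 row11MainN170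

/-- A certificate. -/
def row11MainN179 : Cert :=
  .leaf 24864381 87843821 24864382 87843822
    [(2416609, 4003), (17123799, 8565), (31830988, 8633), (49540494, 7543),
     (67250000, 5888)]

/-- A certificate. -/
def row11MainN180 : Cert :=
  .leaf 24864381 71724179 24864382 71724180
    [(2416609, 4107), (17123799, 8891), (31830988, 9075), (50000000, 8515),
     (68169012, 7777), (71803256, 7238), (75437500, 6463)]

/-- A certificate. -/
def row11MainN178 : Cert :=
  .splitM 75437500 row11MainN179 row11MainN180

/-- A certificate. -/
def row11MainN183 : Cert :=
  .leaf 24864381 50716653 24864382 50716654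
    [(2192260, 3125), (17011624, 9168), (31830988, 9423), (50000000, 9221),
     (68169012, 8984), (75897006, 8478), (83625000, 7384)]

/-- A certificate. -/
def row11MainN184 : Cert :=
  .leaf 24864381 0 24864382 0
    [(2192260, 3262), (9876375, 9119), (24146873, 9752), (31830988, 9849), (41251957, 9888),
     (58748043, 9945), (68169012, 9967), (74298805, 9973), (85682707, 9985),
     (91812500, 9991)]

/-- A certificate. -/
def row11MainN182 : Cert :=
  .splitM 91812500 row11MainN183 row11MainN184

/-- A certificate. -/
def row11MainN186 : Cert :=
  .leaf 26243452 50716653 26243453 50716654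
    [(2416609, 2976), (17123799, 9105), (31830988, 9391), (50000000, 9195),
     (68169012, 8967), (75897006, 8461), (83625000, 7369)]

/-- A certificate. -/
def row11MainN187 : Cert :=
  .leaf 26243452 0 26243453 0
    [(2416609, 3114), (17123799, 9529), (31830988, 9831), (50000000, 9909),
     (68169012, 9963), (79990756, 9977), (91812500, 9990)]

/-- A certificate. -/
def row11MainN185 : Cert :=
  .splitM 91812500 row11MainN186 row11MainN187

/-- A certificate. -/
def row11MainN181 : Cert :=
  .splitC 2192260 row11MainN182 row11MainN185

/-- A certificate. -/
def row11MainN177 : Cert :=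
  .splitM 83625000 row11MainN178 row11MainN181

/-- A certificate. -/
def row11MainN161 : Cert :=
  .splitC 1967911 row11MainN162 row11MainN177

/-- A certificate. -/
def row11MainN157 : Cert :=
  .splitM 67250000 row11MainN158 row11MainN161

/-- A certificate. -/
def row11MainN91 : Cert :=
  .splitC 1519213 row11MainN92 row11MainN157

/-- A certificate. -/
def row11MainN1 : Cert :=
  .splitC 621817 row11MainN2 row11MainN91

/-- A certificate. -/
def row11MainN193 : Cert :=
  .leaf 27553586 100000000 27553587 100000000
    [(4160411, 5513), (4704855, 5923), (6210083, 6589), (8483939, 7047), (11334264, 7283),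
     (14568904, 7370), (17995699, 7367), (21422495, 7311), (24657135, 7229),
     (27507460, 7142), (29781316, 7064), (31286544, 7008), (31830988, 6988),
     (31893151, 6978), (32063599, 6952), (32318268, 6912), (32633095, 6863),
     (32984017, 6807), (33346971, 6748), (33697893, 6690), (34012720, 6638),
     (34267389, 6594), (34437837, 6565), (34500000, 6555)]

/-- A certificate. -/
def row11MainN194 : Cert :=
  .leaf 27553586 100000000 27553587 100000000
    [(4160411, 5779), (11334264, 7776), (24657135, 8034), (31830988, 7968),
     (36768324, 7518), (45937664, 6477), (50875000, 5766)]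

/-- A certificate. -/
def row11MainN192 : Cert :=
  .splitM 50875000 row11MainN193 row11MainN194

/-- A certificate. -/
def row11MainN197 : Cert :=
  .leaf 36152892 100000000 36152893 100000000
    [(5904213, 4221), (18867601, 6180), (31830988, 5722), (33165494, 5391),
     (34500000, 5029)]

/-- A certificate. -/
def row11MainN198 : Cert :=
  .leaf 36152892 100000000 36152893 100000000
    [(5904213, 4465), (18867601, 6827), (31830988, 6729), (37259244, 5809),
     (42687500, 4596)]

/-- A certificate. -/
def row11MainN196 : Cert :=
  .splitM 42687500 row11MainN197 row11MainN198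

/-- A certificate. -/
def row11MainN199 : Cert :=
  .leaf 36152892 100000000 36152893 100000000
    [(5904213, 4742), (9955272, 6599), (18867601, 7487), (27779929, 7659), (31830988, 7670),
     (34806615, 7408), (41352994, 6748), (47899373, 5943), (50875000, 5513)]

/-- A certificate. -/
def row11MainN195 : Cert :=
  .splitM 50875000 row11MainN196 row11MainN199

/-- A certificate. -/
def row11MainN191 : Cert :=
  .splitC 4160411 row11MainN192 row11MainN195

/-- A certificate. -/
def row11MainN203 : Cert :=
  .leaf 27553586 71724179 27553587 71724180
    [(3288510, 4895), (3850110, 5799), (5402768, 7059), (7748272, 7867), (10688412, 8330),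
     (14024975, 8600), (17559749, 8762), (21094523, 8862), (24431086, 8924),
     (27371226, 8962), (29716730, 8985), (31269388, 8997), (31830988, 9001),
     (32527890, 8983), (34454619, 8931), (37365209, 8849), (41013695, 8742),
     (45154112, 8613), (49540494, 8468), (53926876, 8313), (58067293, 8158),
     (61715779, 8014), (64626369, 7893), (66553098, 7811), (67250000, 7780)]

/-- A certificate. -/
def row11MainN206 : Cert :=
  .leaf 27553586 50716653 27553587 50716654
    [(2852559, 3819), (17341773, 9048), (31830988, 9360), (50000000, 9170),
     (68169012, 8950), (75897006, 8445), (83625000, 7354)]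

/-- A certificate. -/
def row11MainN207 : Cert :=
  .leaf 27553586 0 27553587 0
    [(2852559, 4004), (17341773, 9486), (31830988, 9813), (50000000, 9899),
     (68169012, 9959), (79990756, 9974), (91812500, 9989)]

/-- A certificate. -/
def row11MainN205 : Cert :=
  .splitM 91812500 row11MainN206 row11MainN207

/-- A certificate. -/
def row11MainN209 : Cert :=
  .leaf 29935895 50716653 29935896 50716654
    [(3288510, 3558), (17559749, 8933), (31830988, 9302), (50000000, 9123),
     (68169012, 8920), (75897006, 8415), (83625000, 7328)]

/-- A certificate. -/
def row11MainN210 : Cert :=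
  .leaf 29935895 0 29935896 0
    [(3288510, 3746), (17559749, 9396), (31830988, 9776), (50000000, 9880),
     (68169012, 9951), (79990756, 9969), (91812500, 9987)]

/-- A certificate. -/
def row11MainN208 : Cert :=
  .splitM 91812500 row11MainN209 row11MainN210

/-- A certificate. -/
def row11MainN204 : Cert :=
  .splitC 2852559 row11MainN205 row11MainN208

/-- A certificate. -/
def row11MainN202 : Cert :=
  .splitM 83625000 row11MainN203 row11MainN204

/-- A certificate. -/
def row11MainN212 : Cert :=
  .leaf 32142120 71724179 32142121 71724180
    [(4160411, 4339), (8483939, 7403), (17995699, 8518), (27507460, 8804), (31830988, 8868),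
     (37365209, 8721), (49540494, 8356), (61715779, 7929), (67250000, 7712)]

/-- A certificate. -/
def row11MainN215 : Cert :=
  .leaf 32142120 50716653 32142121 50716654
    [(3724460, 3346), (17777724, 8822), (31830988, 9244), (50000000, 9077),
     (68169012, 8891), (75897006, 8387), (83625000, 7302)]

/-- A certificate. -/
def row11MainN216 : Cert :=
  .leaf 32142120 0 32142121 0
    [(3724460, 3535), (17777724, 9307), (31830988, 9739), (50000000, 9860),
     (68169012, 9943), (79990756, 9964), (91812500, 9985)]

/-- A certificate. -/
def row11MainN214 : Cert :=
  .splitM 91812500 row11MainN215 row11MainN216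

/-- A certificate. -/
def row11MainN218 : Cert :=
  .leaf 34206338 50716653 34206339 50716654
    [(4160411, 3170), (17995699, 8714), (31830988, 9187), (50000000, 9034),
     (68169012, 8864), (75897006, 8361), (83625000, 7278)]

/-- A certificate. -/
def row11MainN219 : Cert :=
  .leaf 34206338 0 34206339 0
    [(4160411, 3359), (17995699, 9218), (31830988, 9702), (50000000, 9840),
     (68169012, 9935), (79990756, 9959), (91812500, 9983)]

/-- A certificate. -/
def row11MainN217 : Cert :=
  .splitM 91812500 row11MainN218 row11MainN219

/-- A certificate. -/
def row11MainN213 : Cert :=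
  .splitC 3724460 row11MainN214 row11MainN217

/-- A certificate. -/
def row11MainN211 : Cert :=
  .splitM 83625000 row11MainN212 row11MainN213

/-- A certificate. -/
def row11MainN201 : Cert :=
  .splitC 3288510 row11MainN202 row11MainN211

/-- A certificate. -/
def row11MainN221 : Cert :=
  .leaf 36152892 71724179 36152893 71724180
    [(5904213, 5143), (12625969, 7731), (25109232, 8586), (31830988, 8742),
     (41013695, 8501), (58067293, 7978), (67250000, 7650)]

/-- A certificate. -/
def row11MainN225 : Cert :=
  .leaf 36152892 50716653 36152893 50716654
    [(4596361, 3020), (18213675, 8608), (31830988, 9132), (50000000, 8991),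
     (68169012, 8837), (75897006, 8335), (83625000, 7255)]

/-- A certificate. -/
def row11MainN226 : Cert :=
  .leaf 36152892 0 36152893 0
    [(4596361, 3210), (18213675, 9130), (31830988, 9663), (50000000, 9820),
     (68169012, 9927), (79990756, 9954), (91812500, 9981)]

/-- A certificate. -/
def row11MainN224 : Cert :=
  .splitM 91812500 row11MainN225 row11MainN226

/-- A certificate. -/
def row11MainN228 : Cert :=
  .leaf 37999860 50716653 37999861 50716654
    [(5032312, 2890), (18431650, 8505), (31830988, 9076), (50000000, 8949),
     (68169012, 8812), (75897006, 8310), (83625000, 7233)]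

/-- A certificate. -/
def row11MainN229 : Cert :=
  .leaf 37999860 0 37999861 0
    [(5032312, 3081), (18431650, 9042), (31830988, 9624), (50000000, 9799),
     (68169012, 9919), (79990756, 9949), (91812500, 9979)]

/-- A certificate. -/
def row11MainN227 : Cert :=
  .splitM 91812500 row11MainN228 row11MainN229

/-- A certificate. -/
def row11MainN223 : Cert :=
  .splitC 4596361 row11MainN224 row11MainN227

/-- A certificate. -/
def row11MainN231 : Cert :=
  .leaf 39761129 50716653 39761130 50716654
    [(5904213, 3780), (18867601, 8422), (31830988, 9021), (50000000, 8908),
     (68169012, 8787), (75897006, 8286), (83625000, 7212)]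

/-- A certificate. -/
def row11MainN232 : Cert :=
  .leaf 39761129 0 39761130 0
    [(5904213, 4040), (18867601, 8974), (31830988, 9584), (50000000, 9778),
     (68169012, 9910), (79990756, 9944), (91812500, 9977)]

/-- A certificate. -/
def row11MainN230 : Cert :=
  .splitM 91812500 row11MainN231 row11MainN232

/-- A certificate. -/
def row11MainN222 : Cert :=
  .splitC 5032312 row11MainN223 row11MainN230

/-- A certificate. -/
def row11MainN220 : Cert :=
  .splitM 83625000 row11MainN221 row11MainN222

/-- A certificate. -/
def row11MainN200 : Cert :=
  .splitC 4160411 row11MainN201 row11MainN220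

/-- A certificate. -/
def row11MainN190 : Cert :=
  .splitM 67250000 row11MainN191 row11MainN200

/-- A certificate. -/
def row11MainN237 : Cert :=
  .leaf 43068122 100000000 43068123 100000000
    [(7648015, 3580), (19739501, 5740), (31830988, 5548), (33165494, 5225),
     (34500000, 4872)]

/-- A certificate. -/
def row11MainN238 : Cert :=
  .leaf 43068122 100000000 43068123 100000000
    [(7648015, 3831), (19739501, 6388), (31830988, 6511), (37259244, 5612),
     (42687500, 4433)]

/-- A certificate. -/
def row11MainN236 : Cert :=
  .splitM 42687500 row11MainN237 row11MainN238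

/-- A certificate. -/
def row11MainN240 : Cert :=
  .leaf 49017290 100000000 49017291 100000000
    [(9391817, 3149), (20611403, 5370), (31830988, 5394), (33165494, 5078),
     (34500000, 4733)]

/-- A certificate. -/
def row11MainN241 : Cert :=
  .leaf 49017290 100000000 49017291 100000000
    [(9391817, 3404), (20611403, 6011), (31830988, 6314), (37259244, 5434),
     (42687500, 4287)]

/-- A certificate. -/
def row11MainN239 : Cert :=
  .splitM 42687500 row11MainN240 row11MainN241

/-- A certificate. -/
def row11MainN235 : Cert :=
  .splitC 7648015 row11MainN236 row11MainN239

/-- A certificate. -/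
def row11MainN243 : Cert :=
  .leaf 43068122 100000000 43068123 100000000
    [(7648015, 4109), (7919601, 4339), (8687127, 4862), (9879744, 5437), (11426605, 5941),
     (13256859, 6342), (15299659, 6648), (17484156, 6875), (19739501, 7042),
     (21994847, 7163), (24179344, 7250), (26222144, 7311), (28052398, 7353),
     (29599259, 7381), (30791876, 7398), (31559402, 7408), (31830988, 7411),
     (32044861, 7393), (32649285, 7342), (33588468, 7260), (34806615, 7152),
     (36247934, 7018), (37856632, 6864), (39576917, 6690), (41352994, 6503),
     (43129071, 6305), (44849356, 6103), (46458054, 5904), (47899373, 5717),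
     (49117520, 5551), (50056703, 5419), (50661127, 5331), (50875000, 5299)]

/-- A certificate. -/
def row11MainN245 : Cert :=
  .leaf 49017290 100000000 49017291 100000000
    [(9391817, 3566), (20611403, 6393), (31830988, 6834), (41352994, 5660),
     (50875000, 3946)]

/-- A certificate. -/
def row11MainN246 : Cert :=
  .leaf 49017290 100000000 49017291 100000000
    [(9391817, 3679), (20611403, 6648), (31830988, 7170), (45446744, 5815),
     (59062500, 3676)]

/-- A certificate. -/
def row11MainN244 : Cert :=
  .splitM 59062500 row11MainN245 row11MainN246

/-- A certificate. -/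
def row11MainN242 : Cert :=
  .splitC 7648015 row11MainN243 row11MainN244

/-- A certificate. -/
def row11MainN234 : Cert :=
  .splitM 50875000 row11MainN235 row11MainN242

/-- A certificate. -/
def row11MainN249 : Cert :=
  .leaf 43068122 71724179 43068123 71724180
    [(7648015, 4525), (19739501, 7911), (31830988, 8503), (49540494, 8062),
     (67250000, 7540)]

/-- A certificate. -/
def row11MainN250 : Cert :=
  .leaf 43068122 0 43068123 0
    [(7648015, 5063), (9439346, 6485), (13917675, 8030), (19739501, 8845), (25561328, 9249),
     (30039657, 9441), (31830988, 9500), (34522693, 9540), (41251957, 9631),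
     (50000000, 9734), (58748043, 9820), (65477307, 9874), (68169012, 9893),
     (69313900, 9897), (72176120, 9906), (75897006, 9919), (79617892, 9931),
     (82480112, 9941), (83625000, 9945)]

/-- A certificate. -/
def row11MainN248 : Cert :=
  .splitM 83625000 row11MainN249 row11MainN250

/-- A certificate. -/
def row11MainN252 : Cert :=
  .leaf 49017290 71724179 49017291 71724180
    [(9391817, 4102), (20611403, 7536), (31830988, 8268), (49540494, 7882),
     (67250000, 7438)]

/-- A certificate. -/
def row11MainN253 : Cert :=
  .leaf 49017290 0 49017291 0
    [(9391817, 4649), (20611403, 8519), (31830988, 9322), (50000000, 9641),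
     (68169012, 9856), (75897006, 9891), (83625000, 9926)]

/-- A certificate. -/
def row11MainN251 : Cert :=
  .splitM 83625000 row11MainN252 row11MainN253

/-- A certificate. -/
def row11MainN247 : Cert :=
  .splitC 7648015 row11MainN248 row11MainN251

/-- A certificate. -/
def row11MainN233 : Cert :=
  .splitM 67250000 row11MainN234 row11MainN247

/-- A certificate. -/
def row11MainN189 : Cert :=
  .splitC 5904213 row11MainN190 row11MainN233

/-- A certificate. -/
def row11MainN260 : Cert :=
  .leaf 54318747 100000000 54318748 100000000
    [(12780339, 3660), (22305663, 5093), (31830988, 5250), (33165494, 4941),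
     (34500000, 4604)]

/-- A certificate. -/
def row11MainN261 : Cert :=
  .leaf 54318747 100000000 54318748 100000000
    [(12780339, 4008), (22305663, 5741), (31830988, 6127), (37259244, 5266),
     (42687500, 4149)]

/-- A certificate. -/
def row11MainN259 : Cert :=
  .splitM 42687500 row11MainN260 row11MainN261

/-- A certificate. -/
def row11MainN263 : Cert :=
  .leaf 63364516 100000000 63364517 100000000
    [(16168862, 3203), (23999925, 4598), (31830988, 4982), (33165494, 4686),
     (34500000, 4364)]

/-- A certificate. -/
def row11MainN266 : Cert :=
  .leaf 63364516 100000000 63364517 100000000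
    [(14474600, 2558), (23152794, 4859), (31830988, 5442), (37259244, 4412),
     (42687500, 2937)]

/-- A certificate. -/
def row11MainN267 : Cert :=
  .leaf 63364516 100000000 63364517 100000000
    [(14474600, 2665), (23152794, 5104), (31830988, 5768), (39306119, 4584),
     (46781250, 2778)]

/-- A certificate. -/
def row11MainN265 : Cert :=
  .splitM 46781250 row11MainN266 row11MainN267

/-- A certificate. -/
def row11MainN269 : Cert :=
  .leaf 67433891 100000000 67433892 100000000
    [(16168862, 2426), (23999925, 4614), (31830988, 5279), (37259244, 4275),
     (42687500, 2843)]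

/-- A certificate. -/
def row11MainN270 : Cert :=
  .leaf 67433891 100000000 67433892 100000000
    [(16168862, 2531), (23999925, 4845), (31830988, 5583), (39306119, 4430),
     (46781250, 2681)]

/-- A certificate. -/
def row11MainN268 : Cert :=
  .splitM 46781250 row11MainN269 row11MainN270

/-- A certificate. -/
def row11MainN264 : Cert :=
  .splitC 14474600 row11MainN265 row11MainN268

/-- A certificate. -/
def row11MainN262 : Cert :=
  .splitM 42687500 row11MainN263 row11MainN264

/-- A certificate. -/
def row11MainN258 : Cert :=
  .splitC 12780339 row11MainN259 row11MainN262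

/-- A certificate. -/
def row11MainN274 : Cert :=
  .leaf 54318747 100000000 54318748 100000000
    [(11086078, 3217), (21458533, 6043), (31830988, 6619), (41352994, 5470),
     (50875000, 3806)]

/-- A certificate. -/
def row11MainN275 : Cert :=
  .leaf 54318747 100000000 54318748 100000000
    [(11086078, 3325), (21458533, 6287), (31830988, 6936), (45446744, 5609),
     (59062500, 3537)]

/-- A certificate. -/
def row11MainN273 : Cert :=
  .splitM 59062500 row11MainN274 row11MainN275

/-- A certificate. -/
def row11MainN277 : Cert :=
  .leaf 59015202 100000000 59015203 100000000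
    [(12780339, 2991), (22305663, 5731), (31830988, 6412), (41352994, 5288),
     (50875000, 3674)]

/-- A certificate. -/
def row11MainN278 : Cert :=
  .leaf 59015202 100000000 59015203 100000000
    [(12780339, 3095), (22305663, 5962), (31830988, 6709), (45446744, 5411),
     (59062500, 3404)]

/-- A certificate. -/
def row11MainN276 : Cert :=
  .splitM 59062500 row11MainN277 row11MainN278

/-- A certificate. -/
def row11MainN272 : Cert :=
  .splitC 11086078 row11MainN273 row11MainN276

/-- A certificate. -/
def row11MainN280 : Cert :=
  .leaf 63364516 100000000 63364517 100000000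
    [(16168862, 3758), (20229413, 4951), (27770437, 5926), (31830988, 6201),
     (36768324, 5672), (45937664, 4438), (50875000, 3541)]

/-- A certificate. -/
def row11MainN281 : Cert :=
  .leaf 63364516 100000000 63364517 100000000
    [(16168862, 3894), (23999925, 5771), (31830988, 6478), (45446744, 5213),
     (59062500, 3272)]

/-- A certificate. -/
def row11MainN279 : Cert :=
  .splitM 59062500 row11MainN280 row11MainN281

/-- A certificate. -/
def row11MainN271 : Cert :=
  .splitC 12780339 row11MainN272 row11MainN279

/-- A certificate. -/
def row11MainN257 : Cert :=
  .splitM 50875000 row11MainN258 row11MainN271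

/-- A certificate. -/
def row11MainN286 : Cert :=
  .leaf 71271297 100000000 71271298 100000000
    [(19557385, 2635), (25694187, 3698), (31830988, 4071), (33165494, 3663),
     (34500000, 3195)]

/-- A certificate. -/
def row11MainN287 : Cert :=
  .leaf 71271297 100000000 71271298 100000000
    [(19557385, 2930), (25694187, 4186), (31830988, 4705), (35212369, 3942),
     (38593750, 2945)]

/-- A certificate. -/
def row11MainN285 : Cert :=
  .splitM 38593750 row11MainN286 row11MainN287

/-- A certificate. -/
def row11MainN289 : Cert :=
  .leaf 78384524 100000000 78384525 100000000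
    [(22945908, 2488), (27388448, 3387), (31830988, 3842), (33165494, 3456),
     (34500000, 3013)]

/-- A certificate. -/
def row11MainN290 : Cert :=
  .leaf 78384524 100000000 78384525 100000000
    [(22945908, 2782), (23327689, 2907), (24334202, 3196), (25757203, 3525),
     (27388448, 3825), (29019693, 4067), (30442694, 4242), (31449207, 4350),
     (31830988, 4388), (32121575, 4332), (32887670, 4180), (33970768, 3953),
     (35212369, 3671), (36453970, 3363), (37537068, 3065), (38303163, 2833),
     (38593750, 2739)]

/-- A certificate. -/
def row11MainN288 : Cert :=
  .splitM 38593750 row11MainN289 row11MainN290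

/-- A certificate. -/
def row11MainN284 : Cert :=
  .splitC 19557385 row11MainN285 row11MainN288

/-- A certificate. -/
def row11MainN294 : Cert :=
  .leaf 71271297 100000000 71271298 100000000
    [(17863123, 2324), (24847055, 4382), (31830988, 5108), (37259244, 4132),
     (42687500, 2745)]

/-- A certificate. -/
def row11MainN295 : Cert :=
  .leaf 71271297 100000000 71271298 100000000
    [(17863123, 2426), (24847055, 4598), (31830988, 5389), (39306119, 4270),
     (46781250, 2581)]

/-- A certificate. -/
def row11MainN293 : Cert :=
  .splitM 46781250 row11MainN294 row11MainN295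

/-- A certificate. -/
def row11MainN297 : Cert :=
  .leaf 74912386 100000000 74912387 100000000
    [(19557385, 2245), (25694187, 4158), (31830988, 4925), (37259244, 3979),
     (42687500, 2641)]

/-- A certificate. -/
def row11MainN298 : Cert :=
  .leaf 74912386 100000000 74912387 100000000
    [(19557385, 2344), (22739430, 3671), (28648943, 4822), (31830988, 5181),
     (35706982, 4661), (42905256, 3427), (46781250, 2474)]

/-- A certificate. -/
def row11MainN296 : Cert :=
  .splitM 46781250 row11MainN297 row11MainN298

/-- A certificate. -/
def row11MainN292 : Cert :=
  .splitC 17863123 row11MainN293 row11MainN296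

/-- A certificate. -/
def row11MainN302 : Cert :=
  .leaf 78384524 100000000 78384525 100000000
    [(21251646, 2127), (26541317, 3822), (31830988, 4574), (37259244, 3524),
     (42687500, 1866)]

/-- A certificate. -/
def row11MainN303 : Cert :=
  .leaf 78384524 100000000 78384525 100000000
    [(21251646, 2187), (26541317, 3939), (31830988, 4725), (38282682, 3611),
     (44734375, 1795)]

/-- A certificate. -/
def row11MainN301 : Cert :=
  .splitM 44734375 row11MainN302 row11MainN303

/-- A certificate. -/
def row11MainN305 : Cert :=
  .leaf 81709249 100000000 81709250 100000000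
    [(22945908, 2089), (27388448, 3614), (31830988, 4369), (37259244, 3362),
     (42687500, 1778)]

/-- A certificate. -/
def row11MainN306 : Cert :=
  .leaf 81709249 100000000 81709250 100000000
    [(22945908, 2147), (25249447, 3135), (29527449, 4147), (31830988, 4502),
     (35176311, 3992), (41389052, 2752), (44734375, 1706)]

/-- A certificate. -/
def row11MainN304 : Cert :=
  .splitM 44734375 row11MainN305 row11MainN306

/-- A certificate. -/
def row11MainN300 : Cert :=
  .splitC 21251646 row11MainN301 row11MainN304

/-- A certificate. -/
def row11MainN308 : Cert :=
  .leaf 78384524 100000000 78384525 100000000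
    [(21251646, 2281), (21459804, 2405), (22035301, 2707), (22904668, 3083),
     (23994438, 3463), (25231144, 3814), (26541317, 4119), (27851490, 4375),
     (29088196, 4583), (30177966, 4743), (31047333, 4859), (31622830, 4931),
     (31830988, 4955), (32125148, 4920), (32938415, 4819), (34166966, 4661),
     (35706982, 4454), (37454640, 4203), (39306119, 3915), (41157598, 3600),
     (42905256, 3270), (44445272, 2945), (45673823, 2655), (46487090, 2442),
     (46781250, 2360)]

/-- A certificate. -/
def row11MainN310 : Cert :=
  .leaf 81709249 100000000 81709250 100000000
    [(22945908, 2195), (25249447, 3206), (29527449, 4246), (31830988, 4612),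
     (35706982, 4080), (42905256, 2775), (46781250, 1642)]

/-- A certificate. -/
def row11MainN311 : Cert :=
  .leaf 81709249 100000000 81709250 100000000
    [(22945908, 2235), (27388448, 3878), (31830988, 4704), (40329556, 3549),
     (48828125, 1584)]

/-- A certificate. -/
def row11MainN309 : Cert :=
  .splitM 48828125 row11MainN310 row11MainN311

/-- A certificate. -/
def row11MainN307 : Cert :=
  .splitC 21251646 row11MainN308 row11MainN309

/-- A certificate. -/
def row11MainN299 : Cert :=
  .splitM 46781250 row11MainN300 row11MainN307

/-- A certificate. -/
def row11MainN291 : Cert :=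
  .splitC 19557385 row11MainN292 row11MainN299

/-- A certificate. -/
def row11MainN283 : Cert :=
  .splitM 42687500 row11MainN284 row11MainN291

/-- A certificate. -/
def row11MainN315 : Cert :=
  .leaf 71271297 100000000 71271298 100000000
    [(17863123, 2565), (21484421, 4127), (28209690, 5383), (31830988, 5757),
     (36768324, 5256), (45937664, 4099), (50875000, 3265)]

/-- A certificate. -/
def row11MainN316 : Cert :=
  .leaf 74912386 100000000 74912387 100000000
    [(19557385, 2475), (22739430, 3885), (28648943, 5122), (31830988, 5514),
     (36768324, 5030), (45937664, 3917), (50875000, 3118)]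

/-- A certificate. -/
def row11MainN314 : Cert :=
  .splitC 17863123 row11MainN315 row11MainN316

/-- A certificate. -/
def row11MainN317 : Cert :=
  .leaf 71271297 100000000 71271298 100000000
    [(19557385, 3584), (25694187, 5220), (31830988, 5989), (45446744, 4798),
     (59062500, 2999)]

/-- A certificate. -/
def row11MainN313 : Cert :=
  .splitM 59062500 row11MainN314 row11MainN317

/-- A certificate. -/
def row11MainN320 : Cert :=
  .leaf 78384524 100000000 78384525 100000000
    [(21251646, 2404), (23994438, 3655), (29088196, 4849), (31830988, 5251),
     (36768324, 4786), (45937664, 3721), (50875000, 2959)]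

/-- A certificate. -/
def row11MainN321 : Cert :=
  .leaf 81709249 100000000 81709250 100000000
    [(22945908, 2348), (27388448, 4082), (31830988, 4960), (41352994, 4049),
     (50875000, 2786)]

/-- A certificate. -/
def row11MainN319 : Cert :=
  .splitC 21251646 row11MainN320 row11MainN321

/-- A certificate. -/
def row11MainN322 : Cert :=
  .leaf 78384524 100000000 78384525 100000000
    [(22945908, 3375), (27388448, 4688), (31830988, 5434), (45446744, 4334),
     (59062500, 2698)]

/-- A certificate. -/
def row11MainN318 : Cert :=
  .splitM 59062500 row11MainN319 row11MainN322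

/-- A certificate. -/
def row11MainN312 : Cert :=
  .splitC 19557385 row11MainN313 row11MainN318

/-- A certificate. -/
def row11MainN282 : Cert :=
  .splitM 50875000 row11MainN283 row11MainN312

/-- A certificate. -/
def row11MainN256 : Cert :=
  .splitC 16168862 row11MainN257 row11MainN282

/-- A certificate. -/
def row11MainN326 : Cert :=
  .leaf 54318747 71724179 54318748 71724180
    [(12780339, 4934), (22305663, 7284), (31830988, 8031), (49540494, 7705),
     (67250000, 7342)]

/-- A certificate. -/
def row11MainN327 : Cert :=
  .leaf 54318747 0 54318748 0
    [(12780339, 5648), (22305663, 8309), (31830988, 9126), (50000000, 9540),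
     (68169012, 9816), (75897006, 9861), (83625000, 9905)]

/-- A certificate. -/
def row11MainN325 : Cert :=
  .splitM 83625000 row11MainN326 row11MainN327

/-- A certificate. -/
def row11MainN329 : Cert :=
  .leaf 63364516 71724179 63364517 71724180
    [(16168862, 4467), (23999925, 6670), (31830988, 7546), (49540494, 7359),
     (67250000, 7161)]

/-- A certificate. -/
def row11MainN330 : Cert :=
  .leaf 63364516 0 63364517 0
    [(16168862, 5194), (23999925, 7717), (31830988, 8687), (50000000, 9316),
     (68169012, 9728), (75897006, 9795), (83625000, 9861)]

/-- A certificate. -/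
def row11MainN328 : Cert :=
  .splitM 83625000 row11MainN329 row11MainN330

/-- A certificate. -/
def row11MainN324 : Cert :=
  .splitC 12780339 row11MainN325 row11MainN328

/-- A certificate. -/
def row11MainN332 : Cert :=
  .leaf 71271297 71724179 71271298 71724180
    [(22945908, 5426), (27388448, 6390), (31830988, 7003), (49540494, 6991),
     (67250000, 6979)]

/-- A certificate. -/
def row11MainN333 : Cert :=
  .leaf 71271297 0 71271298 0
    [(22945908, 6361), (27388448, 7463), (31830988, 8149), (50000000, 9051),
     (68169012, 9626), (75897006, 9718), (83625000, 9809)]

/-- A certificate. -/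
def row11MainN331 : Cert :=
  .splitM 83625000 row11MainN332 row11MainN333

/-- A certificate. -/
def row11MainN323 : Cert :=
  .splitC 16168862 row11MainN324 row11MainN331

/-- A certificate. -/
def row11MainN255 : Cert :=
  .splitM 67250000 row11MainN256 row11MainN323

/-- A certificate. -/
def row11MainN340 : Cert :=
  .leaf 84903884 100000000 84903885 100000000
    [(26334431, 2455), (29082709, 3116), (31830988, 3552), (33165494, 3193),
     (34500000, 2782)]

/-- A certificate. -/
def row11MainN343 : Cert :=
  .leaf 84903884 100000000 84903885 100000000
    [(24640169, 1917), (28235579, 3140), (31830988, 3803), (35212369, 3007),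
     (38593750, 1860)]

/-- A certificate. -/
def row11MainN344 : Cert :=
  .leaf 84903884 100000000 84903885 100000000
    [(24640169, 2003), (28235579, 3287), (31830988, 3989), (36235806, 3102),
     (40640625, 1762)]

/-- A certificate. -/
def row11MainN342 : Cert :=
  .splitM 40640625 row11MainN343 row11MainN344

/-- A certificate. -/
def row11MainN346 : Cert :=
  .leaf 87982597 100000000 87982598 100000000
    [(26334431, 1925), (29082709, 2954), (31830988, 3577), (35212369, 2826),
     (38593750, 1746)]

/-- A certificate. -/
def row11MainN347 : Cert :=
  .leaf 87982597 100000000 87982598 100000000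
    [(26334431, 2004), (27759464, 2645), (30405955, 3425), (31830988, 3733),
     (34114968, 3330), (38356645, 2384), (40640625, 1645)]

/-- A certificate. -/
def row11MainN345 : Cert :=
  .splitM 40640625 row11MainN346 row11MainN347

/-- A certificate. -/
def row11MainN341 : Cert :=
  .splitC 24640169 row11MainN342 row11MainN345

/-- A certificate. -/
def row11MainN339 : Cert :=
  .splitM 38593750 row11MainN340 row11MainN341

/-- A certificate. -/
def row11MainN350 : Cert :=
  .leaf 90957162 100000000 90957163 100000000
    [(28028692, 1856), (29929840, 2609), (31830988, 3118), (33165494, 2801),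
     (34500000, 2438)]

/-- A certificate. -/
def row11MainN352 : Cert :=
  .leaf 93837483 100000000 93837484 100000000
    [(29722954, 1794), (30776971, 2242), (31830988, 2589), (33165494, 2198),
     (34500000, 1714)]

/-- A certificate. -/
def row11MainN353 : Cert :=
  .leaf 93837483 100000000 93837484 100000000
    [(29722954, 1924), (30776971, 2406), (31830988, 2780), (34188932, 2252),
     (36546875, 1540)]

/-- A certificate. -/
def row11MainN351 : Cert :=
  .splitM 36546875 row11MainN352 row11MainN353

/-- A certificate. -/
def row11MainN349 : Cert :=
  .splitC 28028692 row11MainN350 row11MainN351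

/-- A certificate. -/
def row11MainN356 : Cert :=
  .leaf 90957162 100000000 90957163 100000000
    [(28028692, 1954), (29929840, 2749), (31830988, 3290), (35212369, 2597),
     (38593750, 1603)]

/-- A certificate. -/
def row11MainN358 : Cert :=
  .leaf 90957162 100000000 90957163 100000000
    [(27181561, 1454), (29506275, 2697), (31830988, 3412), (36235806, 2647),
     (40640625, 1500)]

/-- A certificate. -/
def row11MainN359 : Cert :=
  .leaf 92408545 100000000 92408546 100000000
    [(28028692, 1466), (29929840, 2553), (31830988, 3216), (36235806, 2493),
     (40640625, 1412)]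

/-- A certificate. -/
def row11MainN357 : Cert :=
  .splitC 27181561 row11MainN358 row11MainN359

/-- A certificate. -/
def row11MainN355 : Cert :=
  .splitM 40640625 row11MainN356 row11MainN357

/-- A certificate. -/
def row11MainN361 : Cert :=
  .leaf 93837483 100000000 93837484 100000000
    [(29722954, 2007), (30776971, 2510), (31830988, 2902), (35212369, 2287),
     (38593750, 1410)]

/-- A certificate. -/
def row11MainN363 : Cert :=
  .leaf 93837483 100000000 93837484 100000000
    [(28875823, 1481), (30353405, 2392), (31830988, 2986), (36235806, 2313),
     (40640625, 1309)]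

/-- A certificate. -/
def row11MainN364 : Cert :=
  .leaf 95244985 100000000 95244986 100000000
    [(29722954, 1501), (30776971, 2209), (31830988, 2708), (36235806, 2095),
     (40640625, 1185)]

/-- A certificate. -/
def row11MainN362 : Cert :=
  .splitC 28875823 row11MainN363 row11MainN364

/-- A certificate. -/
def row11MainN360 : Cert :=
  .splitM 40640625 row11MainN361 row11MainN362

/-- A certificate. -/
def row11MainN354 : Cert :=
  .splitC 28028692 row11MainN355 row11MainN360

/-- A certificate. -/
def row11MainN348 : Cert :=
  .splitM 38593750 row11MainN349 row11MainN354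

/-- A certificate. -/
def row11MainN338 : Cert :=
  .splitC 26334431 row11MainN339 row11MainN348

/-- A certificate. -/
def row11MainN369 : Cert :=
  .leaf 84903884 100000000 84903885 100000000
    [(24640169, 2069), (25763734, 2606), (28235579, 3401), (30707423, 3938),
     (31830988, 4132), (33527318, 3863), (37259244, 3176), (40991170, 2262),
     (42687500, 1678)]

/-- A certificate. -/
def row11MainN371 : Cert :=
  .leaf 84903884 100000000 84903885 100000000
    [(23793038, 1528), (25876951, 2721), (29747075, 3851), (31830988, 4247),
     (35176311, 3762), (41389052, 2591), (44734375, 1604)]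

/-- A certificate. -/
def row11MainN372 : Cert :=
  .leaf 86456944 100000000 86456946 100000000
    [(24640169, 1523), (26504455, 2623), (29966702, 3712), (31830988, 4103),
     (35176311, 3634), (41389052, 2500), (44734375, 1548)]

/-- A certificate. -/
def row11MainN370 : Cert :=
  .splitC 23793038 row11MainN371 row11MainN372

/-- A certificate. -/
def row11MainN368 : Cert :=
  .splitM 44734375 row11MainN369 row11MainN370

/-- A certificate. -/
def row11MainN375 : Cert :=
  .leaf 87982597 100000000 87982598 100000000
    [(25487300, 1485), (27131960, 2466), (30186328, 3478), (31830988, 3852),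
     (34645639, 3420), (39872849, 2393), (42687500, 1559)]

/-- A certificate. -/
def row11MainN376 : Cert :=
  .leaf 89482240 100000000 89482241 100000000
    [(26334431, 1487), (27193268, 2076), (29082709, 2910), (30972151, 3479),
     (31830988, 3688), (33527318, 3445), (37259244, 2828), (40991170, 2012),
     (42687500, 1491)]

/-- A certificate. -/
def row11MainN374 : Cert :=
  .splitC 25487300 row11MainN375 row11MainN376

/-- A certificate. -/
def row11MainN378 : Cert :=
  .leaf 87982597 100000000 87982598 100000000
    [(25487300, 1520), (27131960, 2523), (30186328, 3562), (31830988, 3945),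
     (35176311, 3492), (41389052, 2401), (44734375, 1486)]

/-- A certificate. -/
def row11MainN379 : Cert :=
  .leaf 89482240 100000000 89482241 100000000
    [(26334431, 1519), (27759464, 2422), (30405955, 3400), (31830988, 3771),
     (35176311, 3336), (41389052, 2292), (44734375, 1418)]

/-- A certificate. -/
def row11MainN377 : Cert :=
  .splitC 25487300 row11MainN378 row11MainN379

/-- A certificate. -/
def row11MainN373 : Cert :=
  .splitM 44734375 row11MainN374 row11MainN377

/-- A certificate. -/
def row11MainN367 : Cert :=
  .splitC 24640169 row11MainN368 row11MainN373

/-- A certificate. -/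
def row11MainN382 : Cert :=
  .leaf 84903884 100000000 84903885 100000000
    [(24640169, 2166), (25763734, 2730), (28235579, 3566), (30707423, 4134),
     (31830988, 4341), (34166966, 4046), (39306119, 3286), (44445272, 2246),
     (46781250, 1540)]

/-- A certificate. -/
def row11MainN383 : Cert :=
  .leaf 84903884 100000000 84903885 100000000
    [(24640169, 2203), (28235579, 3628), (31830988, 4419), (40329556, 3327),
     (48828125, 1483)]

/-- A certificate. -/
def row11MainN381 : Cert :=
  .splitM 48828125 row11MainN382 row11MainN383

/-- A certificate. -/
def row11MainN385 : Cert :=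
  .leaf 87982597 100000000 87982598 100000000
    [(26334431, 2152), (27193268, 2599), (29082709, 3312), (30972151, 3827),
     (31830988, 4021), (34166966, 3746), (39306119, 3039), (44445272, 2075),
     (46781250, 1422)]

/-- A certificate. -/
def row11MainN386 : Cert :=
  .leaf 87982597 100000000 87982598 100000000
    [(26334431, 2185), (29082709, 3363), (31830988, 4084), (40329556, 3070),
     (48828125, 1366)]

/-- A certificate. -/
def row11MainN384 : Cert :=
  .splitM 48828125 row11MainN385 row11MainN386

/-- A certificate. -/
def row11MainN380 : Cert :=
  .splitC 24640169 row11MainN381 row11MainN384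

/-- A certificate. -/
def row11MainN366 : Cert :=
  .splitM 46781250 row11MainN367 row11MainN380

/-- A certificate. -/
def row11MainN391 : Cert :=
  .leaf 90957162 100000000 90957163 100000000
    [(27181561, 1492), (28386968, 2271), (30625581, 3158), (31830988, 3504),
     (34645639, 3109), (39872849, 2172), (42687500, 1414)]

/-- A certificate. -/
def row11MainN392 : Cert :=
  .leaf 92408545 100000000 92408546 100000000
    [(28028692, 1500), (29929840, 2613), (31830988, 3293), (37259244, 2522),
     (42687500, 1327)]

/-- A certificate. -/
def row11MainN390 : Cert :=
  .splitC 27181561 row11MainN391 row11MainN392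

/-- A certificate. -/
def row11MainN394 : Cert :=
  .leaf 90957162 100000000 90957163 100000000
    [(27181561, 1522), (29506275, 2824), (31830988, 3575), (38282682, 2715),
     (44734375, 1342)]

/-- A certificate. -/
def row11MainN395 : Cert :=
  .leaf 92408545 100000000 92408546 100000000
    [(28028692, 1527), (29929840, 2660), (31830988, 3353), (38282682, 2544),
     (44734375, 1256)]

/-- A certificate. -/
def row11MainN393 : Cert :=
  .splitC 27181561 row11MainN394 row11MainN395

/-- A certificate. -/
def row11MainN389 : Cert :=
  .splitM 44734375 row11MainN390 row11MainN393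

/-- A certificate. -/
def row11MainN398 : Cert :=
  .leaf 93837483 100000000 93837484 100000000
    [(28875823, 1511), (30353405, 2441), (31830988, 3048), (37259244, 2332),
     (42687500, 1226)]

/-- A certificate. -/
def row11MainN399 : Cert :=
  .leaf 95244985 100000000 95244986 100000000
    [(29722954, 1526), (30776971, 2247), (31830988, 2754), (37259244, 2105),
     (42687500, 1106)]

/-- A certificate. -/
def row11MainN397 : Cert :=
  .splitC 28875823 row11MainN398 row11MainN399

/-- A certificate. -/
def row11MainN400 : Cert :=
  .leaf 93837483 100000000 93837484 100000000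
    [(29722954, 2139), (30776971, 2677), (31830988, 3095), (38282682, 2346),
     (44734375, 1157)]

/-- A certificate. -/
def row11MainN396 : Cert :=
  .splitM 44734375 row11MainN397 row11MainN400

/-- A certificate. -/
def row11MainN388 : Cert :=
  .splitC 28028692 row11MainN389 row11MainN396

/-- A certificate. -/
def row11MainN402 : Cert :=
  .leaf 90957162 100000000 90957163 100000000
    [(28028692, 2179), (29929840, 3070), (31830988, 3680), (39306119, 2888),
     (46781250, 1730)]

/-- A certificate. -/
def row11MainN403 : Cert :=
  .leaf 93837483 100000000 93837484 100000000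
    [(29722954, 2186), (30776971, 2735), (31830988, 3163), (39306119, 2478),
     (46781250, 1481)]

/-- A certificate. -/
def row11MainN401 : Cert :=
  .splitC 28028692 row11MainN402 row11MainN403

/-- A certificate. -/
def row11MainN387 : Cert :=
  .splitM 46781250 row11MainN388 row11MainN401

/-- A certificate. -/
def row11MainN365 : Cert :=
  .splitC 26334431 row11MainN366 row11MainN387

/-- A certificate. -/
def row11MainN337 : Cert :=
  .splitM 42687500 row11MainN338 row11MainN365

/-- A certificate. -/
def row11MainN408 : Cert :=
  .leaf 96631989 100000000 96631990 100000000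
    [(33111477, 1833), (33805739, 1639), (34500000, 1417)]

/-- A certificate. -/
def row11MainN410 : Cert :=
  .leaf 96631989 100000000 96631990 100000000
    [(31417215, 2031), (31624101, 2145), (31830988, 2251), (34188932, 1821),
     (36546875, 1244)]

/-- A certificate. -/
def row11MainN409 : Cert :=
  .splitC 31417215 row11MainN410 .skip

/-- A certificate. -/
def row11MainN407 : Cert :=
  .splitM 36546875 row11MainN408 row11MainN409

/-- A certificate. -/
def row11MainN406 : Cert :=
  .splitC 33111477 row11MainN407 .skip

/-- A certificate. -/
def row11MainN416 : Cert :=
  .leaf 96631989 100000000 96631990 100000000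
    [(31417215, 2089), (31624101, 2206), (31830988, 2315), (35212369, 1822),
     (38593750, 1122)]

/-- A certificate. -/
def row11MainN417 : Cert :=
  .leaf 96631989 100000000 96631990 100000000
    [(31417215, 2128), (31624101, 2246), (31830988, 2358), (36235806, 1823),
     (40640625, 1029)]

/-- A certificate. -/
def row11MainN415 : Cert :=
  .splitM 40640625 row11MainN416 row11MainN417

/-- A certificate. -/
def row11MainN414 : Cert :=
  .splitC 31417215 row11MainN415 .skip

/-- A certificate. -/
def row11MainN413 : Cert :=
  .splitC 33111477 row11MainN414 .skip

/-- A certificate. -/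
def row11MainN405 : Cert :=
  .splitM 38593750 row11MainN406 row11MainN413

/-- A certificate. -/
def row11MainN423 : Cert :=
  .leaf 96631989 100000000 96631990 100000000
    [(31417215, 2176), (31624101, 2297), (31830988, 2411), (37259244, 1929),
     (42687500, 1268)]

/-- A certificate. -/
def row11MainN422 : Cert :=
  .splitC 31417215 row11MainN423 .skip

/-- A certificate. -/
def row11MainN425 : Cert :=
  .leaf 96631989 100000000 96631990 100000000
    [(33111477, 2361), (39946363, 1857), (46781250, 1139)]

/-- A certificate. -/
def row11MainN421 : Cert :=
  .splitM 46781250 row11MainN422 row11MainN425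

/-- A certificate. -/
def row11MainN420 : Cert :=
  .splitC 33111477 row11MainN421 .skip

/-- A certificate. -/
def row11MainN404 : Cert :=
  .splitM 42687500 row11MainN405 row11MainN420

/-- A certificate. -/
def row11MainN336 : Cert :=
  .splitC 29722954 row11MainN337 row11MainN404

/-- A certificate. -/
def row11MainN432 : Cert :=
  .leaf 84903884 100000000 84903885 100000000
    [(24640169, 2261), (28235579, 3726), (31830988, 4541), (41352994, 3524),
     (50875000, 1955)]

/-- A certificate. -/
def row11MainN433 : Cert :=
  .leaf 87982597 100000000 87982598 100000000
    [(26334431, 2236), (29082709, 3442), (31830988, 4182), (41352994, 3240),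
     (50875000, 1793)]

/-- A certificate. -/
def row11MainN431 : Cert :=
  .splitC 24640169 row11MainN432 row11MainN433

/-- A certificate. -/
def row11MainN434 : Cert :=
  .leaf 84903884 100000000 84903885 100000000
    [(26334431, 3152), (29082709, 4032), (31830988, 4633), (43399869, 3558),
     (54968750, 1841)]

/-- A certificate. -/
def row11MainN430 : Cert :=
  .splitM 54968750 row11MainN431 row11MainN434

/-- A certificate. -/
def row11MainN435 : Cert :=
  .leaf 90957162 100000000 90957163 100000000
    [(29722954, 3093), (30776971, 3479), (31830988, 3805), (41352994, 3089),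
     (50875000, 2115)]

/-- A certificate. -/
def row11MainN429 : Cert :=
  .splitC 26334431 row11MainN430 row11MainN435

/-- A certificate. -/
def row11MainN436 : Cert :=
  .leaf 84903884 100000000 84903885 100000000
    [(29722954, 4306), (30776971, 4548), (31830988, 4762), (45446744, 3782),
     (59062500, 2345)]

/-- A certificate. -/
def row11MainN428 : Cert :=
  .splitM 59062500 row11MainN429 row11MainN436

/-- A certificate. -/
def row11MainN437 : Cert :=
  .leaf 96631989 100000000 96631990 100000000
    [(36500000, 2333), (43687500, 2045), (50875000, 1708)]

/-- A certificate. -/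
def row11MainN427 : Cert :=
  .splitC 29722954 row11MainN428 row11MainN437

/-- A certificate. -/
def row11MainN335 : Cert :=
  .splitM 50875000 row11MainN336 row11MainN427

/-- A certificate. -/
def row11MainN439 : Cert :=
  .leaf 84903884 0 84903885 0
    [(29722954, 5981), (30776971, 6311), (31830988, 6601), (49540494, 8311),
     (67250000, 9326)]

/-- A certificate. -/
def row11MainN440 : Cert :=
  .leaf 96631989 0 96631990 0
    [(36500000, 4874), (51875000, 7497), (67250000, 8928)]

/-- A certificate. -/
def row11MainN438 : Cert :=
  .splitC 29722954 row11MainN439 row11MainN440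

/-- A certificate. -/
def row11MainN334 : Cert :=
  .splitM 67250000 row11MainN335 row11MainN438

/-- A certificate. -/
def row11MainN254 : Cert :=
  .splitC 22945908 row11MainN255 row11MainN334

/-- A certificate. -/
def row11MainN188 : Cert :=
  .splitC 9391817 row11MainN189 row11MainN254

/-- A certificate. -/
def row11Main : Cert :=
  .splitC 2416609 row11MainN1 row11MainN188

/-- A certificate. -/
def row11FloorN2 : Cert :=
  .leaf 7089815 100000000 7089816 100000000
    [(1768292, 9048), (10057184, 8936), (23542097, 8142), (31830988, 7589),
     (32248021, 7523), (33165494, 7373), (34082967, 7215), (34500000, 7141)]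

/-- A certificate. -/
def row11FloorN3 : Cert :=
  .leaf 7089815 100000000 7089816 100000000
    [(228730, 5306), (673187, 8439), (1768292, 9185), (3678999, 9360), (6460291, 9363),
     (10057184, 9290), (14304725, 9174), (18927993, 9033), (23542097, 8884),
     (27652177, 8747), (30653406, 8645), (31830988, 8604), (32205697, 8573),
     (33241656, 8486), (34806615, 8347), (36768324, 8161), (38994534, 7933),
     (41352994, 7672), (43711454, 7387), (45937664, 7093), (47899373, 6812),
     (49464332, 6572), (50500291, 6404), (50875000, 6341)]

/-- A certificate. -/
def row11FloorN1 : Cert :=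
  .splitM 50875000 row11FloorN2 row11FloorN3

/-- A certificate. -/
def row11FloorN6 : Cert :=
  .leaf 7089815 87843821 7089816 87843822
    [(1768292, 9274), (10057184, 9490), (23542097, 9273), (31830988, 9117),
     (37365209, 8826), (49540494, 7995), (61715779, 6821), (67250000, 6123)]

/-- A certificate. -/
def row11FloorN7 : Cert :=
  .leaf 7089815 71724179 7089816 71724180
    [(1768292, 9353), (10057184, 9649), (23542097, 9561), (31830988, 9487),
     (37508804, 9329), (50000000, 8895), (62491196, 8327), (68169012, 8018),
     (69304713, 7866), (71803256, 7470), (74301799, 6961), (75437500, 6678)]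

/-- A certificate. -/
def row11FloorN5 : Cert :=
  .splitM 75437500 row11FloorN6 row11FloorN7

/-- A certificate. -/
def row11FloorN9 : Cert :=
  .leaf 7089815 50716653 7089816 50716654
    [(1768292, 9428), (10057184, 9777), (23542097, 9773), (31830988, 9751),
     (37508804, 9685), (50000000, 9513), (62491196, 9299), (68169012, 9188),
     (70584010, 9063), (75897006, 8684), (81210002, 8041), (83625000, 7575)]

/-- A certificate. -/
def row11FloorN11 : Cert :=
  .leaf 7089815 35862089 7089816 35862090
    [(3678999, 9708), (18927993, 9862), (31830988, 9861), (41251957, 9809),
     (58748043, 9690), (68169012, 9613), (74298805, 9450), (85682707, 8723),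
     (91812500, 7305)]

/-- A certificate. -/
def row11FloorN13 : Cert :=
  .leaf 7089815 25358326 7089816 25358327
    [(3678999, 9736), (18927993, 9905), (31830988, 9915), (41251957, 9890),
     (58748043, 9836), (68169012, 9802), (75360148, 9707), (88715114, 9178),
     (95906250, 7176)]

/-- A certificate. -/
def row11FloorN14 : Cert :=
  .leaf 7089815 0 7089816 0
    [(673187, 8745), (3678999, 9795), (10057184, 9935), (18927993, 9972), (27652177, 9984),
     (31830988, 9988), (34522693, 9989), (41251957, 9991), (50000000, 9993),
     (58748043, 9995), (65477307, 9996), (68169012, 9997), (70375243, 9997),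
     (75890819, 9998), (83061068, 9998), (90231318, 9999), (95746894, 9999),
     (97953125, 9999)]

/-- A certificate. -/
def row11FloorN12 : Cert :=
  .splitM 97953125 row11FloorN13 row11FloorN14

/-- A certificate. -/
def row11FloorN10 : Cert :=
  .splitM 95906250 row11FloorN11 row11FloorN12

/-- A certificate. -/
def row11FloorN8 : Cert :=
  .splitM 91812500 row11FloorN9 row11FloorN10

/-- A certificate. -/
def row11FloorN4 : Cert :=
  .splitM 83625000 row11FloorN5 row11FloorN8

/-- A certificate. -/
def row11Floor : Cert :=
  .splitM 67250000 row11FloorN1 row11FloorN4

theorem row11Main_ok :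
    check (row11Bins.map Prod.fst) 0 slabSkip row11Main 160000 36500000 34500000 (10 ^ 8) = true := by
  refine Fast.check_of ?_
  iterate 4 all_goals try first | apply Fast.splitM_ok | apply Fast.splitC_ok
  all_goals decide +kernel

theorem row11Floor_ok :
    check (row11Bins.map Prod.fst) (2804 * 14249 * 10 ^ 6) noSkip row11Floor 160000 160000 34500000 (10 ^ 8) = true := by
  refine Fast.check_of ?_
  iterate 2 all_goals try apply Fast.splitM_ok
  all_goals decide +kernel

/-- The nodes of a crossing. -/
def row11Cross : List (ℕ × ℕ) :=
  [
  (173125, 2579), (212500, 4653), (278125, 6096), (370000, 7039),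
  (488125, 7648), (632500, 8047), (803125, 8312), (1000000, 8491)]

theorem row11Cross_ok :
    excursionOK 160000 1000000 (max 34500000 1000000) (2 * (2804 * 14249 * 10 ^ 6) : ℕ) 7089816 100000000 row11Cross = true := by
  decide +kernel

/-- The bins, with their tangency parameters. -/
def row12Bins : List (Bin × ℕ) :=
  [(⟨36500000, 50000000, 10000000000000000, 0⟩, 1)]

theorem row12Bins_dom : row12Bins.all domOK = true := by decide +kernel

theorem row12Bins_covers : covers 36500000 50000000 (row12Bins.map Prod.fst) = true := by
  decide +kernel

/-- A certificate. -/
def row12MainN6 : Cert :=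
  .leaf 7089815 100000000 7089816 100000000
    [(244038, 5625), (10114960, 8979), (31830988, 7729), (34165494, 7369), (36500000, 6965)]

/-- A certificate. -/
def row12MainN7 : Cert :=
  .leaf 7089815 99872702 7089816 99872703
    [(244038, 5683), (3753699, 9371), (18962231, 9057), (31830988, 8645), (37157213, 8181),
     (47048775, 7043), (52375000, 6227)]

/-- A certificate. -/
def row12MainN5 : Cert :=
  .splitM 52375000 row12MainN6 row12MainN7

/-- A certificate. -/
def row12MainN9 : Cert :=
  .leaf 8755957 100000000 8755958 100000000
    [(328077, 4805), (10172737, 8867), (31830988, 7680), (34165494, 7320), (36500000, 6917)]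

/-- A certificate. -/
def row12MainN10 : Cert :=
  .leaf 8755957 99872702 8755958 99872703
    [(328077, 4867), (3828400, 9204), (18996469, 8986), (31830988, 8597), (37157213, 8130),
     (47048775, 6994), (52375000, 6181)]

/-- A certificate. -/
def row12MainN8 : Cert :=
  .splitM 52375000 row12MainN9 row12MainN10

/-- A certificate. -/
def row12MainN4 : Cert :=
  .splitC 244038 row12MainN5 row12MainN8

/-- A certificate. -/
def row12MainN14 : Cert :=
  .leaf 7089815 86492297 7089816 86492298
    [(244038, 5727), (10114960, 9506), (31830988, 9157), (50000000, 8063), (68169012, 6243),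
     (68250000, 6219)]

/-- A certificate. -/
def row12MainN15 : Cert :=
  .leaf 7089815 70620665 7089816 70620666
    [(244038, 5766), (10114960, 9657), (31830988, 9505), (50000000, 8940), (68169012, 8106),
     (72178256, 7524), (76187500, 6647)]

/-- A certificate. -/
def row12MainN13 : Cert :=
  .splitM 76187500 row12MainN14 row12MainN15

/-- A certificate. -/
def row12MainN17 : Cert :=
  .leaf 7089815 49936351 7089816 49936352
    [(244038, 5806), (10114960, 9781), (31830988, 9758), (50000000, 9529), (68169012, 9216),
     (76147006, 8710), (84125000, 7558)]

/-- A certificate. -/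
def row12MainN19 : Cert :=
  .leaf 7089815 35310332 7089816 35310333
    [(244038, 5829), (10114960, 9840), (31830988, 9864), (50000000, 9760), (68169012, 9625),
     (80115756, 9218), (92062500, 7297)]

/-- A certificate. -/
def row12MainN21 : Cert :=
  .leaf 7089815 24968175 7089816 24968176
    [(244038, 5843), (10114960, 9874), (31830988, 9916), (50000000, 9867), (68169012, 9807),
     (82100131, 9557), (96031250, 7172)]

/-- A certificate. -/
def row12MainN22 : Cert :=
  .leaf 7089815 0 7089816 0
    [(244038, 5877), (3753699, 9799), (18962231, 9972), (31830988, 9988), (41251957, 9991),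
     (58748043, 9995), (68169012, 9997), (75907023, 9998), (90277614, 9999),
     (98015625, 9999)]

/-- A certificate. -/
def row12MainN20 : Cert :=
  .splitM 98015625 row12MainN21 row12MainN22

/-- A certificate. -/
def row12MainN18 : Cert :=
  .splitM 96031250 row12MainN19 row12MainN20

/-- A certificate. -/
def row12MainN16 : Cert :=
  .splitM 92062500 row12MainN17 row12MainN18

/-- A certificate. -/
def row12MainN12 : Cert :=
  .splitM 84125000 row12MainN13 row12MainN16

/-- A certificate. -/
def row12MainN25 : Cert :=
  .leaf 8755957 86492297 8755958 86492298
    [(328077, 4913), (10172737, 9423), (31830988, 9116), (50000000, 8023), (68169012, 6222),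
     (68250000, 6199)]

/-- A certificate. -/
def row12MainN26 : Cert :=
  .leaf 8755957 70620665 8755958 70620666
    [(328077, 4955), (10172737, 9587), (31830988, 9472), (50000000, 8907), (68169012, 8084),
     (72178256, 7502), (76187500, 6627)]

/-- A certificate. -/
def row12MainN24 : Cert :=
  .splitM 76187500 row12MainN25 row12MainN26

/-- A certificate. -/
def row12MainN28 : Cert :=
  .leaf 8755957 49936351 8755958 49936352
    [(328077, 4997), (10172737, 9723), (31830988, 9733), (50000000, 9505), (68169012, 9198),
     (76147006, 8692), (84125000, 7541)]

/-- A certificate. -/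
def row12MainN30 : Cert :=
  .leaf 8755957 35310332 8755958 35310333
    [(328077, 5021), (10172737, 9790), (31830988, 9845), (50000000, 9742), (68169012, 9611),
     (80115756, 9204), (92062500, 7284)]

/-- A certificate. -/
def row12MainN32 : Cert :=
  .leaf 8755957 24968175 8755958 24968176
    [(328077, 5037), (10172737, 9829), (31830988, 9901), (50000000, 9854), (68169012, 9797),
     (82100131, 9546), (96031250, 7163)]

/-- A certificate. -/
def row12MainN33 : Cert :=
  .leaf 8755957 0 8755958 0
    [(328077, 5073), (3828400, 9699), (18996469, 9957), (31830988, 9982), (41251957, 9986),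
     (58748043, 9993), (68169012, 9996), (75907023, 9997), (90277614, 9998),
     (98015625, 9999)]

/-- A certificate. -/
def row12MainN31 : Cert :=
  .splitM 98015625 row12MainN32 row12MainN33

/-- A certificate. -/
def row12MainN29 : Cert :=
  .splitM 96031250 row12MainN30 row12MainN31

/-- A certificate. -/
def row12MainN27 : Cert :=
  .splitM 92062500 row12MainN28 row12MainN29

/-- A certificate. -/
def row12MainN23 : Cert :=
  .splitM 84125000 row12MainN24 row12MainN27

/-- A certificate. -/
def row12MainN11 : Cert :=
  .splitC 244038 row12MainN12 row12MainN23

/-- A certificate. -/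
def row12MainN3 : Cert :=
  .splitM 68250000 row12MainN4 row12MainN11

/-- A certificate. -/
def row12MainN37 : Cert :=
  .leaf 10152262 100000000 10152263 100000000
    [(500397, 5526), (10291207, 8767), (31830988, 7638), (34165494, 7279), (36500000, 6877)]

/-- A certificate. -/
def row12MainN38 : Cert :=
  .leaf 10152262 99872702 10152263 99872703
    [(500397, 5609), (3981574, 9058), (19066673, 8925), (31830988, 8555), (37157213, 8088),
     (47048775, 6953), (52375000, 6143)]

/-- A certificate. -/
def row12MainN36 : Cert :=
  .splitM 52375000 row12MainN37 row12MainN38

/-- A certificate. -/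
def row12MainN40 : Cert :=
  .leaf 12538116 100000000 12538117 100000000
    [(672717, 4704), (10409677, 8593), (31830988, 7568), (34165494, 7209), (36500000, 6809)]

/-- A certificate. -/
def row12MainN41 : Cert :=
  .leaf 12538116 99872702 12538117 99872703
    [(672717, 4791), (4134747, 8784), (19136878, 8818), (31830988, 8484), (37157213, 8015),
     (47048775, 6882), (52375000, 6078)]

/-- A certificate. -/
def row12MainN39 : Cert :=
  .splitM 52375000 row12MainN40 row12MainN41

/-- A certificate. -/
def row12MainN35 : Cert :=
  .splitC 500397 row12MainN36 row12MainN39

/-- A certificate. -/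
def row12MainN46 : Cert :=
  .leaf 10152262 86492297 10152263 86492298
    [(414237, 4409), (10231972, 9349), (31830988, 9081), (50000000, 7989), (68169012, 6204),
     (68250000, 6181)]

/-- A certificate. -/
def row12MainN47 : Cert :=
  .leaf 10152262 70620665 10152263 70620666
    [(414237, 4452), (10231972, 9523), (31830988, 9443), (50000000, 8879), (68169012, 8066),
     (72178256, 7484), (76187500, 6611)]

/-- A certificate. -/
def row12MainN45 : Cert :=
  .splitM 76187500 row12MainN46 row12MainN47

/-- A certificate. -/
def row12MainN49 : Cert :=
  .leaf 10152262 49936351 10152263 49936352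
    [(414237, 4496), (10231972, 9669), (31830988, 9712), (50000000, 9484), (68169012, 9183),
     (76147006, 8676), (84125000, 7527)]

/-- A certificate. -/
def row12MainN51 : Cert :=
  .leaf 10152262 35310332 10152263 35310333
    [(414237, 4521), (10231972, 9743), (31830988, 9828), (50000000, 9726), (68169012, 9600),
     (80115756, 9191), (92062500, 7273)]

/-- A certificate. -/
def row12MainN53 : Cert :=
  .leaf 10152262 24968175 10152263 24968176
    [(414237, 4538), (10231972, 9786), (31830988, 9887), (50000000, 9842), (68169012, 9788),
     (82100131, 9536), (96031250, 7155)]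

/-- A certificate. -/
def row12MainN54 : Cert :=
  .leaf 10152262 0 10152263 0
    [(414237, 4575), (3904987, 9601), (19031571, 9942), (31830988, 9975), (41251957, 9982),
     (58748043, 9991), (68169012, 9994), (75907023, 9996), (90277614, 9998),
     (98015625, 9999)]

/-- A certificate. -/
def row12MainN52 : Cert :=
  .splitM 98015625 row12MainN53 row12MainN54

/-- A certificate. -/
def row12MainN50 : Cert :=
  .splitM 96031250 row12MainN51 row12MainN52

/-- A certificate. -/
def row12MainN48 : Cert :=
  .splitM 92062500 row12MainN49 row12MainN50

/-- A certificate. -/
def row12MainN44 : Cert :=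
  .splitM 84125000 row12MainN45 row12MainN48

/-- A certificate. -/
def row12MainN57 : Cert :=
  .leaf 11407733 86492297 11407734 86492298
    [(500397, 3996), (10291207, 9279), (31830988, 9050), (50000000, 7958), (68169012, 6189),
     (68250000, 6166)]

/-- A certificate. -/
def row12MainN58 : Cert :=
  .leaf 11407733 70620665 11407734 70620666
    [(500397, 4041), (10291207, 9462), (31830988, 9417), (50000000, 8854), (68169012, 8049),
     (72178256, 7468), (76187500, 6596)]

/-- A certificate. -/
def row12MainN56 : Cert :=
  .splitM 76187500 row12MainN57 row12MainN58

/-- A certificate. -/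
def row12MainN60 : Cert :=
  .leaf 11407733 49936351 11407734 49936352
    [(500397, 4085), (10291207, 9618), (31830988, 9692), (50000000, 9465), (68169012, 9169),
     (76147006, 8662), (84125000, 7513)]

/-- A certificate. -/
def row12MainN62 : Cert :=
  .leaf 11407733 35310332 11407734 35310333
    [(500397, 4111), (10291207, 9697), (31830988, 9812), (50000000, 9712), (68169012, 9589),
     (80115756, 9180), (92062500, 7264)]

/-- A certificate. -/
def row12MainN63 : Cert :=
  .leaf 11407733 0 11407734 0
    [(500397, 4166), (1008069, 7706), (3981574, 9504), (10291207, 9835), (19066673, 9927),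
     (27697091, 9960), (31830988, 9969), (34522693, 9971), (41251957, 9977),
     (50000000, 9983), (58748043, 9988), (65477307, 9992), (68169012, 9993),
     (70232881, 9993), (75392555, 9994), (82100131, 9996), (88807707, 9997),
     (93967381, 9998), (96031250, 9999)]

/-- A certificate. -/
def row12MainN61 : Cert :=
  .splitM 96031250 row12MainN62 row12MainN63

/-- A certificate. -/
def row12MainN59 : Cert :=
  .splitM 92062500 row12MainN60 row12MainN61

/-- A certificate. -/
def row12MainN55 : Cert :=
  .splitM 84125000 row12MainN56 row12MainN59

/-- A certificate. -/
def row12MainN43 : Cert :=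
  .splitC 414237 row12MainN44 row12MainN55

/-- A certificate. -/
def row12MainN67 : Cert :=
  .leaf 12538116 86492297 12538117 86492298
    [(586557, 3679), (10350442, 9213), (31830988, 9021), (50000000, 7931), (68169012, 6174),
     (68250000, 6152)]

/-- A certificate. -/
def row12MainN68 : Cert :=
  .leaf 12538116 70620665 12538117 70620666
    [(586557, 3724), (10350442, 9404), (31830988, 9393), (50000000, 8830), (68169012, 8034),
     (72178256, 7453), (76187500, 6582)]

/-- A certificate. -/
def row12MainN66 : Cert :=
  .splitM 76187500 row12MainN67 row12MainN68

/-- A certificate. -/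
def row12MainN70 : Cert :=
  .leaf 13574693 86492297 13574694 86492298
    [(672717, 3425), (10409677, 9151), (31830988, 8994), (50000000, 7905), (68169012, 6162),
     (68250000, 6139)]

/-- A certificate. -/
def row12MainN71 : Cert :=
  .leaf 13574693 70620665 13574694 70620666
    [(672717, 3471), (10409677, 9349), (31830988, 9370), (50000000, 8809), (68169012, 8020),
     (72178256, 7440), (76187500, 6570)]

/-- A certificate. -/
def row12MainN69 : Cert :=
  .splitM 76187500 row12MainN70 row12MainN71

/-- A certificate. -/
def row12MainN65 : Cert :=
  .splitC 586557 row12MainN66 row12MainN69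

/-- A certificate. -/
def row12MainN74 : Cert :=
  .leaf 12538116 49936351 12538117 49936352
    [(586557, 3769), (10350442, 9568), (31830988, 9673), (50000000, 9448), (68169012, 9157),
     (76147006, 8650), (84125000, 7502)]

/-- A certificate. -/
def row12MainN76 : Cert :=
  .leaf 12538116 35310332 12538117 35310333
    [(586557, 3795), (10350442, 9653), (31830988, 9797), (50000000, 9699), (68169012, 9580),
     (80115756, 9170), (92062500, 7255)]

/-- A certificate. -/
def row12MainN77 : Cert :=
  .leaf 12538116 0 12538117 0
    [(586557, 3851), (2173188, 8817), (10350442, 9801), (23653735, 9937), (31830988, 9963),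
     (37508804, 9968), (50000000, 9980), (62491196, 9988), (68169012, 9991),
     (72522487, 9993), (82100131, 9995), (91677775, 9997), (96031250, 9998)]

/-- A certificate. -/
def row12MainN75 : Cert :=
  .splitM 96031250 row12MainN76 row12MainN77

/-- A certificate. -/
def row12MainN73 : Cert :=
  .splitM 92062500 row12MainN74 row12MainN75

/-- A certificate. -/
def row12MainN79 : Cert :=
  .leaf 13574693 49936351 13574694 49936352
    [(672717, 3516), (10409677, 9521), (31830988, 9656), (50000000, 9432), (68169012, 9145),
     (76147006, 8638), (84125000, 7491)]

/-- A certificate. -/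
def row12MainN81 : Cert :=
  .leaf 13574693 35310332 13574694 35310333
    [(672717, 3543), (10409677, 9610), (31830988, 9783), (50000000, 9686), (68169012, 9571),
     (80115756, 9161), (92062500, 7247)]

/-- A certificate. -/
def row12MainN82 : Cert :=
  .leaf 13574693 0 13574694 0
    [(672717, 3599), (4134747, 9317), (19136878, 9898), (31830988, 9956), (41251957, 9967),
     (58748043, 9984), (68169012, 9990), (75392555, 9992), (88807707, 9996),
     (96031250, 9998)]

/-- A certificate. -/
def row12MainN80 : Cert :=
  .splitM 96031250 row12MainN81 row12MainN82

/-- A certificate. -/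
def row12MainN78 : Cert :=
  .splitM 92062500 row12MainN79 row12MainN80

/-- A certificate. -/
def row12MainN72 : Cert :=
  .splitC 586557 row12MainN73 row12MainN78

/-- A certificate. -/
def row12MainN64 : Cert :=
  .splitM 84125000 row12MainN65 row12MainN72

/-- A certificate. -/
def row12MainN42 : Cert :=
  .splitC 500397 row12MainN43 row12MainN64

/-- A certificate. -/
def row12MainN34 : Cert :=
  .splitM 68250000 row12MainN35 row12MainN42

/-- A certificate. -/
def row12MainN2 : Cert :=
  .splitC 328077 row12MainN3 row12MainN34

/-- A certificate. -/
def row12MainN87 : Cert :=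
  .leaf 14537547 100000000 14537548 100000000
    [(1026056, 5390), (10652597, 8439), (31830988, 7509), (34165494, 7151),
     (36500000, 6752)]

/-- A certificate. -/
def row12MainN88 : Cert :=
  .leaf 14537547 99872702 14537548 99872703
    [(1026056, 5509), (10652597, 8831), (31830988, 8424), (42102994, 7436),
     (52375000, 6023)]

/-- A certificate. -/
def row12MainN86 : Cert :=
  .splitM 52375000 row12MainN87 row12MainN88

/-- A certificate. -/
def row12MainN90 : Cert :=
  .leaf 17953968 100000000 17953969 100000000
    [(1379395, 4567), (10895518, 8171), (31830988, 7407), (34165494, 7051),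
     (36500000, 6655)]

/-- A certificate. -/
def row12MainN91 : Cert :=
  .leaf 17953968 99872702 17953969 99872703
    [(1379395, 4690), (10895518, 8587), (31830988, 8318), (42102994, 7331),
     (52375000, 5929)]

/-- A certificate. -/
def row12MainN89 : Cert :=
  .splitM 52375000 row12MainN90 row12MainN91

/-- A certificate. -/
def row12MainN85 : Cert :=
  .splitC 1026056 row12MainN86 row12MainN89

/-- A certificate. -/
def row12MainN97 : Cert :=
  .leaf 14537547 86492297 14537548 86492298
    [(761051, 3252), (10470406, 9092), (31830988, 8968), (50000000, 7882), (68169012, 6150),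
     (68250000, 6127)]

/-- A certificate. -/
def row12MainN98 : Cert :=
  .leaf 14537547 70620665 14537548 70620666
    [(761051, 3299), (10470406, 9297), (31830988, 9349), (50000000, 8789), (68169012, 8007),
     (72178256, 7428), (76187500, 6559)]

/-- A certificate. -/
def row12MainN96 : Cert :=
  .splitM 76187500 row12MainN97 row12MainN98

/-- A certificate. -/
def row12MainN100 : Cert :=
  .leaf 15462574 86492297 15462575 86492298
    [(849386, 3071), (10531137, 9034), (31830988, 8944), (50000000, 7859), (68169012, 6138),
     (68250000, 6115)]

/-- A certificate. -/
def row12MainN101 : Cert :=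
  .leaf 15462574 70620665 15462575 70620666
    [(849386, 3117), (10531137, 9244), (31830988, 9328), (50000000, 8770), (68169012, 7995),
     (72178256, 7416), (76187500, 6548)]

/-- A certificate. -/
def row12MainN99 : Cert :=
  .splitM 76187500 row12MainN100 row12MainN101

/-- A certificate. -/
def row12MainN95 : Cert :=
  .splitC 761051 row12MainN96 row12MainN99

/-- A certificate. -/
def row12MainN104 : Cert :=
  .leaf 14537547 49936351 14537548 49936352
    [(761051, 3345), (10470406, 9475), (31830988, 9639), (50000000, 9417), (68169012, 9135),
     (76147006, 8627), (84125000, 7481)]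

/-- A certificate. -/
def row12MainN106 : Cert :=
  .leaf 14537547 35310332 14537548 35310333
    [(761051, 3372), (10470406, 9568), (31830988, 9769), (50000000, 9675), (68169012, 9562),
     (80115756, 9152), (92062500, 7240)]

/-- A certificate. -/
def row12MainN107 : Cert :=
  .leaf 14537547 0 14537548 0
    [(761051, 3429), (4213266, 9227), (19172866, 9883), (31830988, 9950), (41251957, 9962),
     (58748043, 9981), (68169012, 9989), (75392555, 9991), (88807707, 9996),
     (96031250, 9998)]

/-- A certificate. -/
def row12MainN105 : Cert :=
  .splitM 96031250 row12MainN106 row12MainN107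

/-- A certificate. -/
def row12MainN103 : Cert :=
  .splitM 92062500 row12MainN104 row12MainN105

/-- A certificate. -/
def row12MainN109 : Cert :=
  .leaf 15462574 49936351 15462575 49936352
    [(849386, 3164), (10531137, 9429), (31830988, 9623), (50000000, 9402), (68169012, 9124),
     (76147006, 8616), (84125000, 7471)]

/-- A certificate. -/
def row12MainN111 : Cert :=
  .leaf 15462574 35310332 15462575 35310333
    [(849386, 3191), (10531137, 9526), (31830988, 9756), (50000000, 9663), (68169012, 9554),
     (80115756, 9144), (92062500, 7232)]

/-- A certificate. -/
def row12MainN112 : Cert :=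
  .leaf 15462574 0 15462575 0
    [(849386, 3249), (4291786, 9138), (19208854, 9867), (31830988, 9943), (41251957, 9958),
     (58748043, 9979), (68169012, 9987), (75392555, 9990), (88807707, 9995),
     (96031250, 9998)]

/-- A certificate. -/
def row12MainN110 : Cert :=
  .splitM 96031250 row12MainN111 row12MainN112

/-- A certificate. -/
def row12MainN108 : Cert :=
  .splitM 92062500 row12MainN109 row12MainN110

/-- A certificate. -/
def row12MainN102 : Cert :=
  .splitC 761051 row12MainN103 row12MainN108

/-- A certificate. -/
def row12MainN94 : Cert :=
  .splitM 84125000 row12MainN95 row12MainN102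

/-- A certificate. -/
def row12MainN115 : Cert :=
  .leaf 16335313 86492297 16335314 86492298
    [(1026056, 3942), (10652597, 8979), (31830988, 8920), (50000000, 7837),
     (68169012, 6127), (68250000, 6105)]

/-- A certificate. -/
def row12MainN116 : Cert :=
  .leaf 16335313 70620665 16335314 70620666
    [(1026056, 4005), (10652597, 9196), (31830988, 9308), (50000000, 8752),
     (68169012, 7983), (72178256, 7404), (76187500, 6537)]

/-- A certificate. -/
def row12MainN114 : Cert :=
  .splitM 76187500 row12MainN115 row12MainN116

/-- A certificate. -/
def row12MainN119 : Cert :=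
  .leaf 16335313 49936351 16335314 49936352
    [(937721, 3009), (10591867, 9384), (31830988, 9607), (50000000, 9388), (68169012, 9114),
     (76147006, 8606), (84125000, 7462)]

/-- A certificate. -/
def row12MainN121 : Cert :=
  .leaf 16335313 35310332 16335314 35310333
    [(937721, 3037), (10591867, 9484), (31830988, 9743), (50000000, 9652), (68169012, 9547),
     (80115756, 9135), (92062500, 7226)]

/-- A certificate. -/
def row12MainN122 : Cert :=
  .leaf 16335313 0 16335314 0
    [(937721, 3095), (4370306, 9050), (19244842, 9852), (31830988, 9936), (41251957, 9953),
     (58748043, 9976), (68169012, 9986), (75392555, 9989), (88807707, 9995),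
     (96031250, 9998)]

/-- A certificate. -/
def row12MainN120 : Cert :=
  .splitM 96031250 row12MainN121 row12MainN122

/-- A certificate. -/
def row12MainN118 : Cert :=
  .splitM 92062500 row12MainN119 row12MainN120

/-- A certificate. -/
def row12MainN124 : Cert :=
  .leaf 17163733 49936351 17163734 49936352
    [(1026056, 2875), (10652597, 9340), (31830988, 9591), (50000000, 9374),
     (68169012, 9105), (76147006, 8597), (84125000, 7453)]

/-- A certificate. -/
def row12MainN126 : Cert :=
  .leaf 17163733 35310332 17163734 35310333
    [(1026056, 2903), (10652597, 9444), (31830988, 9730), (50000000, 9641),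
     (68169012, 9539), (80115756, 9128), (92062500, 7219)]

/-- A certificate. -/
def row12MainN127 : Cert :=
  .leaf 17163733 0 17163734 0
    [(1026056, 2961), (4448826, 8966), (19280831, 9837), (31830988, 9930), (41251957, 9948),
     (58748043, 9974), (68169012, 9984), (75392555, 9988), (88807707, 9994),
     (96031250, 9998)]

/-- A certificate. -/
def row12MainN125 : Cert :=
  .splitM 96031250 row12MainN126 row12MainN127

/-- A certificate. -/
def row12MainN123 : Cert :=
  .splitM 92062500 row12MainN124 row12MainN125

/-- A certificate. -/
def row12MainN117 : Cert :=
  .splitC 937721 row12MainN118 row12MainN123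

/-- A certificate. -/
def row12MainN113 : Cert :=
  .splitM 84125000 row12MainN114 row12MainN117

/-- A certificate. -/
def row12MainN93 : Cert :=
  .splitC 849386 row12MainN94 row12MainN113

/-- A certificate. -/
def row12MainN131 : Cert :=
  .leaf 17953968 86492297 17953969 86492298
    [(1202725, 3626), (10774057, 8871), (31830988, 8876), (50000000, 7797),
     (68169012, 6107), (68250000, 6085)]

/-- A certificate. -/
def row12MainN132 : Cert :=
  .leaf 17953968 70620665 17953969 70620666
    [(1202725, 3690), (10774057, 9099), (31830988, 9271), (50000000, 8717),
     (68169012, 7961), (72178256, 7383), (76187500, 6518)]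

/-- A certificate. -/
def row12MainN130 : Cert :=
  .splitM 76187500 row12MainN131 row12MainN132

/-- A certificate. -/
def row12MainN134 : Cert :=
  .leaf 19438292 86492297 19438293 86492298
    [(1379395, 3374), (10895518, 8770), (31830988, 8835), (50000000, 7759),
     (68169012, 6089), (68250000, 6066)]

/-- A certificate. -/
def row12MainN135 : Cert :=
  .leaf 19438292 70620665 19438293 70620666
    [(1379395, 3439), (10895518, 9006), (31830988, 9235), (50000000, 8685),
     (68169012, 7941), (72178256, 7364), (76187500, 6500)]

/-- A certificate. -/
def row12MainN133 : Cert :=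
  .splitM 76187500 row12MainN134 row12MainN135

/-- A certificate. -/
def row12MainN129 : Cert :=
  .splitC 1202725 row12MainN130 row12MainN133

/-- A certificate. -/
def row12MainN138 : Cert :=
  .leaf 17953968 49936351 17953969 49936352
    [(1202725, 3754), (10774057, 9300), (31830988, 9577), (50000000, 9361),
     (68169012, 9096), (76147006, 8588), (84125000, 7445)]

/-- A certificate. -/
def row12MainN141 : Cert :=
  .leaf 17953968 35310332 17953969 35310333
    [(1114390, 2785), (10713327, 9404), (31830988, 9717), (50000000, 9631),
     (68169012, 9532), (80115756, 9120), (92062500, 7213)]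

/-- A certificate. -/
def row12MainN142 : Cert :=
  .leaf 17953968 0 17953969 0
    [(1114390, 2844), (4527345, 8883), (19316818, 9821), (31830988, 9923), (41251957, 9943),
     (58748043, 9971), (68169012, 9983), (75392555, 9987), (88807707, 9994),
     (96031250, 9997)]

/-- A certificate. -/
def row12MainN140 : Cert :=
  .splitM 96031250 row12MainN141 row12MainN142

/-- A certificate. -/
def row12MainN144 : Cert :=
  .leaf 18710850 35310332 18710851 35310333
    [(1202725, 2681), (10774057, 9365), (31830988, 9705), (50000000, 9621),
     (68169012, 9525), (80115756, 9113), (92062500, 7207)]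

/-- A certificate. -/
def row12MainN145 : Cert :=
  .leaf 18710850 0 18710851 0
    [(1202725, 2740), (4605865, 8802), (19352807, 9806), (31830988, 9916), (41251957, 9938),
     (58748043, 9969), (68169012, 9981), (75392555, 9985), (88807707, 9993),
     (96031250, 9997)]

/-- A certificate. -/
def row12MainN143 : Cert :=
  .splitM 96031250 row12MainN144 row12MainN145

/-- A certificate. -/
def row12MainN139 : Cert :=
  .splitC 1114390 row12MainN140 row12MainN143

/-- A certificate. -/
def row12MainN137 : Cert :=
  .splitM 92062500 row12MainN138 row12MainN139

/-- A certificate. -/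
def row12MainN147 : Cert :=
  .leaf 19438292 49936351 19438293 49936352
    [(1379395, 3503), (10895518, 9217), (31830988, 9548), (50000000, 9336),
     (68169012, 9079), (76147006, 8571), (84125000, 7429)]

/-- A certificate. -/
def row12MainN150 : Cert :=
  .leaf 19438292 35310332 19438293 35310333
    [(1291060, 2588), (10834788, 9326), (31830988, 9693), (50000000, 9611),
     (68169012, 9518), (80115756, 9107), (92062500, 7201)]

/-- A certificate. -/
def row12MainN151 : Cert :=
  .leaf 19438292 0 19438293 0
    [(1291060, 2647), (10834788, 9537), (31830988, 9909), (50000000, 9951),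
     (68169012, 9980), (82100131, 9988), (96031250, 9997)]

/-- A certificate. -/
def row12MainN149 : Cert :=
  .splitM 96031250 row12MainN150 row12MainN151

/-- A certificate. -/
def row12MainN153 : Cert :=
  .leaf 20139475 35310332 20139476 35310333
    [(1379395, 2504), (10895518, 9288), (31830988, 9681), (50000000, 9601),
     (68169012, 9512), (80115756, 9100), (92062500, 7196)]

/-- A certificate. -/
def row12MainN154 : Cert :=
  .leaf 20139475 0 20139476 0
    [(1379395, 2563), (10895518, 9504), (31830988, 9902), (50000000, 9947),
     (68169012, 9978), (82100131, 9988), (96031250, 9997)]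

/-- A certificate. -/
def row12MainN152 : Cert :=
  .splitM 96031250 row12MainN153 row12MainN154

/-- A certificate. -/
def row12MainN148 : Cert :=
  .splitC 1291060 row12MainN149 row12MainN152

/-- A certificate. -/
def row12MainN146 : Cert :=
  .splitM 92062500 row12MainN147 row12MainN148

/-- A certificate. -/
def row12MainN136 : Cert :=
  .splitC 1202725 row12MainN137 row12MainN146

/-- A certificate. -/
def row12MainN128 : Cert :=
  .splitM 84125000 row12MainN129 row12MainN136

/-- A certificate. -/
def row12MainN92 : Cert :=
  .splitC 1026056 row12MainN93 row12MainN128

/-- A certificate. -/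
def row12MainN84 : Cert :=
  .splitM 68250000 row12MainN85 row12MainN92

/-- A certificate. -/
def row12MainN158 : Cert :=
  .leaf 20817053 100000000 20817054 100000000
    [(2103911, 5211), (9810931, 7917), (24123968, 7643), (31830988, 7322), (33041473, 7143),
     (35289515, 6783), (36500000, 6574)]

/-- A certificate. -/
def row12MainN159 : Cert :=
  .leaf 20817053 99872702 20817054 99872703
    [(2103911, 5378), (9810931, 8321), (24123968, 8364), (31830988, 8229), (37157213, 7756),
     (47048775, 6636), (52375000, 5849)]

/-- A certificate. -/
def row12MainN157 : Cert :=
  .splitM 52375000 row12MainN158 row12MainN159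

/-- A certificate. -/
def row12MainN161 : Cert :=
  .leaf 25709203 100000000 25709204 100000000
    [(2828427, 4392), (10347609, 7472), (24311806, 7426), (31830988, 7176),
     (33041473, 6998), (35289515, 6642), (36500000, 6435)]

/-- A certificate. -/
def row12MainN162 : Cert :=
  .leaf 25709203 99872702 25709204 99872703
    [(2828427, 4565), (10347609, 7900), (24311806, 8152), (31830988, 8071),
     (37157213, 7598), (47048775, 6487), (52375000, 5713)]

/-- A certificate. -/
def row12MainN160 : Cert :=
  .splitM 52375000 row12MainN161 row12MainN162

/-- A certificate. -/
def row12MainN156 : Cert :=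
  .splitC 2103911 row12MainN157 row12MainN160

/-- A certificate. -/
def row12MainN168 : Cert :=
  .leaf 20817053 86492297 20817054 86492298
    [(1560524, 3201), (11020044, 8673), (31830988, 8797), (50000000, 7724),
     (68169012, 6072), (68250000, 6049)]

/-- A certificate. -/
def row12MainN169 : Cert :=
  .leaf 20817053 70620665 20817054 70620666
    [(1560524, 3267), (11020044, 8918), (31830988, 9201), (50000000, 8655),
     (68169012, 7922), (72178256, 7346), (76187500, 6484)]

/-- A certificate. -/
def row12MainN167 : Cert :=
  .splitM 76187500 row12MainN168 row12MainN169

/-- A certificate. -/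
def row12MainN170 : Cert :=
  .leaf 22141659 70620665 22141660 70620666
    [(1741653, 3088), (2333689, 5510), (3970493, 7450), (6443112, 8312), (9542592, 8717),
     (13059979, 8924), (16786321, 9037), (20512662, 9100), (24030049, 9135),
     (27129529, 9154), (29602148, 9163), (31238952, 9167), (31830988, 9168),
     (32545972, 9150), (34522693, 9098), (37508804, 9016), (41251957, 8907),
     (45499805, 8775), (50000000, 8626), (54500195, 8465), (58748043, 8303),
     (62491196, 8151), (65477307, 8024), (67454028, 7936), (68169012, 7904),
     (68250000, 7894)]

/-- A certificate. -/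
def row12MainN166 : Cert :=
  .splitC 1560524 row12MainN167 row12MainN170

/-- A certificate. -/
def row12MainN173 : Cert :=
  .leaf 20817053 49936351 20817054 49936352
    [(1560524, 3333), (11020044, 9136), (31830988, 9520), (50000000, 9312),
     (68169012, 9062), (76147006, 8554), (84125000, 7414)]

/-- A certificate. -/
def row12MainN176 : Cert :=
  .leaf 20817053 35310332 20817054 35310333
    [(1469959, 2456), (10957781, 9250), (31830988, 9669), (50000000, 9592),
     (68169012, 9505), (80115756, 9093), (92062500, 7190)]

/-- A certificate. -/
def row12MainN177 : Cert :=
  .leaf 20817053 0 20817054 0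
    [(1469959, 2516), (10957781, 9473), (31830988, 9895), (50000000, 9944),
     (68169012, 9977), (82100131, 9987), (96031250, 9997)]

/-- A certificate. -/
def row12MainN175 : Cert :=
  .splitM 96031250 row12MainN176 row12MainN177

/-- A certificate. -/
def row12MainN179 : Cert :=
  .leaf 21489561 35310332 21489562 35310333
    [(1560524, 2384), (11020044, 9212), (31830988, 9658), (50000000, 9582),
     (68169012, 9499), (80115756, 9087), (92062500, 7185)]

/-- A certificate. -/
def row12MainN180 : Cert :=
  .leaf 21489561 0 21489562 0
    [(1560524, 2444), (11020044, 9440), (31830988, 9888), (50000000, 9940),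
     (68169012, 9975), (82100131, 9986), (96031250, 9996)]

/-- A certificate. -/
def row12MainN178 : Cert :=
  .splitM 96031250 row12MainN179 row12MainN180

/-- A certificate. -/
def row12MainN174 : Cert :=
  .splitC 1469959 row12MainN175 row12MainN178

/-- A certificate. -/
def row12MainN172 : Cert :=
  .splitM 92062500 row12MainN173 row12MainN174

/-- A certificate. -/
def row12MainN182 : Cert :=
  .leaf 22141659 49936351 22141660 49936352
    [(1741653, 3154), (16786321, 9293), (31830988, 9492), (50000000, 9289),
     (68169012, 9047), (76147006, 8539), (84125000, 7400)]

/-- A certificate. -/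
def row12MainN185 : Cert :=
  .leaf 22141659 35310332 22141660 35310333
    [(1651088, 2318), (16741038, 9423), (31830988, 9646), (50000000, 9573),
     (68169012, 9493), (80115756, 9081), (92062500, 7180)]

/-- A certificate. -/
def row12MainN186 : Cert :=
  .leaf 22141659 0 22141660 0
    [(1651088, 2378), (9475507, 9277), (24006569, 9804), (31830988, 9881), (41251957, 9912),
     (58748043, 9956), (68169012, 9974), (75392555, 9980), (88807707, 9990),
     (96031250, 9996)]

/-- A certificate. -/
def row12MainN184 : Cert :=
  .splitM 96031250 row12MainN185 row12MainN186

/-- A certificate. -/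
def row12MainN188 : Cert :=
  .leaf 22775087 35310332 22775088 35310333
    [(1741653, 2258), (16786321, 9399), (31830988, 9634), (50000000, 9564),
     (68169012, 9487), (80115756, 9075), (92062500, 7175)]

/-- A certificate. -/
def row12MainN189 : Cert :=
  .leaf 22775087 0 22775088 0
    [(1741653, 2318), (9542592, 9239), (24030049, 9792), (31830988, 9874), (41251957, 9907),
     (58748043, 9954), (68169012, 9972), (75392555, 9978), (88807707, 9990),
     (96031250, 9996)]

/-- A certificate. -/
def row12MainN187 : Cert :=
  .splitM 96031250 row12MainN188 row12MainN189

/-- A certificate. -/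
def row12MainN183 : Cert :=
  .splitC 1651088 row12MainN184 row12MainN187

/-- A certificate. -/
def row12MainN181 : Cert :=
  .splitM 92062500 row12MainN182 row12MainN183

/-- A certificate. -/
def row12MainN171 : Cert :=
  .splitC 1560524 row12MainN172 row12MainN181

/-- A certificate. -/
def row12MainN165 : Cert :=
  .splitM 84125000 row12MainN166 row12MainN171

/-- A certificate. -/
def row12MainN191 : Cert :=
  .leaf 23391375 70620665 23391376 70620666
    [(2103911, 3967), (3381246, 6653), (6748767, 8214), (11509744, 8761), (16967449, 8980),
     (22425155, 9075), (27186132, 9116), (30553653, 9132), (31830988, 9136),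
     (33392387, 9096), (37508804, 8985), (43328566, 8814), (50000000, 8598),
     (56671434, 8359), (62491196, 8130), (66607613, 7956), (68169012, 7887),
     (68250000, 7877)]

/-- A certificate. -/
def row12MainN194 : Cert :=
  .leaf 23391375 49936351 23391376 49936352
    [(1922782, 3001), (16876885, 9240), (31830988, 9466), (50000000, 9267),
     (68169012, 9032), (76147006, 8524), (84125000, 7386)]

/-- A certificate. -/
def row12MainN197 : Cert :=
  .leaf 23391375 35310332 23391376 35310333
    [(1832217, 2202), (16831603, 9375), (31830988, 9623), (50000000, 9555),
     (68169012, 9481), (80115756, 9069), (92062500, 7170)]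

/-- A certificate. -/
def row12MainN198 : Cert :=
  .leaf 23391375 0 23391376 0
    [(1832217, 2262), (9609676, 9201), (24053529, 9781), (31830988, 9867), (41251957, 9901),
     (58748043, 9951), (68169012, 9971), (75392555, 9977), (88807707, 9989),
     (96031250, 9996)]

/-- A certificate. -/
def row12MainN196 : Cert :=
  .splitM 96031250 row12MainN197 row12MainN198

/-- A certificate. -/
def row12MainN200 : Cert :=
  .leaf 23991830 35310332 23991831 35310333
    [(1922782, 2150), (16876885, 9351), (31830988, 9611), (50000000, 9546),
     (68169012, 9475), (80115756, 9063), (92062500, 7165)]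

/-- A certificate. -/
def row12MainN201 : Cert :=
  .leaf 23991830 0 23991831 0
    [(1922782, 2210), (9676761, 9163), (24077009, 9769), (31830988, 9860), (41251957, 9896),
     (58748043, 9949), (68169012, 9969), (75392555, 9976), (88807707, 9989),
     (96031250, 9996)]

/-- A certificate. -/
def row12MainN199 : Cert :=
  .splitM 96031250 row12MainN200 row12MainN201

/-- A certificate. -/
def row12MainN195 : Cert :=
  .splitC 1832217 row12MainN196 row12MainN199

/-- A certificate. -/
def row12MainN193 : Cert :=
  .splitM 92062500 row12MainN194 row12MainN195

/-- A certificate. -/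
def row12MainN203 : Cert :=
  .leaf 24577627 49936351 24577628 49936352
    [(2103911, 2868), (16967449, 9188), (31830988, 9440), (50000000, 9245),
     (68169012, 9018), (76147006, 8510), (84125000, 7373)]

/-- A certificate. -/
def row12MainN206 : Cert :=
  .leaf 24577627 35310332 24577628 35310333
    [(2013346, 2101), (16922167, 9327), (31830988, 9600), (50000000, 9537),
     (68169012, 9469), (80115756, 9057), (92062500, 7160)]

/-- A certificate. -/
def row12MainN207 : Cert :=
  .leaf 24577627 0 24577628 0
    [(2013346, 2162), (9743846, 9126), (24100488, 9758), (31830988, 9853), (41251957, 9891),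
     (58748043, 9946), (68169012, 9968), (75392555, 9975), (88807707, 9988),
     (96031250, 9996)]

/-- A certificate. -/
def row12MainN205 : Cert :=
  .splitM 96031250 row12MainN206 row12MainN207

/-- A certificate. -/
def row12MainN209 : Cert :=
  .leaf 25149777 35310332 25149778 35310333
    [(2103911, 2056), (16967449, 9303), (31830988, 9589), (50000000, 9528),
     (68169012, 9464), (80115756, 9051), (92062500, 7155)]

/-- A certificate. -/
def row12MainN210 : Cert :=
  .leaf 25149777 0 25149778 0
    [(2103911, 2116), (9810931, 9089), (24123968, 9746), (31830988, 9845), (41251957, 9885),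
     (58748043, 9943), (68169012, 9966), (75392555, 9974), (88807707, 9988),
     (96031250, 9995)]

/-- A certificate. -/
def row12MainN208 : Cert :=
  .splitM 96031250 row12MainN209 row12MainN210

/-- A certificate. -/
def row12MainN204 : Cert :=
  .splitC 2013346 row12MainN205 row12MainN208

/-- A certificate. -/
def row12MainN202 : Cert :=
  .splitM 92062500 row12MainN203 row12MainN204

/-- A certificate. -/
def row12MainN192 : Cert :=
  .splitC 1922782 row12MainN193 row12MainN202

/-- A certificate. -/
def row12MainN190 : Cert :=
  .splitM 84125000 row12MainN191 row12MainN192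

/-- A certificate. -/
def row12MainN164 : Cert :=
  .splitC 1741653 row12MainN165 row12MainN190

/-- A certificate. -/
def row12MainN212 : Cert :=
  .leaf 25709203 70620665 25709204 70620666
    [(2828427, 4827), (4976765, 7238), (10347609, 8479), (17329707, 8871), (24311806, 9012),
     (29682650, 9063), (31830988, 9075), (34522693, 9006), (41251957, 8818),
     (50000000, 8545), (58748043, 8235), (65477307, 7969), (68169012, 7855),
     (68250000, 7845)]

/-- A certificate. -/
def row12MainN215 : Cert :=
  .leaf 25709203 49936351 25709204 49936352
    [(2466169, 3747), (17148579, 9141), (31830988, 9414), (50000000, 9224),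
     (68169012, 9004), (76147006, 8496), (84125000, 7361)]

/-- A certificate. -/
def row12MainN218 : Cert :=
  .leaf 25709203 35310332 25709204 35310333
    [(2285040, 2791), (17058014, 9282), (31830988, 9577), (50000000, 9520),
     (68169012, 9458), (80115756, 9046), (92062500, 7151)]

/-- A certificate. -/
def row12MainN219 : Cert :=
  .leaf 25709203 0 25709204 0
    [(2285040, 2875), (17058014, 9547), (31830988, 9838), (50000000, 9913),
     (68169012, 9964), (82100131, 9980), (96031250, 9995)]

/-- A certificate. -/
def row12MainN217 : Cert :=
  .splitM 96031250 row12MainN218 row12MainN219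

/-- A certificate. -/
def row12MainN220 : Cert :=
  .leaf 26793030 0 26793031 0
    [(2466169, 2772), (3043949, 5108), (4641341, 7287), (7054422, 8407), (10079270, 8988),
     (13511963, 9314), (17148579, 9508), (20785194, 9631), (24217887, 9712),
     (27242735, 9764), (29655816, 9798), (31253208, 9817), (31830988, 9823),
     (32545972, 9827), (34522693, 9837), (37508804, 9852), (41251957, 9869),
     (45499805, 9887), (50000000, 9905), (54500195, 9921), (58748043, 9935),
     (62491196, 9946), (65477307, 9955), (67454028, 9960), (68169012, 9961),
     (68639138, 9962), (69938900, 9963), (71902370, 9966), (74363620, 9969),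
     (77156724, 9972), (80115756, 9976), (83074788, 9979), (85867892, 9983),
     (88329142, 9986), (90292612, 9988), (91592374, 9989), (92062500, 9990)]

/-- A certificate. -/
def row12MainN216 : Cert :=
  .splitC 2285040 row12MainN217 row12MainN220

/-- A certificate. -/
def row12MainN214 : Cert :=
  .splitM 92062500 row12MainN215 row12MainN216

/-- A certificate. -/
def row12MainN222 : Cert :=
  .leaf 27834687 49936351 27834688 49936352
    [(2828427, 3499), (17329707, 9042), (31830988, 9364), (50000000, 9184),
     (68169012, 8977), (76147006, 8470), (84125000, 7337)]

/-- A certificate. -/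
def row12MainN223 : Cert :=
  .leaf 27834687 0 27834688 0
    [(2828427, 3668), (4976765, 7277), (10347609, 8936), (17329707, 9475), (24311806, 9689),
     (29682650, 9781), (31830988, 9808), (34522693, 9823), (41251957, 9858),
     (50000000, 9897), (58748043, 9930), (65477307, 9951), (68169012, 9958),
     (69938900, 9960), (74363620, 9966), (80115756, 9974), (85867892, 9981),
     (90292612, 9987), (92062500, 9989)]

/-- A certificate. -/
def row12MainN221 : Cert :=
  .splitM 92062500 row12MainN222 row12MainN223

/-- A certificate. -/
def row12MainN213 : Cert :=
  .splitC 2466169 row12MainN214 row12MainN221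

/-- A certificate. -/
def row12MainN211 : Cert :=
  .splitM 84125000 row12MainN212 row12MainN213

/-- A certificate. -/
def row12MainN163 : Cert :=
  .splitC 2103911 row12MainN164 row12MainN211

/-- A certificate. -/
def row12MainN155 : Cert :=
  .splitM 68250000 row12MainN156 row12MainN163

/-- A certificate. -/
def row12MainN83 : Cert :=
  .splitC 1379395 row12MainN84 row12MainN155

/-- A certificate. -/
def row12MainN1 : Cert :=
  .splitC 672717 row12MainN2 row12MainN83

/-- A certificate. -/
def row12MainN229 : Cert :=
  .leaf 29809001 100000000 29809002 100000000
    [(4314034, 4985), (4453370, 5128), (4855456, 5475), (5496403, 5887), (6352327, 6269),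
     (7399341, 6585), (8613558, 6828), (9971093, 7007), (11448059, 7134), (13020570, 7220),
     (14664740, 7273), (16356682, 7302), (18072511, 7311), (19788340, 7306),
     (21480282, 7289), (23124452, 7265), (24696963, 7236), (26173929, 7205),
     (27531464, 7172), (28745681, 7141), (29792695, 7112), (30648619, 7087),
     (31289566, 7068), (31691652, 7056), (31830988, 7052), (31868427, 7047),
     (31975299, 7031), (32143435, 7007), (32364667, 6975), (32630826, 6936),
     (32933743, 6891), (33265251, 6842), (33617179, 6788), (33981361, 6732),
     (34349627, 6674), (34713809, 6616), (35065737, 6559), (35397245, 6505),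
     (35700162, 6454), (35966321, 6409), (36187553, 6372), (36355689, 6343),
     (36462561, 6324), (36500000, 6318)]

/-- A certificate. -/
def row12MainN230 : Cert :=
  .leaf 29809001 99872702 29809002 99872703
    [(4314034, 5220), (11448059, 7590), (24696963, 7967), (31830988, 7934),
     (37157213, 7461), (47048775, 6360), (52375000, 5596)]

/-- A certificate. -/
def row12MainN228 : Cert :=
  .splitM 52375000 row12MainN229 row12MainN230

/-- A certificate. -/
def row12MainN233 : Cert :=
  .leaf 36814314 100000000 36814315 100000000
    [(5799642, 3982), (18815315, 6309), (31830988, 5980), (34165494, 5453),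
     (36500000, 4841)]

/-- A certificate. -/
def row12MainN234 : Cert :=
  .leaf 36814314 100000000 36814315 100000000
    [(5799642, 4184), (18815315, 6868), (31830988, 6835), (38134244, 5825),
     (44437500, 4447)]

/-- A certificate. -/
def row12MainN232 : Cert :=
  .splitM 44437500 row12MainN233 row12MainN234

/-- A certificate. -/
def row12MainN235 : Cert :=
  .leaf 36814314 99872702 36814315 99872703
    [(5799642, 4424), (12548509, 6984), (25082121, 7637), (31830988, 7687),
     (37157213, 7218), (47048775, 6135), (52375000, 5392)]

/-- A certificate. -/
def row12MainN231 : Cert :=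
  .splitM 52375000 row12MainN232 row12MainN235

/-- A certificate. -/
def row12MainN227 : Cert :=
  .splitC 4314034 row12MainN228 row12MainN231

/-- A certificate. -/
def row12MainN239 : Cert :=
  .leaf 29809001 70620665 29809002 70620666
    [(3571230, 4336), (10897834, 8155), (24504384, 8859), (31830988, 8961),
     (41251957, 8711), (58748043, 8154), (68169012, 7797), (68250000, 7787)]

/-- A certificate. -/
def row12MainN242 : Cert :=
  .leaf 29809001 49936351 29809002 49936352
    [(3199828, 3333), (17515408, 8947), (31830988, 9315), (50000000, 9145),
     (68169012, 8952), (76147006, 8446), (84125000, 7315)]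

/-- A certificate. -/
def row12MainN243 : Cert :=
  .leaf 29809001 0 29809002 0
    [(3199828, 3504), (7673447, 8168), (17515408, 9400), (27357369, 9706), (31830988, 9778),
     (37508804, 9814), (50000000, 9881), (62491196, 9933), (68169012, 9952),
     (71902370, 9957), (80115756, 9970), (88329142, 9982), (92062500, 9988)]

/-- A certificate. -/
def row12MainN241 : Cert :=
  .splitM 92062500 row12MainN242 row12MainN243

/-- A certificate. -/
def row12MainN245 : Cert :=
  .leaf 31705766 49936351 31705767 49936352
    [(3571230, 3157), (17701109, 8852), (31830988, 9267), (50000000, 9106),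
     (68169012, 8928), (76147006, 8422), (84125000, 7294)]

/-- A certificate. -/
def row12MainN246 : Cert :=
  .leaf 31705766 0 31705767 0
    [(3571230, 3329), (7986817, 7987), (17701109, 9323), (27415401, 9666), (31830988, 9747),
     (37508804, 9788), (50000000, 9864), (62491196, 9924), (68169012, 9945),
     (71902370, 9951), (80115756, 9965), (88329142, 9980), (92062500, 9986)]

/-- A certificate. -/
def row12MainN244 : Cert :=
  .splitM 92062500 row12MainN245 row12MainN246

/-- A certificate. -/
def row12MainN240 : Cert :=
  .splitC 3199828 row12MainN241 row12MainN244

/-- A certificate. -/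
def row12MainN238 : Cert :=
  .splitM 84125000 row12MainN239 row12MainN240

/-- A certificate. -/
def row12MainN248 : Cert :=
  .leaf 33495298 70620665 33495299 70620666
    [(4314034, 3939), (11448059, 7853), (24696963, 8712), (31830988, 8852),
     (41251957, 8609), (58748043, 8079), (68169012, 7744), (68250000, 7734)]

/-- A certificate. -/
def row12MainN251 : Cert :=
  .leaf 33495298 49936351 33495299 49936352
    [(3942632, 3007), (17886810, 8759), (31830988, 9218), (50000000, 9069),
     (68169012, 8905), (76147006, 8399), (84125000, 7273)]

/-- A certificate. -/
def row12MainN252 : Cert :=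
  .leaf 33495298 0 33495299 0
    [(3942632, 3180), (11172947, 8536), (24600673, 9545), (31830988, 9715),
     (41251957, 9789), (58748043, 9896), (68169012, 9938), (74363620, 9950),
     (85867892, 9972), (92062500, 9984)]

/-- A certificate. -/
def row12MainN250 : Cert :=
  .splitM 92062500 row12MainN251 row12MainN252

/-- A certificate. -/
def row12MainN254 : Cert :=
  .leaf 35193953 49936351 35193954 49936352
    [(4314034, 2878), (18072511, 8669), (31830988, 9171), (50000000, 9033),
     (68169012, 8882), (76147006, 8377), (84125000, 7254)]

/-- A certificate. -/
def row12MainN255 : Cert :=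
  .leaf 35193953 0 35193954 0
    [(4314034, 3051), (11448059, 8410), (24696963, 9496), (31830988, 9683),
     (41251957, 9765), (58748043, 9885), (68169012, 9931), (74363620, 9945),
     (85867892, 9969), (92062500, 9983)]

/-- A certificate. -/
def row12MainN253 : Cert :=
  .splitM 92062500 row12MainN254 row12MainN255

/-- A certificate. -/
def row12MainN249 : Cert :=
  .splitC 3942632 row12MainN250 row12MainN253

/-- A certificate. -/
def row12MainN247 : Cert :=
  .splitM 84125000 row12MainN248 row12MainN249

/-- A certificate. -/
def row12MainN237 : Cert :=
  .splitC 3571230 row12MainN238 row12MainN247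

/-- A certificate. -/
def row12MainN257 : Cert :=
  .leaf 36814314 70620665 36814315 70620666
    [(5799642, 4801), (18815315, 8293), (31830988, 8746), (50000000, 8273),
     (68169012, 7695), (68250000, 7685)]

/-- A certificate. -/
def row12MainN260 : Cert :=
  .leaf 36814314 49936351 36814315 49936352
    [(5056838, 3764), (18443913, 8593), (31830988, 9124), (50000000, 8997),
     (68169012, 8860), (76147006, 8355), (84125000, 7235)]

/-- A certificate. -/
def row12MainN261 : Cert :=
  .leaf 36814314 0 36814315 0
    [(5056838, 4001), (11998284, 8341), (24889542, 9450), (31830988, 9649),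
     (41251957, 9741), (58748043, 9873), (68169012, 9924), (74363620, 9939),
     (85867892, 9966), (92062500, 9981)]

/-- A certificate. -/
def row12MainN259 : Cert :=
  .splitM 92062500 row12MainN260 row12MainN261

/-- A certificate. -/
def row12MainN263 : Cert :=
  .leaf 39857903 49936351 39857904 49936352
    [(5799642, 3525), (18815315, 8422), (31830988, 9030), (50000000, 8927),
     (68169012, 8817), (76147006, 8314), (84125000, 7198)]

/-- A certificate. -/
def row12MainN264 : Cert :=
  .leaf 39857903 0 39857904 0
    [(5799642, 3763), (18815315, 8963), (31830988, 9581), (50000000, 9777),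
     (68169012, 9910), (80115756, 9944), (92062500, 9977)]

/-- A certificate. -/
def row12MainN262 : Cert :=
  .splitM 92062500 row12MainN263 row12MainN264

/-- A certificate. -/
def row12MainN258 : Cert :=
  .splitC 5056838 row12MainN259 row12MainN262

/-- A certificate. -/
def row12MainN256 : Cert :=
  .splitM 84125000 row12MainN257 row12MainN258

/-- A certificate. -/
def row12MainN236 : Cert :=
  .splitC 4314034 row12MainN237 row12MainN256

/-- A certificate. -/
def row12MainN226 : Cert :=
  .splitM 68250000 row12MainN227 row12MainN236

/-- A certificate. -/
def row12MainN270 : Cert :=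
  .leaf 42685023 100000000 42685024 100000000
    [(7322749, 3491), (19576869, 5934), (31830988, 5822), (34165494, 5305),
     (36500000, 4707)]

/-- A certificate. -/
def row12MainN271 : Cert :=
  .leaf 42685023 100000000 42685024 100000000
    [(7322749, 3700), (19576869, 6493), (31830988, 6646), (38134244, 5654),
     (44437500, 4310)]

/-- A certificate. -/
def row12MainN269 : Cert :=
  .splitM 44437500 row12MainN270 row12MainN271

/-- A certificate. -/
def row12MainN273 : Cert :=
  .leaf 47963626 100000000 47963627 100000000
    [(8845856, 3111), (20338422, 5602), (31830988, 5676), (34165494, 5170),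
     (36500000, 4584)]

/-- A certificate. -/
def row12MainN274 : Cert :=
  .leaf 47963626 100000000 47963627 100000000
    [(8845856, 3321), (20338422, 6155), (31830988, 6467), (38134244, 5494),
     (44437500, 4182)]

/-- A certificate. -/
def row12MainN272 : Cert :=
  .splitM 44437500 row12MainN273 row12MainN274

/-- A certificate. -/
def row12MainN268 : Cert :=
  .splitC 7322749 row12MainN269 row12MainN272

/-- A certificate. -/
def row12MainN276 : Cert :=
  .leaf 42685023 99872702 42685024 99872703
    [(7322749, 3941), (13676737, 6484), (25477000, 7345), (31830988, 7466),
     (37157213, 7001), (47048775, 5938), (52375000, 5213)]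

/-- A certificate. -/
def row12MainN277 : Cert :=
  .leaf 47963626 99872702 47963627 99872703
    [(8845856, 3560), (14804964, 6042), (25871880, 7069), (31830988, 7252),
     (37157213, 6793), (47048775, 5750), (52375000, 5043)]

/-- A certificate. -/
def row12MainN275 : Cert :=
  .splitC 7322749 row12MainN276 row12MainN277

/-- A certificate. -/
def row12MainN267 : Cert :=
  .splitM 52375000 row12MainN268 row12MainN275

/-- A certificate. -/
def row12MainN280 : Cert :=
  .leaf 52716293 100000000 52716294 100000000
    [(11892070, 3708), (21861529, 5351), (31830988, 5539), (34165494, 5042),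
     (36500000, 4469)]

/-- A certificate. -/
def row12MainN281 : Cert :=
  .leaf 52716293 100000000 52716294 100000000
    [(11892070, 3998), (21861529, 5909), (31830988, 6296), (38134244, 5342),
     (44437500, 4062)]

/-- A certificate. -/
def row12MainN279 : Cert :=
  .splitM 44437500 row12MainN280 row12MainN281

/-- A certificate. -/
def row12MainN283 : Cert :=
  .leaf 52716293 99872702 52716294 99872703
    [(10368963, 3275), (13722404, 5071), (21099975, 6416), (28477547, 6917),
     (31830988, 7045), (35040990, 6779), (42102994, 6116), (49164998, 5312),
     (52375000, 4882)]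

/-- A certificate. -/
def row12MainN284 : Cert :=
  .leaf 57074563 99872702 57074564 99872703
    [(11892070, 3054), (12284387, 3369), (13369027, 4036), (15007526, 4728),
     (17061419, 5313), (19392242, 5770), (21861529, 6115), (24330816, 6369),
     (26661639, 6554), (28715532, 6684), (30354031, 6772), (31438671, 6823),
     (31830988, 6840), (32235210, 6808), (33352767, 6718), (35040990, 6578),
     (37157213, 6394), (39558770, 6174), (42102994, 5927), (44647218, 5662),
     (47048775, 5395), (49164998, 5143), (50853221, 4928), (51970778, 4780),
     (52375000, 4724)]

/-- A certificate. -/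
def row12MainN282 : Cert :=
  .splitC 10368963 row12MainN283 row12MainN284

/-- A certificate. -/
def row12MainN278 : Cert :=
  .splitM 52375000 row12MainN279 row12MainN282

/-- A certificate. -/
def row12MainN266 : Cert :=
  .splitC 8845856 row12MainN267 row12MainN278

/-- A certificate. -/
def row12MainN288 : Cert :=
  .leaf 42685023 70620665 42685024 70620666
    [(7322749, 4332), (19576869, 7947), (31830988, 8543), (50000000, 8113),
     (68169012, 7605), (68250000, 7595)]

/-- A certificate. -/
def row12MainN291 : Cert :=
  .leaf 42685023 49936351 42685024 49936352
    [(6561195, 3367), (19196091, 8256), (31830988, 8936), (50000000, 8858),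
     (68169012, 8776), (76147006, 8275), (84125000, 7164)]

/-- A certificate. -/
def row12MainN292 : Cert :=
  .leaf 42685023 0 42685024 0
    [(6561195, 3609), (19196091, 8818), (31830988, 9510), (50000000, 9739),
     (68169012, 9895), (80115756, 9934), (92062500, 9974)]

/-- A certificate. -/
def row12MainN290 : Cert :=
  .splitM 92062500 row12MainN291 row12MainN292

/-- A certificate. -/
def row12MainN294 : Cert :=
  .leaf 45401103 49936351 45401104 49936352
    [(7322749, 3200), (19576869, 8090), (31830988, 8840), (50000000, 8788),
     (68169012, 8735), (76147006, 8236), (84125000, 7130)]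

/-- A certificate. -/
def row12MainN295 : Cert :=
  .leaf 45401103 0 45401104 0
    [(7322749, 3443), (19576869, 8670), (31830988, 9435), (50000000, 9700),
     (68169012, 9879), (80115756, 9925), (92062500, 9970)]

/-- A certificate. -/
def row12MainN293 : Cert :=
  .splitM 92062500 row12MainN294 row12MainN295

/-- A certificate. -/
def row12MainN289 : Cert :=
  .splitC 6561195 row12MainN290 row12MainN293

/-- A certificate. -/
def row12MainN287 : Cert :=
  .splitM 84125000 row12MainN288 row12MainN289

/-- A certificate. -/
def row12MainN297 : Cert :=
  .leaf 47963626 70620665 47963627 70620666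
    [(8845856, 3957), (20338422, 7615), (31830988, 8338), (50000000, 7958),
     (68169012, 7520), (68250000, 7510)]

/-- A certificate. -/
def row12MainN300 : Cert :=
  .leaf 47963626 49936351 47963627 49936352
    [(8084302, 3058), (19957645, 7928), (31830988, 8743), (50000000, 8719),
     (68169012, 8695), (76147006, 8198), (84125000, 7097)]

/-- A certificate. -/
def row12MainN301 : Cert :=
  .leaf 47963626 0 47963627 0
    [(8084302, 3301), (19957645, 8522), (31830988, 9356), (50000000, 9659),
     (68169012, 9863), (80115756, 9914), (92062500, 9966)]

/-- A certificate. -/
def row12MainN299 : Cert :=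
  .splitM 92062500 row12MainN300 row12MainN301

/-- A certificate. -/
def row12MainN303 : Cert :=
  .leaf 50396015 49936351 50396016 49936352
    [(8845856, 2936), (20338422, 7768), (31830988, 8644), (50000000, 8650),
     (68169012, 8656), (76147006, 8161), (84125000, 7064)]

/-- A certificate. -/
def row12MainN304 : Cert :=
  .leaf 50396015 0 50396016 0
    [(8845856, 3180), (20338422, 8375), (31830988, 9275), (50000000, 9616),
     (68169012, 9846), (80115756, 9904), (92062500, 9961)]

/-- A certificate. -/
def row12MainN302 : Cert :=
  .splitM 92062500 row12MainN303 row12MainN304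

/-- A certificate. -/
def row12MainN298 : Cert :=
  .splitC 8084302 row12MainN299 row12MainN302

/-- A certificate. -/
def row12MainN296 : Cert :=
  .splitM 84125000 row12MainN297 row12MainN298

/-- A certificate. -/
def row12MainN286 : Cert :=
  .splitC 7322749 row12MainN287 row12MainN296

/-- A certificate. -/
def row12MainN306 : Cert :=
  .leaf 52716293 70620665 52716294 70620666
    [(11892070, 4853), (21861529, 7392), (31830988, 8133), (50000000, 7805),
     (68169012, 7439), (68250000, 7429)]

/-- A certificate. -/
def row12MainN309 : Cert :=
  .leaf 52716293 49936351 52716294 49936352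
    [(10368963, 3854), (21099975, 7663), (31830988, 8544), (50000000, 8581),
     (68169012, 8617), (76147006, 8124), (84125000, 7033)]

/-- A certificate. -/
def row12MainN310 : Cert :=
  .leaf 52716293 0 52716294 0
    [(10368963, 4185), (21099975, 8281), (31830988, 9190), (50000000, 9572),
     (68169012, 9829), (80115756, 9893), (92062500, 9957)]

/-- A certificate. -/
def row12MainN308 : Cert :=
  .splitM 92062500 row12MainN309 row12MainN310

/-- A certificate. -/
def row12MainN312 : Cert :=
  .leaf 57074563 49936351 57074564 49936352
    [(11892070, 3635), (21861529, 7363), (31830988, 8338), (50000000, 8441),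
     (68169012, 8540), (76147006, 8052), (84125000, 6971)]

/-- A certificate. -/
def row12MainN313 : Cert :=
  .leaf 57074563 0 57074564 0
    [(11892070, 3968), (21861529, 7997), (31830988, 9008), (50000000, 9479),
     (68169012, 9792), (80115756, 9870), (92062500, 9948)]

/-- A certificate. -/
def row12MainN311 : Cert :=
  .splitM 92062500 row12MainN312 row12MainN313

/-- A certificate. -/
def row12MainN307 : Cert :=
  .splitC 10368963 row12MainN308 row12MainN311

/-- A certificate. -/
def row12MainN305 : Cert :=
  .splitM 84125000 row12MainN306 row12MainN307

/-- A certificate. -/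
def row12MainN285 : Cert :=
  .splitC 8845856 row12MainN286 row12MainN305

/-- A certificate. -/
def row12MainN265 : Cert :=
  .splitM 68250000 row12MainN266 row12MainN285

/-- A certificate. -/
def row12MainN225 : Cert :=
  .splitC 5799642 row12MainN226 row12MainN265

/-- A certificate. -/
def row12MainN320 : Cert :=
  .leaf 61122859 100000000 61122860 100000000
    [(15015175, 3291), (23423081, 4875), (31830988, 5277), (34165494, 4799),
     (36500000, 4250)]

/-- A certificate. -/
def row12MainN322 : Cert :=
  .leaf 61122859 100000000 61122860 100000000
    [(13453622, 2686), (18218124, 4593), (27066486, 5711), (31830988, 5963),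
     (35099343, 5516), (41169145, 4512), (44437500, 3829)]

/-- A certificate. -/
def row12MainN324 : Cert :=
  .leaf 65012152 100000000 65012153 100000000
    [(15015175, 2457), (23423081, 4855), (31830988, 5516), (38134244, 4416),
     (44437500, 2790)]

/-- A certificate. -/
def row12MainN325 : Cert :=
  .leaf 65012152 100000000 65012153 100000000
    [(15015175, 2547), (23423081, 5063), (31830988, 5790), (40118619, 4563),
     (48406250, 2647)]

/-- A certificate. -/
def row12MainN323 : Cert :=
  .splitM 48406250 row12MainN324 row12MainN325

/-- A certificate. -/
def row12MainN321 : Cert :=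
  .splitC 13453622 row12MainN322 row12MainN323

/-- A certificate. -/
def row12MainN319 : Cert :=
  .splitM 44437500 row12MainN320 row12MainN321

/-- A certificate. -/
def row12MainN328 : Cert :=
  .leaf 68681557 100000000 68681558 100000000
    [(18138281, 2774), (24984635, 4064), (31830988, 4486), (34165494, 3861),
     (36500000, 3086)]

/-- A certificate. -/
def row12MainN329 : Cert :=
  .leaf 68681557 100000000 68681558 100000000
    [(18138281, 3001), (24984635, 4460), (31830988, 5003), (36149869, 4106),
     (40468750, 2875)]

/-- A certificate. -/
def row12MainN327 : Cert :=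
  .splitM 40468750 row12MainN328 row12MainN329

/-- A certificate. -/
def row12MainN332 : Cert :=
  .leaf 68681557 100000000 68681558 100000000
    [(16576728, 2348), (24203858, 4627), (31830988, 5354), (38134244, 4282),
     (44437500, 2703)]

/-- A certificate. -/
def row12MainN333 : Cert :=
  .leaf 68681557 100000000 68681558 100000000
    [(16576728, 2436), (24203858, 4823), (31830988, 5610), (40118619, 4415),
     (48406250, 2557)]

/-- A certificate. -/
def row12MainN331 : Cert :=
  .splitM 48406250 row12MainN332 row12MainN333

/-- A certificate. -/
def row12MainN335 : Cert :=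
  .leaf 72164622 100000000 72164623 100000000
    [(18138281, 2262), (24984635, 4409), (31830988, 5185), (38134244, 4142),
     (44437500, 2611)]

/-- A certificate. -/
def row12MainN336 : Cert :=
  .leaf 72164622 100000000 72164623 100000000
    [(18138281, 2346), (24984635, 4591), (31830988, 5421), (40118619, 4260),
     (48406250, 2465)]

/-- A certificate. -/
def row12MainN334 : Cert :=
  .splitM 48406250 row12MainN335 row12MainN336

/-- A certificate. -/
def row12MainN330 : Cert :=
  .splitC 16576728 row12MainN331 row12MainN334

/-- A certificate. -/
def row12MainN326 : Cert :=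
  .splitM 44437500 row12MainN327 row12MainN330

/-- A certificate. -/
def row12MainN318 : Cert :=
  .splitC 15015175 row12MainN319 row12MainN326

/-- A certificate. -/
def row12MainN339 : Cert :=
  .leaf 61122859 100000000 61122860 100000000
    [(15015175, 3764), (23423081, 5716), (31830988, 6364), (42102994, 5206),
     (52375000, 3512)]

/-- A certificate. -/
def row12MainN340 : Cert :=
  .leaf 61122859 99872702 61122860 99872703
    [(15015175, 3890), (23423081, 5933), (31830988, 6633), (46071744, 5328),
     (60312500, 3295)]

/-- A certificate. -/
def row12MainN338 : Cert :=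
  .splitM 60312500 row12MainN339 row12MainN340

/-- A certificate. -/
def row12MainN342 : Cert :=
  .leaf 68681557 100000000 68681558 100000000
    [(18138281, 3454), (24984635, 5218), (31830988, 5958), (42102994, 4857),
     (52375000, 3267)]

/-- A certificate. -/
def row12MainN343 : Cert :=
  .leaf 68681557 99872702 68681558 99872703
    [(18138281, 3570), (24984635, 5407), (31830988, 6190), (46071744, 4951),
     (60312500, 3054)]

/-- A certificate. -/
def row12MainN341 : Cert :=
  .splitM 60312500 row12MainN342 row12MainN343

/-- A certificate. -/
def row12MainN337 : Cert :=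
  .splitC 15015175 row12MainN338 row12MainN341

/-- A certificate. -/
def row12MainN317 : Cert :=
  .splitM 52375000 row12MainN318 row12MainN337

/-- A certificate. -/
def row12MainN348 : Cert :=
  .leaf 75487144 100000000 75487145 100000000
    [(21261387, 2600), (26546187, 3734), (31830988, 4250), (34165494, 3655),
     (36500000, 2919)]

/-- A certificate. -/
def row12MainN349 : Cert :=
  .leaf 75487144 100000000 75487145 100000000
    [(21261387, 2825), (26546187, 4092), (31830988, 4703), (36149869, 3853),
     (40468750, 2694)]

/-- A certificate. -/
def row12MainN347 : Cert :=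
  .splitM 40468750 row12MainN348 row12MainN349

/-- A certificate. -/
def row12MainN351 : Cert :=
  .leaf 81727973 100000000 81727974 100000000
    [(24384493, 2520), (28107741, 3438), (31830988, 3969), (34165494, 3410),
     (36500000, 2721)]

/-- A certificate. -/
def row12MainN354 : Cert :=
  .leaf 81727973 100000000 81727974 100000000
    [(22822940, 1935), (27326964, 3452), (31830988, 4180), (36149869, 3251),
     (40468750, 1841)]

/-- A certificate. -/
def row12MainN355 : Cert :=
  .leaf 81727973 100000000 81727974 100000000
    [(22822940, 2003), (27326964, 3581), (31830988, 4346), (37142056, 3342),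
     (42453125, 1761)]

/-- A certificate. -/
def row12MainN353 : Cert :=
  .splitM 42453125 row12MainN354 row12MainN355

/-- A certificate. -/
def row12MainN357 : Cert :=
  .leaf 84676077 100000000 84676078 100000000
    [(24384493, 1920), (28107741, 3270), (31830988, 3987), (36149869, 3098),
     (40468750, 1753)]

/-- A certificate. -/
def row12MainN358 : Cert :=
  .leaf 84676077 100000000 84676078 100000000
    [(24384493, 1985), (26315066, 2850), (29900415, 3788), (31830988, 4132),
     (34584875, 3671), (39699238, 2570), (42453125, 1671)]

/-- A certificate. -/
def row12MainN356 : Cert :=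
  .splitM 42453125 row12MainN357 row12MainN358

/-- A certificate. -/
def row12MainN352 : Cert :=
  .splitC 22822940 row12MainN353 row12MainN356

/-- A certificate. -/
def row12MainN350 : Cert :=
  .splitM 40468750 row12MainN351 row12MainN352

/-- A certificate. -/
def row12MainN346 : Cert :=
  .splitC 21261387 row12MainN347 row12MainN350

/-- A certificate. -/
def row12MainN362 : Cert :=
  .leaf 75487144 100000000 75487145 100000000
    [(19699834, 2194), (22844948, 3518), (28685874, 4652), (31830988, 5004),
     (35099343, 4515), (41169145, 3373), (44437500, 2514)]

/-- A certificate. -/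
def row12MainN364 : Cert :=
  .leaf 78669469 100000000 78669470 100000000
    [(21261387, 2094), (26546187, 3888), (31830988, 4683), (38134244, 3576),
     (44437500, 1772)]

/-- A certificate. -/
def row12MainN365 : Cert :=
  .leaf 78669469 100000000 78669470 100000000
    [(21261387, 2142), (26546187, 3985), (31830988, 4807), (39126432, 3649),
     (46421875, 1710)]

/-- A certificate. -/
def row12MainN363 : Cert :=
  .splitM 46421875 row12MainN364 row12MainN365

/-- A certificate. -/
def row12MainN361 : Cert :=
  .splitC 19699834 row12MainN362 row12MainN363

/-- A certificate. -/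
def row12MainN367 : Cert :=
  .leaf 75487144 100000000 75487145 100000000
    [(19699834, 2275), (25765411, 4364), (31830988, 5220), (40118619, 4096),
     (48406250, 2366)]

/-- A certificate. -/
def row12MainN368 : Cert :=
  .leaf 78669469 100000000 78669470 100000000
    [(21261387, 2219), (24001654, 3458), (29090721, 4616), (31830988, 5002),
     (36128278, 4481), (44108960, 3240), (48406250, 2261)]

/-- A certificate. -/
def row12MainN366 : Cert :=
  .splitC 19699834 row12MainN367 row12MainN368

/-- A certificate. -/
def row12MainN360 : Cert :=
  .splitM 48406250 row12MainN361 row12MainN366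

/-- A certificate. -/
def row12MainN372 : Cert :=
  .leaf 81727973 100000000 81727974 100000000
    [(22822940, 2058), (27326964, 3685), (31830988, 4479), (38134244, 3416),
     (44437500, 1691)]

/-- A certificate. -/
def row12MainN373 : Cert :=
  .leaf 81727973 100000000 81727974 100000000
    [(22822940, 2104), (25158360, 3158), (29495568, 4219), (31830988, 4590),
     (35613811, 4059), (42639052, 2759), (46421875, 1629)]

/-- A certificate. -/
def row12MainN371 : Cert :=
  .splitM 46421875 row12MainN372 row12MainN373

/-- A certificate. -/
def row12MainN375 : Cert :=
  .leaf 84676077 100000000 84676078 100000000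
    [(24384493, 2036), (24936085, 2341), (26315066, 2926), (28107741, 3476),
     (29900415, 3893), (31279396, 4155), (31830988, 4248), (32764804, 4117),
     (35099343, 3763), (38134244, 3236), (41169145, 2589), (43503684, 1937),
     (44437500, 1600)]

/-- A certificate. -/
def row12MainN376 : Cert :=
  .leaf 84676077 100000000 84676078 100000000
    [(24384493, 2079), (26315066, 2988), (29900415, 3979), (31830988, 4344),
     (35613811, 3838), (42639052, 2605), (46421875, 1537)]

/-- A certificate. -/
def row12MainN374 : Cert :=
  .splitM 46421875 row12MainN375 row12MainN376

/-- A certificate. -/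
def row12MainN370 : Cert :=
  .splitC 22822940 row12MainN371 row12MainN374

/-- A certificate. -/
def row12MainN378 : Cert :=
  .leaf 81727973 100000000 81727974 100000000
    [(22822940, 2177), (25158360, 3269), (29495568, 4374), (31830988, 4761),
     (36128278, 4262), (44108960, 3077), (48406250, 2146)]

/-- A certificate. -/
def row12MainN379 : Cert :=
  .leaf 84676077 100000000 84676078 100000000
    [(24384493, 2145), (26315066, 3085), (29900415, 4112), (31830988, 4491),
     (36128278, 4017), (44108960, 2896), (48406250, 2018)]

/-- A certificate. -/
def row12MainN377 : Cert :=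
  .splitC 22822940 row12MainN378 row12MainN379

/-- A certificate. -/
def row12MainN369 : Cert :=
  .splitM 48406250 row12MainN370 row12MainN377

/-- A certificate. -/
def row12MainN359 : Cert :=
  .splitC 21261387 row12MainN360 row12MainN369

/-- A certificate. -/
def row12MainN345 : Cert :=
  .splitM 44437500 row12MainN346 row12MainN359

/-- A certificate. -/
def row12MainN382 : Cert :=
  .leaf 75487144 100000000 75487145 100000000
    [(21261387, 3246), (24001654, 4177), (29090721, 5166), (31830988, 5510),
     (37157213, 5010), (47048775, 3850), (52375000, 3002)]

/-- A certificate. -/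
def row12MainN383 : Cert :=
  .leaf 75487144 99872702 75487145 99872703
    [(21261387, 3349), (26546187, 4905), (31830988, 5702), (46071744, 4543),
     (60312500, 2796)]

/-- A certificate. -/
def row12MainN381 : Cert :=
  .splitM 60312500 row12MainN382 row12MainN383

/-- A certificate. -/
def row12MainN385 : Cert :=
  .leaf 81727973 100000000 81727974 100000000
    [(24384493, 3108), (28107741, 4279), (31830988, 4987), (42102994, 4039),
     (52375000, 2699)]

/-- A certificate. -/
def row12MainN386 : Cert :=
  .leaf 81727973 99872702 81727974 99872703
    [(24384493, 3196), (28107741, 4402), (31830988, 5134), (46071744, 4077),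
     (60312500, 2506)]

/-- A certificate. -/
def row12MainN384 : Cert :=
  .splitM 60312500 row12MainN385 row12MainN386

/-- A certificate. -/
def row12MainN380 : Cert :=
  .splitC 21261387 row12MainN381 row12MainN384

/-- A certificate. -/
def row12MainN344 : Cert :=
  .splitM 52375000 row12MainN345 row12MainN380

/-- A certificate. -/
def row12MainN316 : Cert :=
  .splitC 18138281 row12MainN317 row12MainN344

/-- A certificate. -/
def row12MainN390 : Cert :=
  .leaf 61122859 70620665 61122860 70620666
    [(15015175, 4442), (23423081, 6832), (31830988, 7704), (50000000, 7500),
     (68169012, 7283), (68250000, 7274)]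

/-- A certificate. -/
def row12MainN393 : Cert :=
  .leaf 61122859 49936351 61122860 49936352
    [(13453622, 3498), (22642305, 7072), (31830988, 8121), (50000000, 8298),
     (68169012, 8463), (76147006, 7981), (84125000, 6910)]

/-- A certificate. -/
def row12MainN394 : Cert :=
  .leaf 61122859 0 61122860 0
    [(13453622, 3835), (22642305, 7714), (31830988, 8811), (50000000, 9379),
     (68169012, 9753), (80115756, 9846), (92062500, 9939)]

/-- A certificate. -/
def row12MainN392 : Cert :=
  .splitM 92062500 row12MainN393 row12MainN394

/-- A certificate. -/
def row12MainN396 : Cert :=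
  .leaf 65012152 49936351 65012153 49936352
    [(15015175, 3350), (23423081, 6774), (31830988, 7886), (50000000, 8145),
     (68169012, 8383), (76147006, 7907), (84125000, 6848)]

/-- A certificate. -/
def row12MainN397 : Cert :=
  .leaf 65012152 0 65012153 0
    [(15015175, 3688), (23423081, 7418), (31830988, 8589), (50000000, 9267),
     (68169012, 9709), (80115756, 9819), (92062500, 9928)]

/-- A certificate. -/
def row12MainN395 : Cert :=
  .splitM 92062500 row12MainN396 row12MainN397

/-- A certificate. -/
def row12MainN391 : Cert :=
  .splitC 13453622 row12MainN392 row12MainN395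

/-- A certificate. -/
def row12MainN389 : Cert :=
  .splitM 84125000 row12MainN390 row12MainN391

/-- A certificate. -/
def row12MainN399 : Cert :=
  .leaf 68681557 70620665 68681558 70620666
    [(18138281, 4123), (24984635, 6277), (31830988, 7223), (50000000, 7174),
     (68169012, 7124), (68250000, 7115)]

/-- A certificate. -/
def row12MainN402 : Cert :=
  .leaf 68681557 49936351 68681558 49936352
    [(16576728, 3227), (24203858, 6475), (31830988, 7634), (50000000, 7987),
     (68169012, 8301), (76147006, 7833), (84125000, 6786)]

/-- A certificate. -/
def row12MainN403 : Cert :=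
  .leaf 68681557 0 68681558 0
    [(16576728, 3566), (24203858, 7117), (31830988, 8345), (50000000, 9147),
     (68169012, 9663), (80115756, 9791), (92062500, 9917)]

/-- A certificate. -/
def row12MainN401 : Cert :=
  .splitM 92062500 row12MainN402 row12MainN403

/-- A certificate. -/
def row12MainN404 : Cert :=
  .leaf 72164622 0 72164623 0
    [(18138281, 3463), (21688242, 5713), (28281027, 7528), (31830988, 8076),
     (41251957, 8612), (58748043, 9341), (68169012, 9613), (72305750, 9664),
     (79988262, 9758), (84125000, 9809)]

/-- A certificate. -/
def row12MainN400 : Cert :=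
  .splitC 16576728 row12MainN401 row12MainN404

/-- A certificate. -/
def row12MainN398 : Cert :=
  .splitM 84125000 row12MainN399 row12MainN400

/-- A certificate. -/
def row12MainN388 : Cert :=
  .splitC 15015175 row12MainN389 row12MainN398

/-- A certificate. -/
def row12MainN406 : Cert :=
  .leaf 75487144 70620665 75487145 70620666
    [(24384493, 5149), (28107741, 6059), (31830988, 6673), (50000000, 6819),
     (68169012, 6960), (68250000, 6951)]

/-- A certificate. -/
def row12MainN408 : Cert :=
  .leaf 75487144 0 75487145 0
    [(21261387, 4590), (26546187, 6707), (31830988, 7777), (50000000, 8873),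
     (68169012, 9559), (76147006, 9671), (84125000, 9782)]

/-- A certificate. -/
def row12MainN409 : Cert :=
  .leaf 81727973 0 81727974 0
    [(24384493, 4425), (28107741, 6077), (31830988, 7066), (50000000, 8547),
     (68169012, 9438), (76147006, 9582), (84125000, 9723)]

/-- A certificate. -/
def row12MainN407 : Cert :=
  .splitC 21261387 row12MainN408 row12MainN409

/-- A certificate. -/
def row12MainN405 : Cert :=
  .splitM 84125000 row12MainN406 row12MainN407

/-- A certificate. -/
def row12MainN387 : Cert :=
  .splitC 18138281 row12MainN388 row12MainN405

/-- A certificate. -/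
def row12MainN315 : Cert :=
  .splitM 68250000 row12MainN316 row12MainN387

/-- A certificate. -/
def row12MainN418 : Cert :=
  .leaf 87524935 100000000 87524936 100000000
    [(25985462, 1865), (28908225, 2958), (31830988, 3598), (34165494, 3088),
     (36500000, 2462)]

/-- A certificate. -/
def row12MainN420 : Cert :=
  .leaf 90352496 100000000 90352497 100000000
    [(27586431, 1791), (29708709, 2622), (31830988, 3163), (34165494, 2560),
     (36500000, 1743)]

/-- A certificate. -/
def row12MainN421 : Cert :=
  .leaf 90352496 100000000 90352497 100000000
    [(27586431, 1888), (29708709, 2768), (31830988, 3343), (35157682, 2636),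
     (38484375, 1620)]

/-- A certificate. -/
def row12MainN419 : Cert :=
  .splitM 38484375 row12MainN420 row12MainN421

/-- A certificate. -/
def row12MainN417 : Cert :=
  .splitC 25985462 row12MainN418 row12MainN419

/-- A certificate. -/
def row12MainN424 : Cert :=
  .leaf 87524935 100000000 87524936 100000000
    [(25985462, 1943), (28908225, 3085), (31830988, 3758), (36149869, 2917),
     (40468750, 1649)]

/-- A certificate. -/
def row12MainN426 : Cert :=
  .leaf 87524935 100000000 87524936 100000000
    [(25184977, 1439), (26908017, 2469), (30107948, 3505), (31830988, 3882),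
     (34584875, 3447), (39699238, 2410), (42453125, 1566)]

/-- A certificate. -/
def row12MainN427 : Cert :=
  .leaf 88949951 100000000 88949952 100000000
    [(25985462, 1441), (27500969, 2379), (30315481, 3366), (31830988, 3734),
     (34584875, 3315), (39699238, 2316), (42453125, 1504)]

/-- A certificate. -/
def row12MainN425 : Cert :=
  .splitC 25184977 row12MainN426 row12MainN427

/-- A certificate. -/
def row12MainN423 : Cert :=
  .splitM 42453125 row12MainN424 row12MainN425

/-- A certificate. -/
def row12MainN430 : Cert :=
  .leaf 90352496 100000000 90352497 100000000
    [(26785946, 1406), (29308467, 2734), (31830988, 3472), (36149869, 2692),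
     (40468750, 1520)]

/-- A certificate. -/
def row12MainN431 : Cert :=
  .leaf 91733598 100000000 91733599 100000000
    [(27586431, 1416), (29708709, 2604), (31830988, 3300), (36149869, 2557),
     (40468750, 1443)]

/-- A certificate. -/
def row12MainN429 : Cert :=
  .splitC 26785946 row12MainN430 row12MainN431

/-- A certificate. -/
def row12MainN433 : Cert :=
  .leaf 90352496 100000000 90352497 100000000
    [(26785946, 1444), (28093920, 2287), (30523014, 3215), (31830988, 3570),
     (34584875, 3168), (39699238, 2212), (42453125, 1436)]

/-- A certificate. -/
def row12MainN434 : Cert :=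
  .leaf 91733598 100000000 91733599 100000000
    [(27586431, 1451), (28686872, 2192), (30730547, 3047), (31830988, 3385),
     (34584875, 3002), (39699238, 2094), (42453125, 1360)]

/-- A certificate. -/
def row12MainN432 : Cert :=
  .splitC 26785946 row12MainN433 row12MainN434

/-- A certificate. -/
def row12MainN428 : Cert :=
  .splitM 42453125 row12MainN429 row12MainN432

/-- A certificate. -/
def row12MainN422 : Cert :=
  .splitC 25985462 row12MainN423 row12MainN428

/-- A certificate. -/
def row12MainN416 : Cert :=
  .splitM 40468750 row12MainN417 row12MainN422

/-- A certificate. -/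
def row12MainN438 : Cert :=
  .leaf 93094215 100000000 93094216 100000000
    [(29187400, 1847), (30509194, 2438), (31830988, 2873), (34165494, 2323),
     (36500000, 1580)]

/-- A certificate. -/
def row12MainN439 : Cert :=
  .leaf 93094215 100000000 93094216 100000000
    [(29187400, 1932), (30509194, 2551), (31830988, 3007), (35157682, 2369),
     (38484375, 1454)]

/-- A certificate. -/
def row12MainN437 : Cert :=
  .splitM 38484375 row12MainN438 row12MainN439

/-- A certificate. -/
def row12MainN441 : Cert :=
  .leaf 95757465 100000000 95757466 100000000
    [(30788369, 1935), (31309679, 2209), (31830988, 2445), (34165494, 1975),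
     (36500000, 1342)]

/-- A certificate. -/
def row12MainN442 : Cert :=
  .leaf 95757465 100000000 95757466 100000000
    [(30788369, 2001), (31309679, 2284), (31830988, 2528), (35157682, 1988),
     (38484375, 1219)]

/-- A certificate. -/
def row12MainN440 : Cert :=
  .splitM 38484375 row12MainN441 row12MainN442

/-- A certificate. -/
def row12MainN436 : Cert :=
  .splitC 29187400 row12MainN437 row12MainN440

/-- A certificate. -/
def row12MainN446 : Cert :=
  .leaf 93094215 100000000 93094216 100000000
    [(28386915, 1429), (30108951, 2461), (31830988, 3102), (36149869, 2402),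
     (40468750, 1354)]

/-- A certificate. -/
def row12MainN447 : Cert :=
  .leaf 94435228 100000000 94435229 100000000
    [(29187400, 1445), (30509194, 2300), (31830988, 2868), (36149869, 2219),
     (40468750, 1250)]

/-- A certificate. -/
def row12MainN445 : Cert :=
  .splitC 28386915 row12MainN446 row12MainN447

/-- A certificate. -/
def row12MainN449 : Cert :=
  .leaf 93094215 100000000 93094216 100000000
    [(28386915, 1460), (30108951, 2516), (31830988, 3172), (37142056, 2426),
     (42453125, 1272)]

/-- A certificate. -/
def row12MainN450 : Cert :=
  .leaf 94435228 100000000 94435229 100000000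
    [(29187400, 1473), (30509194, 2345), (31830988, 2924), (37142056, 2234),
     (42453125, 1170)]

/-- A certificate. -/
def row12MainN448 : Cert :=
  .splitC 28386915 row12MainN449 row12MainN450

/-- A certificate. -/
def row12MainN444 : Cert :=
  .splitM 42453125 row12MainN445 row12MainN448

/-- A certificate. -/
def row12MainN452 : Cert :=
  .leaf 95757465 100000000 95757466 100000000
    [(30788369, 2045), (31309679, 2334), (31830988, 2584), (36149869, 1997),
     (40468750, 1124)]

/-- A certificate. -/
def row12MainN453 : Cert :=
  .leaf 95757465 100000000 95757466 100000000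
    [(30788369, 2077), (31309679, 2371), (31830988, 2625), (37142056, 2004),
     (42453125, 1049)]

/-- A certificate. -/
def row12MainN451 : Cert :=
  .splitM 42453125 row12MainN452 row12MainN453

/-- A certificate. -/
def row12MainN443 : Cert :=
  .splitC 29187400 row12MainN444 row12MainN451

/-- A certificate. -/
def row12MainN435 : Cert :=
  .splitM 40468750 row12MainN436 row12MainN443

/-- A certificate. -/
def row12MainN415 : Cert :=
  .splitC 27586431 row12MainN416 row12MainN435

/-- A certificate. -/
def row12MainN459 : Cert :=
  .leaf 87524935 100000000 87524936 100000000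
    [(25184977, 1474), (26908017, 2529), (30107948, 3592), (31830988, 3979),
     (35099343, 3522), (41169145, 2420), (44437500, 1494)]

/-- A certificate. -/
def row12MainN460 : Cert :=
  .leaf 88949951 100000000 88949952 100000000
    [(25985462, 1473), (27500969, 2433), (30315481, 3444), (31830988, 3821),
     (35099343, 3381), (41169145, 2321), (44437500, 1433)]

/-- A certificate. -/
def row12MainN458 : Cert :=
  .splitC 25184977 row12MainN459 row12MainN460

/-- A certificate. -/
def row12MainN461 : Cert :=
  .leaf 87524935 100000000 87524936 100000000
    [(25985462, 2090), (26898825, 2573), (28908225, 3325), (30917625, 3859),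
     (31830988, 4058), (34110814, 3781), (39126432, 3066), (44142049, 2092),
     (46421875, 1431)]

/-- A certificate. -/
def row12MainN457 : Cert :=
  .splitM 46421875 row12MainN458 row12MainN461

/-- A certificate. -/
def row12MainN464 : Cert :=
  .leaf 90352496 100000000 90352497 100000000
    [(26785946, 1474), (29308467, 2869), (31830988, 3647), (38134244, 2769),
     (44437500, 1365)]

/-- A certificate. -/
def row12MainN465 : Cert :=
  .leaf 91733598 100000000 91733599 100000000
    [(27586431, 1478), (29708709, 2720), (31830988, 3450), (38134244, 2618),
     (44437500, 1289)]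

/-- A certificate. -/
def row12MainN463 : Cert :=
  .splitC 26785946 row12MainN464 row12MainN465

/-- A certificate. -/
def row12MainN466 : Cert :=
  .leaf 90352496 100000000 90352497 100000000
    [(27586431, 2088), (29708709, 3066), (31830988, 3708), (39126432, 2797),
     (46421875, 1304)]

/-- A certificate. -/
def row12MainN462 : Cert :=
  .splitM 46421875 row12MainN463 row12MainN466

/-- A certificate. -/
def row12MainN456 : Cert :=
  .splitC 25985462 row12MainN457 row12MainN462

/-- A certificate. -/
def row12MainN468 : Cert :=
  .leaf 87524935 100000000 87524936 100000000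
    [(25985462, 2150), (28908225, 3423), (31830988, 4180), (40118619, 3259),
     (48406250, 1872)]

/-- A certificate. -/
def row12MainN469 : Cert :=
  .leaf 90352496 100000000 90352497 100000000
    [(27586431, 2139), (29708709, 3142), (31830988, 3802), (40118619, 2959),
     (48406250, 1697)]

/-- A certificate. -/
def row12MainN467 : Cert :=
  .splitC 25985462 row12MainN468 row12MainN469

/-- A certificate. -/
def row12MainN455 : Cert :=
  .splitM 48406250 row12MainN456 row12MainN467

/-- A certificate. -/
def row12MainN473 : Cert :=
  .leaf 93094215 100000000 93094216 100000000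
    [(29187400, 2071), (30509194, 2736), (31830988, 3226), (38134244, 2446),
     (44437500, 1204)]

/-- A certificate. -/
def row12MainN474 : Cert :=
  .leaf 93094215 100000000 93094216 100000000
    [(29187400, 2098), (30509194, 2772), (31830988, 3270), (39126432, 2461),
     (46421875, 1145)]

/-- A certificate. -/
def row12MainN472 : Cert :=
  .splitM 46421875 row12MainN473 row12MainN474

/-- A certificate. -/
def row12MainN475 : Cert :=
  .leaf 95757465 100000000 95757466 100000000
    [(30788369, 2121), (31309679, 2421), (31830988, 2680), (38134244, 2117),
     (44437500, 1320)]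

/-- A certificate. -/
def row12MainN471 : Cert :=
  .splitC 29187400 row12MainN472 row12MainN475

/-- A certificate. -/
def row12MainN476 : Cert :=
  .leaf 93094215 100000000 93094216 100000000
    [(30788369, 2945), (31309679, 3149), (31830988, 3334), (40118619, 2590),
     (48406250, 1482)]

/-- A certificate. -/
def row12MainN470 : Cert :=
  .splitM 48406250 row12MainN471 row12MainN476

/-- A certificate. -/
def row12MainN454 : Cert :=
  .splitC 27586431 row12MainN455 row12MainN470

/-- A certificate. -/
def row12MainN414 : Cert :=
  .splitM 44437500 row12MainN415 row12MainN454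

/-- A certificate. -/
def row12MainN482 : Cert :=
  .leaf 98348621 100000000 98348622 100000000
    [(32389338, 1612), (34444669, 1313), (36500000, 921)]

/-- A certificate. -/
def row12MainN481 : Cert :=
  .splitC 32389338 row12MainN482 .skip

/-- A certificate. -/
def row12MainN485 : Cert :=
  .leaf 98348621 100000000 98348622 100000000
    [(32389338, 1654), (35436856, 1307), (38484375, 822)]

/-- A certificate. -/
def row12MainN484 : Cert :=
  .splitC 32389338 row12MainN485 .skip

/-- A certificate. -/
def row12MainN480 : Cert :=
  .splitM 38484375 row12MainN481 row12MainN484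

/-- A certificate. -/
def row12MainN479 : Cert :=
  .splitC 33990307 row12MainN480 .skip

/-- A certificate. -/
def row12MainN490 : Cert :=
  .leaf 98348621 100000000 98348622 100000000
    [(32389338, 1701), (36429044, 1388), (40468750, 978)]

/-- A certificate. -/
def row12MainN489 : Cert :=
  .splitC 32389338 row12MainN490 .skip

/-- A certificate. -/
def row12MainN488 : Cert :=
  .splitC 33990307 row12MainN489 .skip

/-- A certificate. -/
def row12MainN478 : Cert :=
  .splitM 40468750 row12MainN479 row12MainN488

/-- A certificate. -/
def row12MainN494 : Cert :=
  .leaf 98348621 100000000 98348622 100000000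
    [(33990307, 1671), (39213903, 1415), (44437500, 1100)]

/-- A certificate. -/
def row12MainN493 : Cert :=
  .splitC 33990307 row12MainN494 .skip

/-- A certificate. -/
def row12MainN477 : Cert :=
  .splitM 44437500 row12MainN478 row12MainN493

/-- A certificate. -/
def row12MainN413 : Cert :=
  .splitC 30788369 row12MainN414 row12MainN477

/-- A certificate. -/
def row12MainN499 : Cert :=
  .leaf 87524935 100000000 87524936 100000000
    [(27586431, 3057), (29708709, 3797), (31830988, 4336), (42102994, 3499),
     (52375000, 2331)]

/-- A certificate. -/
def row12MainN500 : Cert :=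
  .leaf 93094215 100000000 93094216 100000000
    [(30788369, 3015), (31309679, 3224), (31830988, 3414), (42102994, 2745),
     (52375000, 1822)]

/-- A certificate. -/
def row12MainN498 : Cert :=
  .splitC 27586431 row12MainN499 row12MainN500

/-- A certificate. -/
def row12MainN501 : Cert :=
  .leaf 87524935 99872702 87524936 99872703
    [(30788369, 4183), (31309679, 4313), (31830988, 4436), (46071744, 3512),
     (60312500, 2160)]

/-- A certificate. -/
def row12MainN497 : Cert :=
  .splitM 60312500 row12MainN498 row12MainN501

/-- A certificate. -/
def row12MainN502 : Cert :=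
  .leaf 98348621 99872702 98348622 99872703
    [(37192246, 1662), (44783623, 1467), (52375000, 1241)]

/-- A certificate. -/
def row12MainN496 : Cert :=
  .splitC 30788369 row12MainN497 row12MainN502

/-- A certificate. -/
def row12MainN412 : Cert :=
  .splitM 52375000 row12MainN413 row12MainN496

/-- A certificate. -/
def row12MainN411 : Cert :=
  .splitC 37192246 row12MainN412 .skip

/-- A certificate. -/
def row12MainN507 : Cert :=
  .leaf 87524935 70620665 87524936 70620666
    [(30788369, 4903), (31309679, 5056), (31830988, 5199), (50000000, 5962),
     (68169012, 6598), (68250000, 6590)]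

/-- A certificate. -/
def row12MainN508 : Cert :=
  .leaf 87524935 0 87524936 0
    [(30788369, 5800), (31309679, 5977), (31830988, 6143), (50000000, 8155),
     (68169012, 9296), (76147006, 9477), (84125000, 9655)]

/-- A certificate. -/
def row12MainN506 : Cert :=
  .splitM 84125000 row12MainN507 row12MainN508

/-- A certificate. -/
def row12MainN510 : Cert :=
  .leaf 98348621 70620665 98348622 70620666
    [(37192246, 3116), (52680629, 4936), (68169012, 6141), (68250000, 6134)]

/-- A certificate. -/
def row12MainN511 : Cert :=
  .leaf 98348621 0 98348622 0
    [(37192246, 4510), (52680629, 7401), (68169012, 8918), (76147006, 9201),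
     (84125000, 9476)]

/-- A certificate. -/
def row12MainN509 : Cert :=
  .splitM 84125000 row12MainN510 row12MainN511

/-- A certificate. -/
def row12MainN505 : Cert :=
  .splitC 30788369 row12MainN506 row12MainN509

/-- A certificate. -/
def row12MainN513 : Cert :=
  .leaf 100000000 70620665 100000000 70620666
    [(50000000, 3923), (59084506, 5052), (68169012, 5917), (68250000, 5910)]

/-- A certificate. -/
def row12MainN514 : Cert :=
  .leaf 100000000 0 100000000 0
    [(50000000, 6051), (59084506, 7587), (68169012, 8620), (76147006, 8986),
     (84125000, 9337)]

/-- A certificate. -/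
def row12MainN512 : Cert :=
  .splitM 84125000 row12MainN513 row12MainN514

/-- A certificate. -/
def row12MainN504 : Cert :=
  .splitC 37192246 row12MainN505 row12MainN512

/-- A certificate. -/
def row12MainN410 : Cert :=
  .splitM 68250000 row12MainN411 row12MainN504

/-- A certificate. -/
def row12MainN314 : Cert :=
  .splitC 24384493 row12MainN315 row12MainN410

/-- A certificate. -/
def row12MainN224 : Cert :=
  .splitC 11892070 row12MainN225 row12MainN314

/-- A certificate. -/
def row12Main : Cert :=
  .splitC 2828427 row12MainN1 row12MainN224

/-- A certificate. -/
def row12FloorN2 : Cert :=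
  .leaf 7089815 100000000 7089816 100000000
    [(1768292, 9064), (10057184, 8982), (23542097, 8242), (31830988, 7729),
     (32560521, 7621), (34165494, 7369), (35770467, 7096), (36500000, 6965)]

/-- A certificate. -/
def row12FloorN3 : Cert :=
  .leaf 7089815 99872702 7089816 99872703
    [(384233, 7395), (1768292, 9192), (4961681, 9384), (10057184, 9305), (16590871, 9128),
     (23542097, 8915), (29333496, 8728), (31830988, 8645), (32713739, 8574),
     (35040990, 8376), (38331242, 8066), (42102994, 7663), (45874746, 7201),
     (49164998, 6740), (51492249, 6375), (52375000, 6227)]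

/-- A certificate. -/
def row12FloorN1 : Cert :=
  .splitM 52375000 row12FloorN2 row12FloorN3

/-- A certificate. -/
def row12FloorN6 : Cert :=
  .leaf 7089815 86492297 7089816 86492298
    [(1768292, 9282), (10057184, 9507), (23542097, 9304), (31830988, 9157),
     (37508804, 8874), (50000000, 8063), (62491196, 6920), (68169012, 6243),
     (68250000, 6219)]

/-- A certificate. -/
def row12FloorN7 : Cert :=
  .leaf 7089815 70620665 7089816 70620666
    [(1768292, 9358), (10057184, 9657), (23542097, 9575), (31830988, 9505),
     (37508804, 9354), (50000000, 8940), (62491196, 8400), (68169012, 8106),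
     (69421901, 7946), (72178256, 7524), (74934611, 6965), (76187500, 6647)]

/-- A certificate. -/
def row12FloorN5 : Cert :=
  .splitM 76187500 row12FloorN6 row12FloorN7

/-- A certificate. -/
def row12FloorN9 : Cert :=
  .leaf 7089815 49936351 7089816 49936352
    [(1768292, 9430), (10057184, 9780), (23542097, 9778), (31830988, 9758),
     (37508804, 9695), (50000000, 9529), (62491196, 9323), (68169012, 9216),
     (70662135, 9092), (76147006, 8710), (81631877, 8049), (84125000, 7558)]

/-- A certificate. -/
def row12FloorN11 : Cert :=
  .leaf 7089815 35310332 7089816 35310333
    [(3678999, 9710), (18927993, 9865), (31830988, 9864), (41251957, 9814),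
     (58748043, 9699), (68169012, 9625), (74363620, 9466), (85867892, 8744),
     (92062500, 7297)]

/-- A certificate. -/
def row12FloorN13 : Cert :=
  .leaf 7089815 24968175 7089816 24968176
    [(3678999, 9737), (18927993, 9906), (31830988, 9916), (41251957, 9892),
     (58748043, 9840), (68169012, 9807), (75392555, 9715), (88807707, 9196),
     (96031250, 7172)]

/-- A certificate. -/
def row12FloorN14 : Cert :=
  .leaf 7089815 0 7089816 0
    [(673187, 8745), (3678999, 9795), (10057184, 9935), (18927993, 9972), (27652177, 9984),
     (31830988, 9988), (34522693, 9989), (41251957, 9991), (50000000, 9993),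
     (58748043, 9995), (65477307, 9996), (68169012, 9997), (70379872, 9997),
     (75907023, 9998), (83092318, 9998), (90277614, 9999), (95804765, 9999),
     (98015625, 9999)]

/-- A certificate. -/
def row12FloorN12 : Cert :=
  .splitM 98015625 row12FloorN13 row12FloorN14

/-- A certificate. -/
def row12FloorN10 : Cert :=
  .splitM 96031250 row12FloorN11 row12FloorN12

/-- A certificate. -/
def row12FloorN8 : Cert :=
  .splitM 92062500 row12FloorN9 row12FloorN10

/-- A certificate. -/
def row12FloorN4 : Cert :=
  .splitM 84125000 row12FloorN5 row12FloorN8

/-- A certificate. -/
def row12Floor : Cert :=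
  .splitM 68250000 row12FloorN1 row12FloorN4

theorem row12Main_ok :
    check (row12Bins.map Prod.fst) (10 ^ 8) slabSkip row12Main 160000 50000000 36500000 (10 ^ 8) = true := by
  refine Fast.check_of ?_
  iterate 4 all_goals try first | apply Fast.splitM_ok | apply Fast.splitC_ok
  all_goals decide +kernel

theorem row12Floor_ok :
    check (row12Bins.map Prod.fst) (2804 * 14249 * 10 ^ 6 + 10 ^ 8) noSkip row12Floor 160000 160000 36500000 (10 ^ 8) = true := by
  refine Fast.check_of ?_
  iterate 2 all_goals try apply Fast.splitM_ok
  all_goals decide +kernel

/-- The nodes of a crossing. -/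
def row12Cross : List (ℕ × ℕ) :=
  [
  (173125, 2589), (212500, 4672), (278125, 6120), (370000, 7068),
  (488125, 7681), (632500, 8083), (803125, 8352), (1000000, 8534)]

theorem row12Cross_ok :
    excursionOK 160000 1000000 (max 36500000 1000000) (2 * (2804 * 14249 * 10 ^ 6) : ℕ) 7089816 100000000 row12Cross = true := by
  decide +kernel

end Vale.Agent.P232.Scalar
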