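import Vale.Agent.P232.Scalar.DataLow
import Vale.Agent.P232.Scalar.DataMid
import Vale.Agent.P232.Scalar.DataSlab

/-!
# P232: the scalar facts of the rows
-/

noncomputable section

namespace Vale.Agent.P232

open Scalar

namespace Scalar

/-- Half of the canonical value. -/
abbrev canonicalHalf (v : ℝ) : ℝ := canonical v / 2

/-- Half of the target on the fringe. -/
abbrev fringeHalf (v : ℝ) : ℝ := 1 - 3 * (365 / 1000 - v)

/-- Half of the target on the slab range. -/
abbrev slabHalf (_v : ℝ) : ℝ := 1

theorem fringe_dom : ∀ q ∈ row11Bins.map Prod.fst, ∀ v : ℝ, (q.a : ℝ) / 10 ^ 8 ≤ v →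
    v ≤ (q.b : ℝ) / 10 ^ 8 → fringeHalf v ≤ q.line v := by
  intro q hq v _ _
  simp only [row11Bins, List.map_cons, List.map_nil, List.mem_singleton] at hq
  subst hq
  simp only [Bin.line, fringeHalf]
  push_cast
  linarith

theorem slab_dom : ∀ q ∈ row12Bins.map Prod.fst, ∀ v : ℝ, (q.a : ℝ) / 10 ^ 8 ≤ v →
    v ≤ (q.b : ℝ) / 10 ^ 8 → slabHalf v ≤ q.line v := by
  intro q hq v _ _
  simp only [row12Bins, List.map_cons, List.map_nil, List.mem_singleton] at hq
  subst hq
  simp only [Bin.line, slabHalf]
  push_cast
  linarith

theorem fringe_le : ∀ v, ((34500000 : ℕ) : ℝ) / 10 ^ 8 ≤ v → v ≤ ((36500000 : ℕ) : ℝ) / 10 ^ 8 →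
    fringeHalf v ≤ 1 ∧ (v < 36 / 100 → fringeHalf v ≤ 985 / 1000) := by
  intro v _ h
  push_cast at h
  simp only [fringeHalf]
  exact ⟨by linarith, fun h' => by linarith⟩

theorem slab_le : ∀ v, ((36500000 : ℕ) : ℝ) / 10 ^ 8 ≤ v → v ≤ ((50000000 : ℕ) : ℝ) / 10 ^ 8 →
    slabHalf v ≤ 1 ∧ (v < 36 / 100 → slabHalf v ≤ 985 / 1000) := by
  intro v h _
  push_cast at h
  exact ⟨le_rfl, fun h' => by linarith⟩

end Scalar

theorem Scalar.row0_good :
    (⟨25/1000000, 50/1000000, 2/1000000, 30/1000000, 16539/100, 256/1000, 108/100000, 546/100000, canonical⟩ :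
      Row).Good :=
  good_of (tg := canonicalHalf) (V0 := 2500) (V1 := 5000) (P := 200) (E := 3000) (β := 16539)
    (k := 256) (T := 108) (l := 546) (by norm_num)
    (fun v => by simp only [canonicalHalf]; ring) (by decide +kernel)
    row0Cross_ok row0Bins_covers (by norm_num)
    (canonical_dom row0Bins row0Bins_dom (v0 := 2500) (by decide +kernel))
    (tubeSkip_sound _ _)
    (check_mono (Nat.zero_le _) row0Main_ok) (check_mono (Nat.le_add_right _ _) row0Floor_ok)

theorem Scalar.row1_good :
    (⟨50/1000000, 100/1000000, 4/1000000, 60/1000000, 13127/100, 287/1000, 159/100000, 771/100000, canonical⟩ :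
      Row).Good :=
  good_of (tg := canonicalHalf) (V0 := 5000) (V1 := 10000) (P := 400) (E := 6000) (β := 13127)
    (k := 287) (T := 159) (l := 771) (by norm_num)
    (fun v => by simp only [canonicalHalf]; ring) (by decide +kernel)
    row1Cross_ok row1Bins_covers (by norm_num)
    (canonical_dom row1Bins row1Bins_dom (v0 := 5000) (by decide +kernel))
    (tubeSkip_sound _ _)
    (check_mono (Nat.zero_le _) row1Main_ok) (check_mono (Nat.le_add_right _ _) row1Floor_ok)

theorem Scalar.row2_good :
    (⟨100/1000000, 250/1000000, 6/1000000, 100/1000000, 10419/100, 294/1000, 196/100000, 924/100000, canonical⟩ :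
      Row).Good :=
  good_of (tg := canonicalHalf) (V0 := 10000) (V1 := 25000) (P := 600) (E := 10000) (β := 10419)
    (k := 294) (T := 196) (l := 924) (by norm_num)
    (fun v => by simp only [canonicalHalf]; ring) (by decide +kernel)
    row2Cross_ok row2Bins_covers (by norm_num)
    (canonical_dom row2Bins row2Bins_dom (v0 := 10000) (by decide +kernel))
    (tubeSkip_sound _ _)
    (check_mono (Nat.zero_le _) row2Main_ok) (check_mono (Nat.le_add_right _ _) row2Floor_ok)

theorem Scalar.row3_good :
    (⟨250/1000000, 600/1000000, 15/1000000, 220/1000000, 7677/100, 322/1000, 323/100000, 1461/100000, canonical⟩ :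
      Row).Good :=
  good_of (tg := canonicalHalf) (V0 := 25000) (V1 := 60000) (P := 1500) (E := 22000) (β := 7677)
    (k := 322) (T := 323) (l := 1461) (by norm_num)
    (fun v => by simp only [canonicalHalf]; ring) (by decide +kernel)
    row3Cross_ok row3Bins_covers (by norm_num)
    (canonical_dom row3Bins row3Bins_dom (v0 := 25000) (by decide +kernel))
    (tubeSkip_sound _ _)
    (check_mono (Nat.zero_le _) row3Main_ok) (check_mono (Nat.le_add_right _ _) row3Floor_ok)

theorem Scalar.row4_good :
    (⟨600/1000000, 1600/1000000, 40/1000000, 500/1000000, 5734/100, 362/1000, 560/100000, 2403/100000, canonical⟩ :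
      Row).Good :=
  good_of (tg := canonicalHalf) (V0 := 60000) (V1 := 160000) (P := 4000) (E := 50000) (β := 5734)
    (k := 362) (T := 560) (l := 2403) (by norm_num)
    (fun v => by simp only [canonicalHalf]; ring) (by decide +kernel)
    row4Cross_ok row4Bins_covers (by norm_num)
    (canonical_dom row4Bins row4Bins_dom (v0 := 60000) (by decide +kernel))
    (tubeSkip_sound _ _)
    (check_mono (Nat.zero_le _) row4Main_ok) (check_mono (Nat.le_add_right _ _) row4Floor_ok)

theorem Scalar.row5_good :
    (⟨1600/1000000, 4000/1000000, 100/1000000, 1100/1000000, 4135/100, 387/1000, 921/100000, 3782/100000, canonical⟩ :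
      Row).Good :=
  good_of (tg := canonicalHalf) (V0 := 160000) (V1 := 400000) (P := 10000) (E := 110000) (β := 4135)
    (k := 387) (T := 921) (l := 3782) (by norm_num)
    (fun v => by simp only [canonicalHalf]; ring) (by decide +kernel)
    row5Cross_ok row5Bins_covers (by norm_num)
    (canonical_dom row5Bins row5Bins_dom (v0 := 160000) (by decide +kernel))
    (tubeSkip_sound _ _)
    (check_mono (Nat.zero_le _) row5Main_ok) (check_mono (Nat.le_add_right _ _) row5Floor_ok)

theorem Scalar.row6_good :
    (⟨4/1000, 16/1000, 3/10000, 3/1000, 3047/100, 471/1000, 1848/100000, 6640/100000, canonical⟩ :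
      Row).Good :=
  good_of (tg := canonicalHalf) (V0 := 400000) (V1 := 1600000) (P := 30000) (E := 300000) (β := 3047)
    (k := 471) (T := 1848) (l := 6640) (by norm_num)
    (fun v => by simp only [canonicalHalf]; ring) (by decide +kernel)
    row6Cross_ok row6Bins_covers (by norm_num)
    (canonical_dom row6Bins row6Bins_dom (v0 := 400000) (by decide +kernel))
    (tubeSkip_sound _ _)
    (check_mono (Nat.zero_le _) row6Main_ok) (check_mono (Nat.le_add_right _ _) row6Floor_ok)

theorem Scalar.row7_good :
    (⟨16/1000, 60/1000, 8/10000, 6/1000, 1920/100, 420/1000, 2752/100000, 10557/100000, canonical⟩ :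
      Row).Good :=
  good_of (tg := canonicalHalf) (V0 := 1600000) (V1 := 6000000) (P := 80000) (E := 600000) (β := 1920)
    (k := 420) (T := 2752) (l := 10557) (by norm_num)
    (fun v => by simp only [canonicalHalf]; ring) (by decide +kernel)
    row7Cross_ok row7Bins_covers (by norm_num)
    (canonical_dom row7Bins row7Bins_dom (v0 := 1600000) (by decide +kernel))
    (tubeSkip_sound _ _)
    (check_mono (Nat.zero_le _) row7Main_ok) (check_mono (Nat.le_add_right _ _) row7Floor_ok)

theorem Scalar.row8_good :
    (⟨60/1000, 90/1000, 13/10000, 8/1000, 1236/100, 312/1000, 2958/100000, 13068/100000, canonical⟩ :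
      Row).Good :=
  good_of (tg := canonicalHalf) (V0 := 6000000) (V1 := 9000000) (P := 130000) (E := 800000) (β := 1236)
    (k := 312) (T := 2958) (l := 13068) (by norm_num)
    (fun v => by simp only [canonicalHalf]; ring) (by decide +kernel)
    row8Cross_ok row8Bins_covers (by norm_num)
    (canonical_dom row8Bins row8Bins_dom (v0 := 6000000) (by decide +kernel))
    (tubeSkip_sound _ _)
    (check_mono (Nat.zero_le _) row8Main_ok) (check_mono (Nat.le_add_right _ _) row8Floor_ok)

theorem Scalar.row9_good :
    (⟨90/1000, 150/1000, 16/10000, 98/10000, 1080/100, 302/1000, 3234/100000, 14440/100000, canonical⟩ :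
      Row).Good :=
  good_of (tg := canonicalHalf) (V0 := 9000000) (V1 := 15000000) (P := 160000) (E := 980000) (β := 1080)
    (k := 302) (T := 3234) (l := 14440) (by norm_num)
    (fun v => by simp only [canonicalHalf]; ring) (by decide +kernel)
    row9Cross_ok row9Bins_covers (by norm_num)
    (canonical_dom row9Bins row9Bins_dom (v0 := 9000000) (by decide +kernel))
    (tubeSkip_sound _ _)
    (check_mono (Nat.zero_le _) row9Main_ok) (check_mono (Nat.le_add_right _ _) row9Floor_ok)

theorem Scalar.row10_good :
    (⟨150/1000, 262/1000, 16/10000, 1/100, 911/100, 258/1000, 3043/100000, 14336/100000, canonical⟩ :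
      Row).Good :=
  good_of (tg := canonicalHalf) (V0 := 15000000) (V1 := 26200000) (P := 160000) (E := 1000000) (β := 911)
    (k := 258) (T := 3043) (l := 14336) (by norm_num)
    (fun v => by simp only [canonicalHalf]; ring) (by decide +kernel)
    row10Cross_ok row10Bins_covers (by norm_num)
    (canonical_dom row10Bins row10Bins_dom (v0 := 15000000) (by decide +kernel))
    (tubeSkip_sound _ _)
    (check_mono (Nat.zero_le _) row10Main_ok) (check_mono (Nat.le_add_right _ _) row10Floor_ok)

theorem Scalar.slabFringe_good : slabFringe.Good :=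
  good_of (tg := fringeHalf) (V0 := 34500000) (V1 := 36500000) (P := 160000) (E := 1000000) (β := 690)
    (k := 195) (T := 2804) (l := 14249) (by norm_num [slabFringe])
    (fun v => by simp only [fringeHalf, slabFringe]; ring) (by decide +kernel)
    row11Cross_ok row11Bins_covers (by norm_num)
    (fringe_dom)
    (slabSkip_sound (by norm_num) fringe_le) row11Main_ok row11Floor_ok

theorem Scalar.slabRow_good : slabRow.Good :=
  good_of (tg := slabHalf) (V0 := 36500000) (V1 := 50000000) (P := 160000) (E := 1000000) (β := 690)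
    (k := 195) (T := 2804) (l := 14249) (by norm_num [slabRow])
    (fun v => by simp only [slabHalf, slabRow]; ring) (by decide +kernel)
    row12Cross_ok row12Bins_covers (by norm_num)
    (slab_dom)
    (slabSkip_sound (by norm_num) slab_le)
    (check_mono (Nat.zero_le _) row12Main_ok) (check_mono (Nat.le_add_right _ _) row12Floor_ok)

/-- All scalar facts. -/
theorem scalar : Scalar := by
  refine ⟨?_, Scalar.slabFringe_good, Scalar.slabRow_good⟩
  simp only [lowRows, List.forall_mem_cons, List.not_mem_nil, IsEmpty.forall_iff, implies_true,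
    and_true]
  exact ⟨Scalar.row0_good, Scalar.row1_good, Scalar.row2_good, Scalar.row3_good, Scalar.row4_good, Scalar.row5_good, Scalar.row6_good, Scalar.row7_good, Scalar.row8_good, Scalar.row9_good, Scalar.row10_good⟩

end Vale.Agent.P232
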