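import Vale.Agent.P232.Scalar.Base

/-!
# P232: a checker for box certificates of the scalar inequality

Places and chord values are numerators over `10⁸`, gains over `10⁴`, targets over `10¹⁶`.
-/

noncomputable section

namespace Vale.Agent.P232.Scalar

open Real Set MeasureTheory

/-- A certificate tree on a box of `(c, m)`. -/
inductive Cert where
  /-- Lower and upper end values of the outer chord, and gain nodes. -/
  | leaf (P0 P1 U0 U1 : ℕ) (xs : List (ℕ × ℕ))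
  /-- A box handled by a separate lemma. -/
  | skip
  /-- Split in `c`. -/
  | splitC (s : ℕ) (l r : Cert)
  /-- Split in `m`. -/
  | splitM (s : ℕ) (l r : Cert)

/-- `10¹⁸` times `lowSqR`. -/
def lowSq (X : ℤ) : ℤ := min (31415926535 * X) (min (10 ^ 18) (31415926535 * (10 ^ 8 - X)))

/-- `10¹⁸` times `upSqR`. -/
def upSq (X : ℤ) : ℤ := min (31415926536 * X) (min (10 ^ 18) (31415926536 * (10 ^ 8 - X)))

/-- The nodes are admissible and increase up to at most `M0`. -/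
def nodesOK (C0 M1 U0 U1 lo M0 : ℤ) : List (ℕ × ℕ) → Bool
  | [] => true
  | (X, W) :: r => decide (lo ≤ X ∧ (X : ℤ) ≤ M0 ∧ W ≤ 10000 ∧
      (U0 * (M1 - X) + U1 * (X - C0)) ^ 2 * 10 ^ 10 ≤
        (10 ^ 8 - (W : ℤ) ^ 2) * lowSq X * (M1 - C0) ^ 2) &&
      nodesOK C0 M1 U0 U1 X M0 r

/-- Twice the trapezoid sum of the nodes. -/
def trap2 : List (ℕ × ℕ) → ℤ
  | [] => 0
  | [_] => 0
  | (X, W) :: (Y, V) :: r => ((Y : ℤ) - X) * (W + V) + trap2 ((Y, V) :: r)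

/-- An affine majorant of the target on a bin, `(A + S V) / 10¹⁶`. -/
structure Bin where
  /-- The left end. -/
  a : ℕ
  /-- The right end. -/
  b : ℕ
  /-- The intercept. -/
  A : ℤ
  /-- The slope. -/
  S : ℤ

/-- The line of a bin. -/
def Bin.line (q : Bin) (v : ℝ) : ℝ := ((q.A : ℝ) + (q.S : ℝ) * (10 ^ 8 * v)) / 10 ^ 16

/-- The bins cover `[lo, hi]`. -/
def covers (lo hi : ℕ) : List Bin → Bool
  | [] => decide (hi ≤ lo)
  | q :: r => decide (q.a ≤ lo) && covers q.b hi r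

/-- The inequality at one value of the mean. -/
def valueOK (C0 M1 P0 P1 G D A S V : ℤ) : Bool :=
  decide (2 * (M1 - C0) * (A + S * V + D) ≤
    2 * 10 ^ 8 * (P0 * (M1 - V) + P1 * (V - C0)) + 10 ^ 4 * G * (M1 - C0))

/-- One bin, clipped to the box. -/
def binOK (C0 M1 P0 P1 G D : ℤ) (q : Bin) : Bool :=
  decide (min (q.b : ℤ) M1 < max (q.a : ℤ) C0) ||
    (valueOK C0 M1 P0 P1 G D q.A q.S (max (q.a : ℤ) C0) &&
      valueOK C0 M1 P0 P1 G D q.A q.S (min (q.b : ℤ) M1))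

/-- The leaf test. -/
def leafOK (C0 C1 M0 M1 D : ℕ) (bins : List Bin) (P0 P1 U0 U1 : ℕ) (xs : List (ℕ × ℕ)) : Bool :=
  decide (C0 < M1 ∧ M1 ≤ 10 ^ 8 ∧ 100 * (P0 : ℤ) ^ 2 ≤ lowSq C0 ∧
      100 * (P1 : ℤ) ^ 2 ≤ lowSq M1 ∧ upSq C0 ≤ 100 * (U0 : ℤ) ^ 2 ∧
      upSq M1 ≤ 100 * (U1 : ℤ) ^ 2) &&
    nodesOK C0 M1 U0 U1 C1 M0 xs &&
    bins.all (binOK C0 M1 P0 P1 (trap2 xs) D)

/-- The certificate test; `sk` says which boxes may be skipped. -/
def check (bins : List Bin) (D : ℕ) (sk : ℕ → ℕ → ℕ → ℕ → Bool) :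
    Cert → ℕ → ℕ → ℕ → ℕ → Bool
  | .leaf P0 P1 U0 U1 xs, C0, C1, M0, M1 => leafOK C0 C1 M0 M1 D bins P0 P1 U0 U1 xs
  | .skip, C0, C1, M0, M1 => sk C0 C1 M0 M1
  | .splitC s l r, C0, C1, M0, M1 =>
      decide (C0 ≤ s) && check bins D sk l C0 s M0 M1 && check bins D sk r s C1 M0 M1
  | .splitM s l r, C0, C1, M0, M1 =>
      check bins D sk l C0 C1 M0 s && check bins D sk r C0 C1 s M1

/-- The lower bound on the gain of a cut. -/
def excursionOK (P E M : ℕ) (R : ℤ) (U0 U1 : ℕ) (xs : List (ℕ × ℕ)) : Bool :=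
  decide (P < M ∧ E ≤ M ∧ M ≤ 10 ^ 8 ∧ upSq P ≤ 100 * (U0 : ℤ) ^ 2 ∧
      upSq M ≤ 100 * (U1 : ℤ) ^ 2 ∧ R < 10 ^ 4 * trap2 xs) &&
    nodesOK P M U0 U1 P E xs

/-- The calibration statement on a box. -/
def BoxPin (tg : ℝ → ℝ) (lo hi D C0 C1 M0 M1 : ℕ) : Prop :=
  ∀ c m v : ℝ, v ∈ Icc ((lo : ℝ) / 10 ^ 8) ((hi : ℝ) / 10 ^ 8) →
    c ∈ Icc ((C0 : ℝ) / 10 ^ 8) ((C1 : ℝ) / 10 ^ 8) → m ∈ Icc ((M0 : ℝ) / 10 ^ 8) ((M1 : ℝ) / 10 ^ 8) →
      c ≤ v → v ≤ m → Calibrated ((C0 : ℝ) / 10 ^ 8) c m v (tg v + (D : ℝ) / 10 ^ 16)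

theorem lowSq_cast (X : ℤ) : ((lowSq X : ℤ) : ℝ) = 10 ^ 18 * lowSqR ((X : ℝ) / 10 ^ 8) := by
  rw [lowSq, lowSqR, mul_min_of_nonneg _ _ (by norm_num : (0 : ℝ) ≤ 10 ^ 18),
    mul_min_of_nonneg _ _ (by norm_num : (0 : ℝ) ≤ 10 ^ 18)]
  push_cast
  congr 1
  · ring
  · congr 1
    · norm_num
    · ring

theorem upSq_cast (X : ℤ) : ((upSq X : ℤ) : ℝ) = 10 ^ 18 * upSqR ((X : ℝ) / 10 ^ 8) := by
  rw [upSq, upSqR, mul_min_of_nonneg _ _ (by norm_num : (0 : ℝ) ≤ 10 ^ 18),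
    mul_min_of_nonneg _ _ (by norm_num : (0 : ℝ) ≤ 10 ^ 18)]
  push_cast
  congr 1
  · ring
  · congr 1
    · norm_num
    · ring

theorem prof_ge {X P : ℕ} (hX : X ≤ 10 ^ 8) (h : 100 * (P : ℤ) ^ 2 ≤ lowSq X) :
    2 * ((P : ℝ) / 10 ^ 8) ≤ prof ((X : ℝ) / 10 ^ 8) := by
  have h' := (Int.cast_le (R := ℝ)).2 h
  rw [lowSq_cast] at h'
  push_cast at h'
  have hX' : (X : ℝ) ≤ 10 ^ 8 := by exact_mod_cast hX
  have := lowSqR_le (a := (X : ℝ) / 10 ^ 8) (by positivity) ((div_le_one (by norm_num)).2 hX')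
  have h2 : ((P : ℝ) / 10 ^ 8) ^ 2 ≤ (prof ((X : ℝ) / 10 ^ 8) / 2) ^ 2 := by linarith
  have h3 := (sq_le_sq₀ (by positivity) (div_nonneg (prof_nonneg _) zero_le_two)).1 h2
  linarith

theorem prof_le {X U : ℕ} (hX : X ≤ 10 ^ 8) (h : upSq X ≤ 100 * (U : ℤ) ^ 2) :
    prof ((X : ℝ) / 10 ^ 8) ≤ 2 * ((U : ℝ) / 10 ^ 8) := by
  have h' := (Int.cast_le (R := ℝ)).2 h
  rw [upSq_cast] at h'
  push_cast at h'
  have hX' : (X : ℝ) ≤ 10 ^ 8 := by exact_mod_cast hX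
  have := le_upSqR (a := (X : ℝ) / 10 ^ 8) (by positivity) ((div_le_one (by norm_num)).2 hX')
  have h2 : (prof ((X : ℝ) / 10 ^ 8) / 2) ^ 2 ≤ ((U : ℝ) / 10 ^ 8) ^ 2 := by linarith
  have h3 := (sq_le_sq₀ (div_nonneg (prof_nonneg _) zero_le_two) (by positivity)).1 h2
  linarith

/-- A node inequality at both ends gives the trapezoid on the cell. -/
theorem cell_le {C M al be x y W V : ℝ} (hCM : C < M) (hCx : C ≤ x) (hyM : y ≤ M)
    (hup : ∀ a ∈ Icc x y, chord C M a ≤ 2 * (al + be * a))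
    (hx : 0 ≤ x) (hxy : x ≤ y) (hy : y ≤ 1)
    (hW : 0 ≤ W) (hW1 : W ≤ 1) (hV : 0 ≤ V) (hV1 : V ≤ 1)
    (hx2 : (al + be * x) ^ 2 ≤ (1 - W ^ 2) * lowSqR x)
    (hy2 : (al + be * y) ^ 2 ≤ (1 - V ^ 2) * lowSqR y) :
    (y - x) * ((W + V) / 2) ≤ ∫ a in x..y, weight C M a := by
  rcases hxy.eq_or_lt with rfl | hlt
  · simp
  set l : ℝ → ℝ := fun a => W + (V - W) * ((a - x) / (y - x)) with hl
  have hne : y - x ≠ 0 := by linarith
  have hint : ∫ a in x..y, l a = (y - x) * ((W + V) / 2) := by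
    have e : l = fun a => (V - W) / (y - x) * a + (W - (V - W) / (y - x) * x) := by
      funext a; simp only [hl]; ring
    rw [e]
    rw [intervalIntegral.integral_add (f := fun a => (V - W) / (y - x) * a)
        (g := fun _ => W - (V - W) / (y - x) * x)
        (Continuous.intervalIntegrable (by fun_prop) _ _) intervalIntegrable_const,
      intervalIntegral.integral_const_mul, integral_id, intervalIntegral.integral_const, smul_eq_mul]
    field_simp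
    ring
  rw [← hint]
  refine intervalIntegral.integral_mono_on hxy ?_ (intervalIntegrable_weight C M x y) ?_
  · exact (Continuous.intervalIntegrable (by fun_prop) _ _)
  intro a ha
  have hca : 0 ≤ chord C M a :=
    chord_nonneg hCM ⟨hCx.trans ha.1, ha.2.trans hyM⟩
  have hua := hup a ha
  obtain ⟨t, ht0, ht1, rfl⟩ : ∃ t, 0 ≤ t ∧ t ≤ 1 ∧ a = (1 - t) * x + t * y :=
    ⟨(a - x) / (y - x), div_nonneg (by linarith [ha.1]) (by linarith),
      (div_le_one (by linarith)).2 (by linarith [ha.2]), by field_simp; ring⟩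
  have hla : l ((1 - t) * x + t * y) = (1 - t) * W + t * V := by
    simp only [hl]
    field_simp
    ring
  rw [hla]
  set w := (1 - t) * W + t * V with hw
  have hu : 0 ≤ 1 - t := by linarith
  have hw0 : 0 ≤ w := by positivity
  have hq0 := lowSqR_nonneg hx (hxy.trans hy)
  have hq1 := lowSqR_nonneg (hx.trans hxy) hy
  have ha0 : 0 ≤ (1 - t) * x + t * y := hx.trans ha.1
  have ha1 : (1 - t) * x + t * y ≤ 1 := ha.2.trans hy
  set a := (1 - t) * x + t * y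
  have hp : 0 ≤ 1 - W ^ 2 := by nlinarith
  have hr : 0 ≤ 1 - V ^ 2 := by nlinarith
  have cs : ((1 - t) * (al + be * x) + t * (al + be * y)) ^ 2 ≤
      ((1 - t) * lowSqR x + t * lowSqR y) * ((1 - t) * (1 - W ^ 2) + t * (1 - V ^ 2)) :=
    cauchy_two hu ht0 hq0 hq1 hp hr (hx2.trans_eq (mul_comm _ _)) (hy2.trans_eq (mul_comm _ _))
  have hcv : (1 - t) * (1 - W ^ 2) + t * (1 - V ^ 2) ≤ 1 - w ^ 2 := by
    have := mul_nonneg (mul_nonneg hu ht0) (sq_nonneg (W - V))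
    linear_combination this
  have main : (al + be * a) ^ 2 ≤ (1 - w ^ 2) * (prof a / 2) ^ 2 := by
    rw [show al + be * a = (1 - t) * (al + be * x) + t * (al + be * y) by simp only [a]; ring]
    refine cs.trans ((mul_le_mul ((lowSqR_concave x y t ht0 ht1).trans (lowSqR_le ha0 ha1)) hcv
      (by positivity) (sq_nonneg _)).trans (le_of_eq (mul_comm _ _)))
  have main2 : chord C M a ^ 2 ≤ (1 - w ^ 2) * prof a ^ 2 := by
    have := pow_le_pow_left₀ hca hua 2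
    linear_combination this + 4 * main
  unfold weight
  refine Real.le_sqrt_of_sq_le (le_max_of_le_right ?_)
  rcases (prof_nonneg a).eq_or_lt with h | h
  · rw [← h, div_zero, zero_pow two_ne_zero, sub_zero]
    nlinarith
  · rw [div_pow, le_sub_iff_add_le, add_comm, ← le_sub_iff_add_le, div_le_iff₀ (by positivity)]
    exact main2

theorem nodes_le {C0 M1 U0 U1 : ℕ} (hCM : C0 < M1) (hM1 : M1 ≤ 10 ^ 8) {C M : ℝ} (hCM' : C < M)
    (hC : C ≤ (C0 : ℝ) / 10 ^ 8) (hM : (M1 : ℝ) / 10 ^ 8 ≤ M) (_hC0 : 0 ≤ C)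
    (hup : ∀ a ∈ Icc ((C0 : ℝ) / 10 ^ 8) ((M1 : ℝ) / 10 ^ 8), chord C M a ≤ 2 *
      (((U0 : ℝ) * (M1 - 10 ^ 8 * a) + U1 * (10 ^ 8 * a - C0)) / (10 ^ 8 * (M1 - C0)))) :
    ∀ (xs : List (ℕ × ℕ)) (lo M0 : ℤ) (c m : ℝ), nodesOK C0 M1 U0 U1 lo M0 xs = true →
      (C0 : ℤ) ≤ lo → M0 ≤ M1 → c ≤ (lo : ℝ) / 10 ^ 8 → (M0 : ℝ) / 10 ^ 8 ≤ m → c ≤ m →
      (trap2 xs : ℝ) / (2 * 10 ^ 12) ≤ ∫ a in c..m, weight C M a := by
  have hH : (0 : ℝ) < (M1 : ℝ) - C0 := by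
    have : (C0 : ℝ) < M1 := by exact_mod_cast hCM
    linarith
  have hM1' : (M1 : ℝ) ≤ 10 ^ 8 := by exact_mod_cast hM1
  set be : ℝ := ((U1 : ℝ) - U0) / ((M1 : ℝ) - C0) with hbe
  set al : ℝ := ((U0 : ℝ) * M1 - U1 * C0) / (10 ^ 8 * ((M1 : ℝ) - C0)) with hal
  have hpsi : ∀ a : ℝ, al + be * a =
      ((U0 : ℝ) * (M1 - 10 ^ 8 * a) + U1 * (10 ^ 8 * a - C0)) / (10 ^ 8 * (M1 - C0)) := by
    intro a
    simp only [hbe, hal]
    field_simp
    ring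
  have node : ∀ X W : ℕ, W ≤ 10000 → (((U0 : ℤ) * ((M1 : ℤ) - X) + U1 * ((X : ℤ) - C0)) ^ 2 * 10 ^ 10 ≤
      (10 ^ 8 - (W : ℤ) ^ 2) * lowSq X * ((M1 : ℤ) - C0) ^ 2) →
      (W : ℝ) / 10000 ≤ 1 ∧ (al + be * ((X : ℝ) / 10 ^ 8)) ^ 2 ≤
        (1 - ((W : ℝ) / 10000) ^ 2) * lowSqR ((X : ℝ) / 10 ^ 8) := by
    intro X W hW h
    have hW' : (W : ℝ) ≤ 10000 := by exact_mod_cast hW
    have h' := (Int.cast_le (R := ℝ)).2 h
    push_cast at h'
    rw [lowSq_cast] at h'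
    push_cast at h'
    refine ⟨(div_le_one (by norm_num)).2 hW', ?_⟩
    rw [hpsi, div_pow, div_le_iff₀ (by positivity)]
    linear_combination h' / 10 ^ 10
  intro xs
  induction xs with
  | nil =>
    intro lo M0 c m _ _ _ _ _ hcm
    simp only [trap2, Int.cast_zero, zero_div]
    exact intervalIntegral.integral_nonneg hcm fun a _ => weight_nonneg C M a
  | cons p r ih =>
    intro lo M0 c m h hlo0 hM0 hc hm hcm
    obtain ⟨X, W⟩ := p
    simp only [nodesOK, Bool.and_eq_true, decide_eq_true_eq] at h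
    obtain ⟨⟨hlo, hX, hW, hn⟩, hr⟩ := h
    have hlo' : (lo : ℝ) ≤ X := by exact_mod_cast hlo
    have hX' : (X : ℝ) ≤ M0 := by exact_mod_cast hX
    have hcX : c ≤ (X : ℝ) / 10 ^ 8 := hc.trans (by linarith)
    cases r with
    | nil =>
      simp only [trap2, Int.cast_zero, zero_div]
      exact intervalIntegral.integral_nonneg hcm fun a _ => weight_nonneg C M a
    | cons q r =>
      obtain ⟨Y, V⟩ := q
      have hr0 := hr
      simp only [nodesOK, Bool.and_eq_true, decide_eq_true_eq] at hr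
      obtain ⟨⟨hXY, hY, hV, hn'⟩, hr'⟩ := hr
      have hXY' : (X : ℝ) ≤ Y := by exact_mod_cast hXY
      have hY' : (Y : ℝ) ≤ M0 := by exact_mod_cast hY
      have hM0' : (M0 : ℝ) ≤ M1 := by exact_mod_cast hM0
      have hlo0' : (C0 : ℝ) ≤ lo := by exact_mod_cast hlo0
      obtain ⟨hW1, hWs⟩ := node X W hW hn
      obtain ⟨hV1, hVs⟩ := node Y V hV hn'
      have hXC : (C0 : ℝ) / 10 ^ 8 ≤ (X : ℝ) / 10 ^ 8 := by linarith
      have hYM : (Y : ℝ) / 10 ^ 8 ≤ (M1 : ℝ) / 10 ^ 8 := by linarith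
      have hA := cell_le hCM' (hC.trans hXC) (hYM.trans hM)
        (fun a ha => by rw [hpsi]; exact hup a ⟨hXC.trans ha.1, ha.2.trans hYM⟩)
        (by positivity) (by linarith : (X : ℝ) / 10 ^ 8 ≤ (Y : ℝ) / 10 ^ 8)
        (hYM.trans (by linarith)) (by positivity) hW1 (by positivity) hV1 hWs hVs
      have hYm : (Y : ℝ) / 10 ^ 8 ≤ m := le_trans (by linarith) hm
      have hB := ih (Y : ℤ) M0 ((Y : ℝ) / 10 ^ 8) m
        (by simp only [nodesOK, Bool.and_eq_true, decide_eq_true_eq]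
            exact ⟨⟨le_refl _, hY, hV, hn'⟩, hr'⟩)
        (by linarith) hM0 (by push_cast; exact le_refl _) hm hYm
      have hI := intervalIntegrable_weight C M
      rw [← intervalIntegral.integral_add_adjacent_intervals (hI c ((X : ℝ) / 10 ^ 8)) (hI _ m),
        ← intervalIntegral.integral_add_adjacent_intervals
          (hI ((X : ℝ) / 10 ^ 8) ((Y : ℝ) / 10 ^ 8)) (hI _ m)]
      have hC' : 0 ≤ ∫ a in c..(X : ℝ) / 10 ^ 8, weight C M a :=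
        intervalIntegral.integral_nonneg hcX fun a _ => weight_nonneg C M a
      simp only [trap2, Int.cast_add, Int.cast_mul, Int.cast_sub, Int.cast_natCast]
      have e : ((Y : ℝ) / 10 ^ 8 - (X : ℝ) / 10 ^ 8) *
          (((W : ℝ) / 10000 + (V : ℝ) / 10000) / 2) =
          ((Y : ℝ) - X) * (W + V) / (2 * 10 ^ 12) := by ring
      rw [e] at hA
      rw [add_div]
      linarith

theorem exists_bin : ∀ {bins : List Bin} {lo hi : ℕ}, covers lo hi bins = true → ∀ {v : ℝ},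
    (lo : ℝ) / 10 ^ 8 ≤ v → v ≤ (hi : ℝ) / 10 ^ 8 → (lo < hi) →
      ∃ q ∈ bins, (q.a : ℝ) / 10 ^ 8 ≤ v ∧ v ≤ (q.b : ℝ) / 10 ^ 8 := by
  intro bins
  induction bins with
  | nil =>
    intro lo hi h v _ _ hlt
    simp only [covers, decide_eq_true_eq] at h
    omega
  | cons q r ih =>
    intro lo hi h v hlo hhi hlt
    simp only [covers, Bool.and_eq_true, decide_eq_true_eq] at h
    have ha : (q.a : ℝ) ≤ lo := by exact_mod_cast h.1
    by_cases hv : v ≤ (q.b : ℝ) / 10 ^ 8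
    · exact ⟨q, List.mem_cons_self, le_trans (by linarith) hlo, hv⟩
    · push Not at hv
      have hlt' : q.b < hi := by
        have : (q.b : ℝ) < hi := by
          have := hv.trans_le hhi
          linarith
        exact_mod_cast this
      obtain ⟨q', hq', rest⟩ := ih h.2 hv.le hhi hlt'
      exact ⟨q', List.mem_cons_of_mem _ hq', rest⟩

theorem chord_le_line {C0 M1 U0 U1 : ℕ} (hCM : C0 < M1)
    (h0 : prof ((C0 : ℝ) / 10 ^ 8) ≤ 2 * ((U0 : ℝ) / 10 ^ 8))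
    (h1 : prof ((M1 : ℝ) / 10 ^ 8) ≤ 2 * ((U1 : ℝ) / 10 ^ 8)) :
    ∀ a ∈ Icc ((C0 : ℝ) / 10 ^ 8) ((M1 : ℝ) / 10 ^ 8),
      chord ((C0 : ℝ) / 10 ^ 8) ((M1 : ℝ) / 10 ^ 8) a ≤ 2 *
        (((U0 : ℝ) * (M1 - 10 ^ 8 * a) + U1 * (10 ^ 8 * a - C0)) / (10 ^ 8 * (M1 - C0))) := by
  intro a ha
  have hlt : (C0 : ℝ) < M1 := by exact_mod_cast hCM
  have hH : (M1 : ℝ) - C0 ≠ 0 := by linarith
  rw [chord_eq]
  set t := (a - (C0 : ℝ) / 10 ^ 8) / ((M1 : ℝ) / 10 ^ 8 - (C0 : ℝ) / 10 ^ 8) with ht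
  have hd : (0 : ℝ) < (M1 : ℝ) / 10 ^ 8 - (C0 : ℝ) / 10 ^ 8 := by linarith
  have ht0 : 0 ≤ t := div_nonneg (by linarith [ha.1]) hd.le
  have hu : 0 ≤ 1 - t := sub_nonneg.2 ((div_le_one hd).2 (by linarith [ha.2]))
  refine (add_le_add (mul_le_mul_of_nonneg_left h0 hu)
    (mul_le_mul_of_nonneg_left h1 ht0)).trans (le_of_eq ?_)
  simp only [ht]
  field_simp
  ring

theorem line_le_chord {C0 M1 P0 P1 : ℕ} (hCM : C0 < M1)
    (h0 : 2 * ((P0 : ℝ) / 10 ^ 8) ≤ prof ((C0 : ℝ) / 10 ^ 8))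
    (h1 : 2 * ((P1 : ℝ) / 10 ^ 8) ≤ prof ((M1 : ℝ) / 10 ^ 8)) :
    ∀ a ∈ Icc ((C0 : ℝ) / 10 ^ 8) ((M1 : ℝ) / 10 ^ 8), 2 *
        (((P0 : ℝ) * (M1 - 10 ^ 8 * a) + P1 * (10 ^ 8 * a - C0)) / (10 ^ 8 * (M1 - C0))) ≤
      chord ((C0 : ℝ) / 10 ^ 8) ((M1 : ℝ) / 10 ^ 8) a := by
  intro a ha
  have hlt : (C0 : ℝ) < M1 := by exact_mod_cast hCM
  have hH : (M1 : ℝ) - C0 ≠ 0 := by linarith
  rw [chord_eq]
  set t := (a - (C0 : ℝ) / 10 ^ 8) / ((M1 : ℝ) / 10 ^ 8 - (C0 : ℝ) / 10 ^ 8) with ht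
  have hd : (0 : ℝ) < (M1 : ℝ) / 10 ^ 8 - (C0 : ℝ) / 10 ^ 8 := by linarith
  have ht0 : 0 ≤ t := div_nonneg (by linarith [ha.1]) hd.le
  have hu : 0 ≤ 1 - t := sub_nonneg.2 ((div_le_one hd).2 (by linarith [ha.2]))
  refine (le_of_eq ?_).trans (add_le_add (mul_le_mul_of_nonneg_left h0 hu)
    (mul_le_mul_of_nonneg_left h1 ht0))
  simp only [ht]
  field_simp
  ring

theorem leaf_sound {tg : ℝ → ℝ} {bins : List Bin} {lo hi D : ℕ}
    (hb : covers lo hi bins = true) (hlh : lo < hi)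
    (hdom : ∀ q ∈ bins, ∀ v : ℝ, (q.a : ℝ) / 10 ^ 8 ≤ v → v ≤ (q.b : ℝ) / 10 ^ 8 →
      tg v ≤ q.line v)
    {C0 C1 M0 M1 P0 P1 U0 U1 : ℕ} {xs : List (ℕ × ℕ)}
    (h : leafOK C0 C1 M0 M1 D bins P0 P1 U0 U1 xs = true) (hC01 : C0 ≤ C1) (hM01 : M0 ≤ M1) :
    BoxPin tg lo hi D C0 C1 M0 M1 := by
  simp only [leafOK, Bool.and_eq_true, decide_eq_true_eq, List.all_eq_true] at h
  obtain ⟨⟨⟨hCM, hM1, hP0, hP1, hU0, hU1⟩, hn⟩, hv⟩ := h
  intro c m v hvI hc hm hcv hvm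
  set C : ℝ := (C0 : ℝ) / 10 ^ 8 with hCdef
  set M : ℝ := (M1 : ℝ) / 10 ^ 8 with hMdef
  have hlt : (C0 : ℝ) < M1 := by exact_mod_cast hCM
  have hM1' : (M1 : ℝ) ≤ 10 ^ 8 := by exact_mod_cast hM1
  refine ⟨C, M, le_rfl, hc.1, hm.2, (div_le_one (by norm_num)).2 hM1', ?_⟩
  have hC0 : C0 ≤ 10 ^ 8 := hCM.le.trans hM1
  have hup := chord_le_line hCM (prof_le hC0 hU0) (prof_le hM1 hU1)
  have hlow := line_le_chord hCM (prof_ge hC0 hP0) (prof_ge hM1 hP1) v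
    ⟨hc.1.trans hcv, hvm.trans hm.2⟩
  have hG := nodes_le hCM hM1 (C := C) (M := M) (by simp only [hCdef, hMdef]; linarith) le_rfl le_rfl
    (by positivity) hup xs (C1 : ℤ) (M0 : ℤ) c m hn (by exact_mod_cast hC01)
    (by exact_mod_cast hM01) (by push_cast; exact hc.2) (by push_cast; exact hm.1) (hcv.trans hvm)
  obtain ⟨q, hq, hqa, hqb⟩ := exists_bin hb hvI.1 hvI.2 hlh
  have hJ := hdom q hq v hqa hqb
  have hbin := hv q hq
  simp only [binOK, Bool.or_eq_true, Bool.and_eq_true, decide_eq_true_eq, valueOK] at hbin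
  have hV1 : max (q.a : ℝ) C0 ≤ 10 ^ 8 * v := max_le (by linarith) (by linarith [hc.1])
  have hV2 : 10 ^ 8 * v ≤ min (q.b : ℝ) M1 := le_min (by linarith) (by linarith [hm.2])
  rcases hbin with hE | ⟨hL, hR⟩
  · have : min (q.b : ℝ) M1 < max (q.a : ℝ) C0 := by exact_mod_cast hE
    linarith [hV1.trans hV2]
  have hL' := (Int.cast_le (R := ℝ)).2 hL
  have hR' := (Int.cast_le (R := ℝ)).2 hR
  push_cast at hL' hR'
  set N : ℝ := (trap2 xs : ℝ)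
  set H : ℝ := (M1 : ℝ) - C0 with hHdef
  have hH : 0 < H := by simp only [hHdef]; linarith
  have main : 2 * H * ((q.A : ℝ) + q.S * (10 ^ 8 * v) + D) ≤
      2 * 10 ^ 8 * ((P0 : ℝ) * (M1 - 10 ^ 8 * v) + P1 * (10 ^ 8 * v - C0)) + 10 ^ 4 * N * H := by
    rcases le_total (2 * H * q.S) (2 * 10 ^ 8 * ((P1 : ℝ) - P0)) with hs | hs
    · have := mul_le_mul_of_nonneg_right hs (sub_nonneg.2 hV1)
      linarith
    · have := mul_le_mul_of_nonneg_right hs (sub_nonneg.2 hV2)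
      linarith
  have key : ((q.A : ℝ) + q.S * (10 ^ 8 * v)) / 10 ^ 16 + (D : ℝ) / 10 ^ 16 ≤
      ((P0 : ℝ) * (M1 - 10 ^ 8 * v) + P1 * (10 ^ 8 * v - C0)) / (10 ^ 8 * H) +
        N / (2 * 10 ^ 12) := by
    rw [← add_div, div_add_div _ _ (by positivity) (by norm_num),
      div_le_div_iff₀ (by norm_num) (by positivity)]
    linear_combination (10 ^ 20 : ℝ) * main
  simp only [Bin.line] at hJ
  simp only [hCdef, hMdef] at hG ⊢
  linarith

theorem check_sound {tg : ℝ → ℝ} {bins : List Bin} {lo hi D : ℕ}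
    (hb : covers lo hi bins = true) (hlh : lo < hi)
    (hdom : ∀ q ∈ bins, ∀ v : ℝ, (q.a : ℝ) / 10 ^ 8 ≤ v → v ≤ (q.b : ℝ) / 10 ^ 8 →
      tg v ≤ q.line v)
    {sk : ℕ → ℕ → ℕ → ℕ → Bool}
    (hsk : ∀ C0 C1 M0 M1, sk C0 C1 M0 M1 = true → BoxPin tg lo hi D C0 C1 M0 M1) :
    ∀ (T : Cert) (C0 C1 M0 M1 : ℕ), check bins D sk T C0 C1 M0 M1 = true →
      C0 ≤ C1 → M0 ≤ M1 → BoxPin tg lo hi D C0 C1 M0 M1 := by
  intro T
  induction T with
  | leaf P0 P1 U0 U1 xs =>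
    intro C0 C1 M0 M1 h hC hM
    exact leaf_sound hb hlh hdom h hC hM
  | skip => intro C0 C1 M0 M1 h _ _; exact hsk _ _ _ _ h
  | splitC s l r ihl ihr =>
    intro C0 C1 M0 M1 h hC hM
    simp only [check, Bool.and_eq_true, decide_eq_true_eq] at h
    intro c m v hv hc hm hcv hvm
    by_cases hs : c ≤ (s : ℝ) / 10 ^ 8
    · exact ihl _ _ _ _ h.1.2 h.1.1 hM c m v hv ⟨hc.1, hs⟩ hm hcv hvm
    · have hs' := (lt_of_not_ge hs).le
      have hsC : s ≤ C1 := by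
        have : (s : ℝ) < C1 := by linarith [hc.2, lt_of_not_ge hs]
        exact_mod_cast this.le
      obtain ⟨C, M, h1, rest⟩ := ihr _ _ _ _ h.2 hsC hM c m v hv ⟨hs', hc.2⟩ hm hcv hvm
      exact ⟨C, M, le_trans (by
        have : (C0 : ℝ) ≤ s := by exact_mod_cast h.1.1
        linarith) h1, rest⟩
  | splitM s l r ihl ihr =>
    intro C0 C1 M0 M1 h hC hM
    simp only [check, Bool.and_eq_true] at h
    intro c m v hv hc hm hcv hvm
    by_cases hs : m ≤ (s : ℝ) / 10 ^ 8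
    · have : M0 ≤ s := by
        have : (M0 : ℝ) ≤ s := by linarith [hm.1]
        exact_mod_cast this
      exact ihl _ _ _ _ h.1 hC this c m v hv hc ⟨hm.1, hs⟩ hcv hvm
    · have : s ≤ M1 := by
        have : (s : ℝ) ≤ M1 := by linarith [hm.2, lt_of_not_ge hs]
        exact_mod_cast this
      exact ihr _ _ _ _ h.2 hC this c m v hv hc ⟨(lt_of_not_ge hs).le, hm.2⟩ hcv hvm

theorem chord_anti {p m₀ m a : ℝ} (hp : 0 ≤ p) (hpm : p < m₀) (hm : m₀ ≤ m) (hm1 : m ≤ 1)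
    (ha : a ∈ Icc p m₀) : chord p m a ≤ chord p m₀ a := by
  have h0 : 0 < m - p := by linarith
  set t := (m₀ - p) / (m - p) with ht
  have ht0 : 0 ≤ t := div_nonneg (by linarith) h0.le
  have ht1 : t ≤ 1 := (div_le_one h0).2 (by linarith)
  have h := prof_interp hp (by linarith) (by linarith) hm1 ht0 ht1
  have e : (1 - t) * p + t * m = m₀ := by
    simp only [ht]
    field_simp
    ring
  rw [e] at h
  have hs : (prof m - prof p) / (m - p) ≤ (prof m₀ - prof p) / (m₀ - p) := by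
    rw [le_div_iff₀ (by linarith)]
    have : (prof m - prof p) / (m - p) * (m₀ - p) = t * (prof m - prof p) := by
      simp only [ht]; ring
    linarith
  have := mul_le_mul_of_nonneg_right hs (sub_nonneg.2 ha.1)
  simp only [chord]
  linear_combination this

theorem excursion_sound {P E M : ℕ} {R : ℤ} {U0 U1 : ℕ} {xs : List (ℕ × ℕ)}
    (h : excursionOK P E M R U0 U1 xs = true) {m : ℝ} (hm : (M : ℝ) / 10 ^ 8 ≤ m) (hm1 : m ≤ 1)
    (hPE : P ≤ E) :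
    (R : ℝ) / (2 * 10 ^ 16) < ∫ a in (P : ℝ) / 10 ^ 8..(E : ℝ) / 10 ^ 8, weight ((P : ℝ) / 10 ^ 8) m a := by
  simp only [excursionOK, Bool.and_eq_true, decide_eq_true_eq] at h
  obtain ⟨⟨hPM, hEM, hM1, hU0, hU1, hR⟩, hn⟩ := h
  have hup := chord_le_line hPM (prof_le (hPM.le.trans hM1) hU0) (prof_le hM1 hU1)
  have hPM' : (P : ℝ) / 10 ^ 8 < (M : ℝ) / 10 ^ 8 := by
    have : (P : ℝ) < M := by exact_mod_cast hPM
    linarith
  have hG := nodes_le hPM hM1 (C := (P : ℝ) / 10 ^ 8) (M := m) (hPM'.trans_le hm) le_rfl hm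
    (by positivity)
    (fun a ha => (chord_anti (by positivity) hPM' hm hm1 ha).trans (hup a ha))
    xs (P : ℤ) (E : ℤ) ((P : ℝ) / 10 ^ 8) ((E : ℝ) / 10 ^ 8) hn le_rfl (by exact_mod_cast hEM)
    (by push_cast; exact le_refl _) (by push_cast; exact le_refl _) (by
      have : (P : ℝ) ≤ E := by exact_mod_cast hPE
      linarith)
  refine lt_of_lt_of_le ?_ hG
  have : (R : ℝ) < 10 ^ 4 * (trap2 xs : ℝ) := by exact_mod_cast hR
  rw [div_lt_div_iff₀ (by norm_num) (by norm_num)]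
  linarith

end Vale.Agent.P232.Scalar
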