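import Vale.Agent.P232.Scalar.Rows
import Vale.Agent.P232.Scalar.Fast

/-!
# P232: box certificates of the scalar inequality (found by the script in the notes)
-/

namespace Vale.Agent.P232.Scalar

-- evaluation is left to the kernel, one subtree at a time
attribute [local irreducible] Fast.check

/-- The bins, with their tangency parameters. -/
def row0Bins : List (Bin × ℕ) :=
  [(⟨2500, 2708, 7080983667685, 5438542297⟩, 3677456),
   (⟨2708, 2916, 7453203776166, 5301000061⟩, 3772873),
   (⟨2916, 3125, 7817217162970, 5176106678⟩, 3863908),
   (⟨3125, 3333, 8172937279160, 5062210774⟩, 3950843),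
   (⟨3333, 3541, 8520253935577, 4957960216⟩, 4033917),
   (⟨3541, 3750, 8861437598247, 4861577519⟩, 4113891),
   (⟨3750, 3958, 9196178987197, 4772276510⟩, 4190872),
   (⟨3958, 4166, 9524147291832, 4689388945⟩, 4264948),
   (⟨4166, 4375, 9847336626051, 4611794157⟩, 4336707),
   (⟨4375, 4583, 10165303091053, 4539093625⟩, 4406166),
   (⟨4583, 4791, 10477624435388, 4470930236⟩, 4473342),
   (⟨4791, 5000, 10786095389012, 4406534539⟩, 4538714)]

theorem row0Bins_dom : row0Bins.all domOK = true := by decide +kernel

theorem row0Bins_covers : covers 2500 5000 (row0Bins.map Prod.fst) = true := by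
  decide +kernel

/-- A certificate. -/
def row0MainN1 : Cert :=
  .leaf 250662 12533141 250663 12533142 []

/-- A certificate. -/
def row0MainN2 : Cert :=
  .leaf 250662 0 250663 0
    [(5000, 9797), (159688, 9993), (500000, 9998)]

/-- A certificate. -/
def row0Main : Cert :=
  .splitM 500000 row0MainN1 row0MainN2

/-- A certificate. -/
def row0FloorN1 : Cert :=
  .leaf 250662 12533141 250663 12533142
    [(1350, 9036), (2500, 9380)]

/-- A certificate. -/
def row0FloorN2 : Cert :=
  .leaf 250662 0 250663 0
    [(156388, 9993), (500000, 9998)]

/-- A certificate. -/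
def row0Floor : Cert :=
  .splitM 500000 row0FloorN1 row0FloorN2

theorem row0Main_ok :
    check (row0Bins.map Prod.fst) (10 ^ 8) tubeSkip row0Main 200 5000 2500 (10 ^ 8) = true := by
  refine Fast.check_of ?_
  iterate 4 all_goals try first | apply Fast.splitM_ok | apply Fast.splitC_ok
  all_goals decide +kernel

theorem row0Floor_ok :
    check (row0Bins.map Prod.fst) (108 * 546 * 10 ^ 6 + 10 ^ 8) noSkip row0Floor 200 200 2500 (10 ^ 8) = true := by
  refine Fast.check_of ?_
  iterate 2 all_goals try apply Fast.splitM_ok
  all_goals decide +kernel

/-- The nodes of a crossing. -/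
def row0Cross : List (ℕ × ℕ) :=
  [
  (244, 3234), (375, 5078), (594, 5796), (900, 5864),
  (1294, 5510), (1775, 4784), (2344, 3554)]

theorem row0Cross_ok :
    excursionOK 200 3000 (max 2500 3000) (2 * (108 * 546 * 10 ^ 6) : ℕ) 250663 970813 row0Cross = true := by
  decide +kernel

/-- The bins, with their tangency parameters. -/
def row1Bins : List (Bin × ℕ) :=
  [(⟨5000, 5416, 11240359833966, 4316574091⟩, 4633304),
   (⟨5416, 5833, 11831924851891, 4207281838⟩, 4753663),
   (⟨5833, 6250, 12409741764980, 4108165534⟩, 4868353),
   (⟨6250, 6666, 12973733089236, 4017878757⟩, 4977751),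
   (⟨6666, 7083, 13525715020137, 3935040354⟩, 5082540),
   (⟨7083, 7500, 14067301999528, 3858547948⟩, 5183297),
   (⟨7500, 7916, 14598019497203, 3787758986⟩, 5280167),
   (⟨7916, 8333, 15119261758800, 3721894117⟩, 5373608),
   (⟨8333, 8750, 15632276537303, 3660312730⟩, 5464014),
   (⟨8750, 9166, 16136411118539, 3602681188⟩, 5551421),
   (⟨9166, 9583, 16632783743076, 3548516561⟩, 5636158),
   (⟨9583, 10000, 17122444182473, 3497409032⟩, 5718519)]

theorem row1Bins_dom : row1Bins.all domOK = true := by decide +kernel

theorem row1Bins_covers : covers 5000 10000 (row1Bins.map Prod.fst) = true := by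
  decide +kernel

/-- A certificate. -/
def row1MainN1 : Cert :=
  .leaf 354490 14904492 354491 14904493 []

/-- A certificate. -/
def row1MainN2 : Cert :=
  .leaf 354490 0 354491 0
    [(10000, 9797), (227846, 9991), (707106, 9997)]

/-- A certificate. -/
def row1Main : Cert :=
  .splitM 707106 row1MainN1 row1MainN2

/-- A certificate. -/
def row1FloorN1 : Cert :=
  .leaf 354490 14904492 354491 14904493
    [(2700, 8997), (5000, 9335)]

/-- A certificate. -/
def row1FloorN2 : Cert :=
  .leaf 354490 0 354491 0
    [(221246, 9990), (707106, 9997)]

/-- A certificate. -/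
def row1Floor : Cert :=
  .splitM 707106 row1FloorN1 row1FloorN2

theorem row1Main_ok :
    check (row1Bins.map Prod.fst) (10 ^ 8) tubeSkip row1Main 400 10000 5000 (10 ^ 8) = true := by
  refine Fast.check_of ?_
  iterate 4 all_goals try first | apply Fast.splitM_ok | apply Fast.splitC_ok
  all_goals decide +kernel

theorem row1Floor_ok :
    check (row1Bins.map Prod.fst) (159 * 771 * 10 ^ 6 + 10 ^ 8) noSkip row1Floor 400 400 5000 (10 ^ 8) = true := by
  refine Fast.check_of ?_
  iterate 2 all_goals try apply Fast.splitM_ok
  all_goals decide +kernel

/-- The nodes of a crossing. -/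
def row1Cross : List (ℕ × ℕ) :=
  [
  (488, 3234), (750, 5078), (1188, 5796), (1800, 5864),
  (2588, 5510), (3550, 4784), (4688, 3554)]

theorem row1Cross_ok :
    excursionOK 400 6000 (max 5000 6000) (2 * (159 * 771 * 10 ^ 6) : ℕ) 354491 1372937 row1Cross = true := by
  decide +kernel

/-- The bins, with their tangency parameters. -/
def row2Bins : List (Bin × ℕ) :=
  [(⟨10000, 11250, 18080848601554, 3403454132⟩, 5876383),
   (⟨11250, 12500, 19472507960502, 3279581001⟩, 6098340),
   (⟨12500, 13750, 20816087809462, 3171974967⟩, 6305220),
   (⟨13750, 15000, 22117603662362, 3077232221⟩, 6499347),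
   (⟨15000, 16250, 23381886427854, 2992881581⟩, 6682523),
   (⟨16250, 17500, 24612857121355, 2917079677⟩, 6856172),
   (⟨17500, 18750, 25813773508766, 2848416936⟩, 7021444),
   (⟨18750, 20000, 26987375234466, 2785793900⟩, 7179282),
   (⟨20000, 21250, 28135986393832, 2728338392⟩, 7330469),
   (⟨21250, 22500, 29261614555561, 2675347277⟩, 7475665),
   (⟨22500, 23750, 30365984727194, 2626247320⟩, 7615429),
   (⟨23750, 25000, 31450623625182, 2580564249⟩, 7750243)]

theorem row2Bins_dom : row2Bins.all domOK = true := by decide +kernel

theorem row2Bins_covers : covers 10000 25000 (row2Bins.map Prod.fst) = true := by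
  decide +kernel

/-- A certificate. -/
def row2MainN2 : Cert :=
  .leaf 434160 5604991 434161 5604992 []

/-- A certificate. -/
def row2MainN5 : Cert :=
  .leaf 434160 9967228 434161 9967229
    [(3872, 8754), (33912, 8973), (100000, 7900)]

/-- A certificate. -/
def row2MainN6 : Cert :=
  .leaf 434160 17724538 434161 17724539
    [(3872, 8955), (101483, 9224), (316227, 8063)]

/-- A certificate. -/
def row2MainN4 : Cert :=
  .splitM 316227 row2MainN5 row2MainN6

/-- A certificate. -/
def row2MainN7 : Cert :=
  .leaf 1102916 17724538 1102917 17724539
    [(25000, 8545), (62500, 8828), (100000, 8756)]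

/-- A certificate. -/
def row2MainN3 : Cert :=
  .splitC 3872 row2MainN4 row2MainN7

/-- A certificate. -/
def row2MainN1 : Cert :=
  .splitM 100000 row2MainN2 row2MainN3

/-- A certificate. -/
def row2MainN8 : Cert :=
  .leaf 434160 0 434161 0
    [(25000, 9879), (329688, 9990), (1000000, 9997)]

/-- A certificate. -/
def row2Main : Cert :=
  .splitM 1000000 row2MainN1 row2MainN8

/-- A certificate. -/
def row2FloorN2 : Cert :=
  .leaf 434160 5604991 434161 5604992
    [(5300, 8505), (10000, 8536)]

/-- A certificate. -/
def row2FloorN4 : Cert :=
  .leaf 434160 9967228 434161 9967229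
    [(31662, 9003), (100000, 7900)]

/-- A certificate. -/
def row2FloorN5 : Cert :=
  .leaf 434160 17724538 434161 17724539
    [(99233, 9235), (316227, 8063)]

/-- A certificate. -/
def row2FloorN3 : Cert :=
  .splitM 316227 row2FloorN4 row2FloorN5

/-- A certificate. -/
def row2FloorN1 : Cert :=
  .splitM 100000 row2FloorN2 row2FloorN3

/-- A certificate. -/
def row2FloorN6 : Cert :=
  .leaf 434160 0 434161 0
    [(312912, 9990), (1000000, 9997)]

/-- A certificate. -/
def row2Floor : Cert :=
  .splitM 1000000 row2FloorN1 row2FloorN6

theorem row2Main_ok :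
    check (row2Bins.map Prod.fst) (10 ^ 8) tubeSkip row2Main 600 25000 10000 (10 ^ 8) = true := by
  refine Fast.check_of ?_
  iterate 4 all_goals try first | apply Fast.splitM_ok | apply Fast.splitC_ok
  all_goals decide +kernel

theorem row2Floor_ok :
    check (row2Bins.map Prod.fst) (196 * 924 * 10 ^ 6 + 10 ^ 8) noSkip row2Floor 600 600 10000 (10 ^ 8) = true := by
  refine Fast.check_of ?_
  iterate 2 all_goals try apply Fast.splitM_ok
  all_goals decide +kernel

/-- The nodes of a crossing. -/
def row2Cross : List (ℕ × ℕ) :=
  [
  (747, 3427), (1188, 5304), (1922, 5987), (2950, 6019),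
  (4272, 5636), (5888, 4881), (7797, 3622)]

theorem row2Cross_ok :
    excursionOK 600 10000 (max 10000 10000) (2 * (196 * 924 * 10 ^ 6) : ℕ) 434161 1772454 row2Cross = true := by
  decide +kernel

/-- The bins, with their tangency parameters. -/
def row3Bins : List (Bin × ℕ) :=
  [(⟨25000, 27916, 33217797778154, 2510983671⟩, 7965006),
   (⟨27916, 30833, 35616114227393, 2424968152⟩, 8247531),
   (⟨30833, 33750, 37936598018803, 2349633446⟩, 8511966),
   (⟨33750, 36666, 40187758921329, 2282876475⟩, 8760877),
   (⟨36666, 39583, 42377531303755, 2223112703⟩, 8996395),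
   (⟨39583, 42500, 44512466593543, 2169144463⟩, 9220225),
   (⟨42500, 45416, 46597019752111, 2120070175⟩, 9433650),
   (⟨45416, 48333, 48635941311865, 2075155492⟩, 9637832),
   (⟨48333, 51250, 50633311325287, 2033813575⟩, 9833743),
   (⟨51250, 54166, 52591700386324, 1995587159⟩, 10022113),
   (⟨54166, 57083, 54514285550587, 1960081567⟩, 10203657),
   (⟨57083, 60000, 56403857842193, 1926969773⟩, 10378990)]

theorem row3Bins_dom : row3Bins.all domOK = true := by decide +kernel

theorem row3Bins_covers : covers 25000 60000 (row3Bins.map Prod.fst) = true := by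
  decide +kernel

/-- A certificate. -/
def row3MainN2 : Cert :=
  .leaf 686468 7903176 686469 7903177 []

/-- A certificate. -/
def row3MainN5 : Cert :=
  .leaf 686468 13271821 686469 13271822
    [(9486, 8649), (68652, 8809), (198817, 7609)]

/-- A certificate. -/
def row3MainN6 : Cert :=
  .leaf 686468 22287421 686469 22287422
    [(9486, 8874), (181733, 9088), (560675, 7783)]

/-- A certificate. -/
def row3MainN4 : Cert :=
  .splitM 560675 row3MainN5 row3MainN6

/-- A certificate. -/
def row3MainN7 : Cert :=
  .leaf 1726300 22287421 1726301 22287422
    [(60000, 8352), (129408, 8561), (198817, 8468)]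

/-- A certificate. -/
def row3MainN3 : Cert :=
  .splitC 9486 row3MainN4 row3MainN7

/-- A certificate. -/
def row3MainN1 : Cert :=
  .splitM 198817 row3MainN2 row3MainN3

/-- A certificate. -/
def row3MainN8 : Cert :=
  .leaf 686468 0 686469 0
    [(60000, 9874), (535356, 9986), (1581138, 9995)]

/-- A certificate. -/
def row3Main : Cert :=
  .splitM 1581138 row3MainN1 row3MainN8

/-- A certificate. -/
def row3FloorN2 : Cert :=
  .leaf 686468 7903176 686469 7903177
    [(13250, 8370), (25000, 8340)]

/-- A certificate. -/
def row3FloorN4 : Cert :=
  .leaf 686468 13271821 686469 13271822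
    [(63162, 8849), (198817, 7609)]

/-- A certificate. -/
def row3FloorN5 : Cert :=
  .leaf 686468 22287421 686469 22287422
    [(176242, 9105), (560675, 7783)]

/-- A certificate. -/
def row3FloorN3 : Cert :=
  .splitM 560675 row3FloorN4 row3FloorN5

/-- A certificate. -/
def row3FloorN1 : Cert :=
  .splitM 198817 row3FloorN2 row3FloorN3

/-- A certificate. -/
def row3FloorN6 : Cert :=
  .leaf 686468 0 686469 0
    [(495137, 9984), (1581138, 9995)]

/-- A certificate. -/
def row3Floor : Cert :=
  .splitM 1581138 row3FloorN1 row3FloorN6

theorem row3Main_ok :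
    check (row3Bins.map Prod.fst) (10 ^ 8) tubeSkip row3Main 1500 60000 25000 (10 ^ 8) = true := by
  refine Fast.check_of ?_
  iterate 4 all_goals try first | apply Fast.splitM_ok | apply Fast.splitC_ok
  all_goals decide +kernel

theorem row3Floor_ok :
    check (row3Bins.map Prod.fst) (323 * 1461 * 10 ^ 6 + 10 ^ 8) noSkip row3Floor 1500 1500 25000 (10 ^ 8) = true := by
  refine Fast.check_of ?_
  iterate 2 all_goals try apply Fast.splitM_ok
  all_goals decide +kernel

/-- The nodes of a crossing. -/
def row3Cross : List (ℕ × ℕ) :=
  [
  (1820, 3243), (2781, 5139), (4383, 5915), (6625, 6056),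
  (9508, 5802), (13031, 5228), (17195, 4287), (22000, 2685)]

theorem row3Cross_ok :
    excursionOK 1500 22000 (max 25000 22000) (2 * (323 * 1461 * 10 ^ 6) : ℕ) 686469 2802496 row3Cross = true := by
  decide +kernel

/-- The bins, with their tangency parameters. -/
def row4Bins : List (Bin × ℕ) :=
  [(⟨60000, 68333, 59961402427639, 1868931638⟩, 10701301),
   (⟨68333, 76666, 65046346207421, 1794394187⟩, 11145823),
   (⟨76666, 85000, 69939959160586, 1730480141⟩, 11557486),
   (⟨85000, 93333, 74667909158545, 1674797530⟩, 11941742),
   (⟨93333, 101666, 79250336325730, 1625656369⟩, 12302723),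
   (⟨101666, 110000, 83704136200793, 1581815575⟩, 12643699),
   (⟨110000, 118333, 88042421458259, 1542351349⟩, 12967214),
   (⟨118333, 126666, 92276067341363, 1506554227⟩, 13275327),
   (⟨126666, 135000, 96414960525484, 1473862921⟩, 13569783),
   (⟨135000, 143333, 100466818012505, 1443836389⟩, 13851985),
   (⟨143333, 151666, 104438330482705, 1416117686⟩, 14123120),
   (⟨151666, 160000, 108335932020706, 1390410520⟩, 14384241)]

theorem row4Bins_dom : row4Bins.all domOK = true := by decide +kernel

theorem row4Bins_covers : covers 60000 160000 (row4Bins.map Prod.fst) = true := by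
  decide +kernel

/-- A certificate. -/
def row4MainN2 : Cert :=
  .leaf 1120998 10974409 1120999 10974410 []

/-- A certificate. -/
def row4MainN5 : Cert :=
  .leaf 1120998 17448050 1120999 17448051
    [(25298, 8508), (204332, 8264), (383365, 7266)]

/-- A certificate. -/
def row4MainN6 : Cert :=
  .leaf 1120998 27740397 1120999 27740398
    [(25298, 8773), (320219, 8905), (969045, 7456)]

/-- A certificate. -/
def row4MainN4 : Cert :=
  .splitM 969045 row4MainN5 row4MainN6

/-- A certificate. -/
def row4MainN7 : Cert :=
  .leaf 2819149 27740397 2819150 27740398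
    [(160000, 8052), (271682, 8151), (383365, 8057)]

/-- A certificate. -/
def row4MainN3 : Cert :=
  .splitC 25298 row4MainN4 row4MainN7

/-- A certificate. -/
def row4MainN1 : Cert :=
  .splitM 383365 row4MainN2 row4MainN3

/-- A certificate. -/
def row4MainN8 : Cert :=
  .leaf 1120998 0 1120999 0
    [(160000, 9874), (1304744, 9985), (2449489, 9992)]

/-- A certificate. -/
def row4Main : Cert :=
  .splitM 2449489 row4MainN1 row4MainN8

/-- A certificate. -/
def row4FloorN2 : Cert :=
  .leaf 1120998 10974409 1120999 10974410
    [(32000, 8125), (60000, 8050)]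

/-- A certificate. -/
def row4FloorN4 : Cert :=
  .leaf 1120998 17448050 1120999 17448051
    [(122552, 8637), (383365, 7266)]

/-- A certificate. -/
def row4FloorN5 : Cert :=
  .leaf 1120998 27740397 1120999 27740398
    [(305577, 8933), (969045, 7456)]

/-- A certificate. -/
def row4FloorN3 : Cert :=
  .splitM 969045 row4FloorN4 row4FloorN5

/-- A certificate. -/
def row4FloorN1 : Cert :=
  .splitM 383365 row4FloorN2 row4FloorN3

/-- A certificate. -/
def row4FloorN6 : Cert :=
  .leaf 1120998 0 1120999 0
    [(128185, 9843), (768215, 9974), (1809459, 9989), (2449489, 9992)]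

/-- A certificate. -/
def row4Floor : Cert :=
  .splitM 2449489 row4FloorN1 row4FloorN6

theorem row4Main_ok :
    check (row4Bins.map Prod.fst) (10 ^ 8) tubeSkip row4Main 4000 160000 60000 (10 ^ 8) = true := by
  refine Fast.check_of ?_
  iterate 4 all_goals try first | apply Fast.splitM_ok | apply Fast.splitC_ok
  all_goals decide +kernel

theorem row4Floor_ok :
    check (row4Bins.map Prod.fst) (560 * 2403 * 10 ^ 6 + 10 ^ 8) noSkip row4Floor 4000 4000 60000 (10 ^ 8) = true := by
  refine Fast.check_of ?_
  iterate 2 all_goals try apply Fast.splitM_ok
  all_goals decide +kernel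

/-- The nodes of a crossing. -/
def row4Cross : List (ℕ × ℕ) :=
  [
  (4719, 2977), (6875, 4836), (10469, 5676), (15500, 5895),
  (21969, 5722), (29875, 5241), (39219, 4432), (50000, 3112)]

theorem row4Cross_ok :
    excursionOK 4000 50000 (max 60000 50000) (2 * (560 * 2403 * 10 ^ 6) : ℕ) 1120999 4341608 row4Cross = true := by
  decide +kernel

/-- The bins, with their tangency parameters. -/
def row5Bins : List (Bin × ℕ) :=
  [(⟨160000, 180000, 114806243559709, 1350661602⟩, 14807558),
   (⟨180000, 200000, 123642736654560, 1301502488⟩, 15366855),
   (⟨200000, 220000, 132173905362164, 1258799164⟩, 15888158),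
   (⟨220000, 240000, 140438043144454, 1221200356⟩, 16377329),
   (⟨240000, 260000, 148465728184877, 1187725828⟩, 16838903),
   (⟨260000, 280000, 156281903877402, 1157643827⟩, 17276471),
   (⟨280000, 300000, 163907259853391, 1130394959⟩, 17692931),
   (⟨300000, 320000, 171359169726962, 1105542983⟩, 18090658),
   (⟨320000, 340000, 178652389255213, 1082741773⟩, 18471625),
   (⟨340000, 360000, 185799663199532, 1061712293⟩, 18837495),
   (⟨360000, 380000, 192811992394740, 1042226918⟩, 19189679),
   (⟨380000, 400000, 199699020393366, 1024097580⟩, 19529389)]

theorem row5Bins_dom : row5Bins.all domOK = true := by decide +kernel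

theorem row5Bins_covers : covers 160000 400000 (row5Bins.map Prod.fst) = true := by
  decide +kernel

/-- A certificate. -/
def row5MainN3 : Cert :=
  .leaf 1772453 15853309 1772454 15853310
    [(63245, 7919), (111623, 7960), (160000, 7789)]

/-- A certificate. -/
def row5MainN6 : Cert :=
  .leaf 1772453 23706224 1772454 23706225
    [(25148, 7170), (267289, 8419), (800000, 6874)]

/-- A certificate. -/
def row5MainN7 : Cert :=
  .leaf 1772453 35449077 1772454 35449078
    [(25148, 7368), (576306, 8734), (1788854, 7061)]

/-- A certificate. -/
def row5MainN5 : Cert :=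
  .splitM 1788854 row5MainN6 row5MainN7

/-- A certificate. -/
def row5MainN8 : Cert :=
  .leaf 2810778 35449077 2810779 35449078
    [(63245, 7133), (431623, 8492), (800000, 8155)]

/-- A certificate. -/
def row5MainN4 : Cert :=
  .splitC 25148 row5MainN5 row5MainN8

/-- A certificate. -/
def row5MainN2 : Cert :=
  .splitM 800000 row5MainN3 row5MainN4

/-- A certificate. -/
def row5MainN9 : Cert :=
  .leaf 4457465 35449077 4457466 35449078 []

/-- A certificate. -/
def row5MainN1 : Cert :=
  .splitC 63245 row5MainN2 row5MainN9

/-- A certificate. -/
def row5MainN12 : Cert :=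
  .leaf 1772453 79266545 1772454 79266546
    [(63245, 8960), (1293481, 9423), (4000000, 8737)]

/-- A certificate. -/
def row5MainN13 : Cert :=
  .leaf 1772453 0 1772454 0
    [(63245, 9176), (6293481, 9993), (20000000, 9998)]

/-- A certificate. -/
def row5MainN11 : Cert :=
  .splitM 20000000 row5MainN12 row5MainN13

/-- A certificate. -/
def row5MainN14 : Cert :=
  .leaf 4457465 0 4457466 0
    [(400000, 9181), (2200000, 9861), (4000000, 9926)]

/-- A certificate. -/
def row5MainN10 : Cert :=
  .splitC 63245 row5MainN11 row5MainN14

/-- A certificate. -/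
def row5Main : Cert :=
  .splitM 4000000 row5MainN1 row5MainN10

/-- A certificate. -/
def row5FloorN2 : Cert :=
  .leaf 1772453 15853309 1772454 15853310
    [(85000, 7987), (160000, 7789)]

/-- A certificate. -/
def row5FloorN4 : Cert :=
  .leaf 1772453 23706224 1772454 23706225
    [(256875, 8441), (800000, 6874)]

/-- A certificate. -/
def row5FloorN5 : Cert :=
  .leaf 1772453 35449077 1772454 35449078
    [(207650, 9047), (1064136, 8120), (1788854, 7061)]

/-- A certificate. -/
def row5FloorN3 : Cert :=
  .splitM 1788854 row5FloorN4 row5FloorN5

/-- A certificate. -/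
def row5FloorN1 : Cert :=
  .splitM 800000 row5FloorN2 row5FloorN3

/-- A certificate. -/
def row5FloorN7 : Cert :=
  .leaf 1772453 79266545 1772454 79266546
    [(453333, 9562), (2374444, 9162), (4000000, 8737)]

/-- A certificate. -/
def row5FloorN8 : Cert :=
  .leaf 1772453 0 1772454 0
    [(6256875, 9992), (20000000, 9998)]

/-- A certificate. -/
def row5FloorN6 : Cert :=
  .splitM 20000000 row5FloorN7 row5FloorN8

/-- A certificate. -/
def row5Floor : Cert :=
  .splitM 4000000 row5FloorN1 row5FloorN6

theorem row5Main_ok :
    check (row5Bins.map Prod.fst) (10 ^ 8) tubeSkip row5Main 10000 400000 160000 (10 ^ 8) = true := by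
  refine Fast.check_of ?_
  iterate 4 all_goals try first | apply Fast.splitM_ok | apply Fast.splitC_ok
  all_goals decide +kernel

theorem row5Floor_ok :
    check (row5Bins.map Prod.fst) (921 * 3782 * 10 ^ 6 + 10 ^ 8) noSkip row5Floor 10000 10000 160000 (10 ^ 8) = true := by
  refine Fast.check_of ?_
  iterate 2 all_goals try apply Fast.splitM_ok
  all_goals decide +kernel

/-- The nodes of a crossing. -/
def row5Cross : List (ℕ × ℕ) :=
  [
  (11562, 2832), (16250, 4702), (24062, 5637), (35000, 5976),
  (49062, 5943), (66250, 5642), (86562, 5097), (110000, 4264)]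

theorem row5Cross_ok :
    excursionOK 10000 110000 (max 160000 110000) (2 * (921 * 3782 * 10 ^ 6) : ℕ) 1772454 7089816 row5Cross = true := by
  decide +kernel

/-- The bins, with their tangency parameters. -/
def row6Bins : List (Bin × ℕ) :=
  [(⟨400000, 500000, 219688785330190, 976394587⟩, 20483522),
   (⟨500000, 600000, 251135432537121, 913219784⟩, 21900533),
   (⟨600000, 700000, 280721128583892, 863757351⟩, 23154651),
   (⟨700000, 800000, 308821169235885, 823523081⟩, 24285901),
   (⟨800000, 900000, 335695465871365, 789871728⟩, 25320567),
   (⟨900000, 1000000, 361533543454920, 761123285⟩, 26276952),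
   (⟨1000000, 1100000, 386478843324204, 736150218⟩, 27168368),
   (⟨1100000, 1200000, 410643339221555, 714162292⟩, 28004839),
   (⟨1200000, 1300000, 434116419761536, 694586280⟩, 28794119),
   (⟨1300000, 1400000, 456971094569416, 676994191⟩, 29542351),
   (⟨1400000, 1500000, 479267753095398, 661058970⟩, 30254487),
   (⟨1500000, 1600000, 501057250605715, 646525460⟩, 30934590)]

theorem row6Bins_dom : row6Bins.all domOK = true := by decide +kernel

theorem row6Bins_covers : covers 400000 1600000 (row6Bins.map Prod.fst) = true := by
  decide +kernel

/-- A certificate. -/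
def row6MainN3 : Cert :=
  .leaf 3069980 22353594 3069981 22353595
    [(219089, 7584), (400000, 7316)]

/-- A certificate. -/
def row6MainN6 : Cert :=
  .leaf 3069980 35260464 3069981 35260465
    [(81072, 7226), (835806, 8022), (1590541, 7046)]

/-- A certificate. -/
def row6MainN7 : Cert :=
  .leaf 3069980 44574853 3069981 44574854
    [(81072, 7377), (1292471, 8247), (3957548, 5701)]

/-- A certificate. -/
def row6MainN5 : Cert :=
  .splitM 3957548 row6MainN6 row6MainN7

/-- A certificate. -/
def row6MainN8 : Cert :=
  .leaf 5046733 44574853 5046734 44574854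
    [(219089, 7005), (904815, 7934), (1590541, 7571)]

/-- A certificate. -/
def row6MainN4 : Cert :=
  .splitC 81072 row6MainN5 row6MainN8

/-- A certificate. -/
def row6MainN2 : Cert :=
  .splitM 1590541 row6MainN3 row6MainN4

/-- A certificate. -/
def row6MainN9 : Cert :=
  .leaf 8296314 44574853 8296315 44574854 []

/-- A certificate. -/
def row6MainN1 : Cert :=
  .splitC 219089 row6MainN2 row6MainN9

/-- A certificate. -/
def row6MainN16 : Cert :=
  .leaf 3069980 58867307 3069981 58867308
    [(55536, 6428), (2014604, 8528), (6324555, 6193)]

/-- A certificate. -/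
def row6MainN17 : Cert :=
  .leaf 3069980 70312176 3069981 70312177
    [(55536, 6485), (3485238, 8417), (11030583, 5232)]

/-- A certificate. -/
def row6MainN15 : Cert :=
  .splitM 11030583 row6MainN16 row6MainN17

/-- A certificate. -/
def row6MainN18 : Cert :=
  .leaf 4176978 70312176 4176979 70312177
    [(81072, 5283), (2032160, 8687), (6324555, 7267)]

/-- A certificate. -/
def row6MainN14 : Cert :=
  .splitC 55536 row6MainN15 row6MainN18

/-- A certificate. -/
def row6MainN19 : Cert :=
  .leaf 3069980 88885807 3069981 88885808
    [(81072, 7659), (4973428, 8631), (15736611, 5907)]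

/-- A certificate. -/
def row6MainN13 : Cert :=
  .splitM 15736611 row6MainN14 row6MainN19

/-- A certificate. -/
def row6MainN20 : Cert :=
  .leaf 5046733 88885807 5046734 88885808
    [(219089, 7477), (318020, 8116), (897474, 8862), (2127047, 8879), (3837143, 8618),
     (5518973, 8298), (6324555, 8134)]

/-- A certificate. -/
def row6MainN12 : Cert :=
  .splitC 81072 row6MainN13 row6MainN20

/-- A certificate. -/
def row6MainN21 : Cert :=
  .leaf 3069980 0 3069981 0
    [(219089, 9292), (8009582, 9984), (25148667, 9996)]

/-- A certificate. -/
def row6MainN11 : Cert :=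
  .splitM 25148667 row6MainN12 row6MainN21

/-- A certificate. -/
def row6MainN23 : Cert :=
  .leaf 8296314 88885807 8296315 88885808
    [(1600000, 8222), (3962278, 8159), (6324555, 7774)]

/-- A certificate. -/
def row6MainN24 : Cert :=
  .leaf 8296314 0 8296315 0
    [(1600000, 9310), (13374334, 9938), (25148667, 9975)]

/-- A certificate. -/
def row6MainN22 : Cert :=
  .splitM 25148667 row6MainN23 row6MainN24

/-- A certificate. -/
def row6MainN10 : Cert :=
  .splitC 219089 row6MainN11 row6MainN22

/-- A certificate. -/
def row6Main : Cert :=
  .splitM 6324555 row6MainN1 row6MainN10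

/-- A certificate. -/
def row6FloorN2 : Cert :=
  .leaf 3069980 22353594 3069981 22353595
    [(215000, 7584), (400000, 7316)]

/-- A certificate. -/
def row6FloorN4 : Cert :=
  .leaf 3069980 35260464 3069981 35260465
    [(517669, 8324), (1590541, 7046)]

/-- A certificate. -/
def row6FloorN5 : Cert :=
  .leaf 3069980 44574853 3069981 44574854
    [(466394, 8709), (2357436, 7362), (3957548, 5701)]

/-- A certificate. -/
def row6FloorN3 : Cert :=
  .splitM 3957548 row6FloorN4 row6FloorN5

/-- A certificate. -/
def row6FloorN1 : Cert :=
  .splitM 1590541 row6FloorN2 row6FloorN3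

/-- A certificate. -/
def row6FloorN9 : Cert :=
  .leaf 3069980 58867307 3069981 58867308
    [(349645, 8942), (1997048, 8536), (4677152, 7190), (6324555, 6193)]

/-- A certificate. -/
def row6FloorN10 : Cert :=
  .leaf 3069980 70312176 3069981 70312177
    [(1252287, 9081), (6548864, 7304), (11030583, 5232)]

/-- A certificate. -/
def row6FloorN8 : Cert :=
  .splitM 11030583 row6FloorN9 row6FloorN10

/-- A certificate. -/
def row6FloorN11 : Cert :=
  .leaf 3069980 88885807 3069981 88885808
    [(4938316, 8638), (15736611, 5907)]

/-- A certificate. -/
def row6FloorN7 : Cert :=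
  .splitM 15736611 row6FloorN8 row6FloorN11

/-- A certificate. -/
def row6FloorN12 : Cert :=
  .leaf 3069980 0 3069981 0
    [(7879583, 9983), (25148667, 9996)]

/-- A certificate. -/
def row6FloorN6 : Cert :=
  .splitM 25148667 row6FloorN7 row6FloorN12

/-- A certificate. -/
def row6Floor : Cert :=
  .splitM 6324555 row6FloorN1 row6FloorN6

theorem row6Main_ok :
    check (row6Bins.map Prod.fst) (10 ^ 8) tubeSkip row6Main 30000 1600000 400000 (10 ^ 8) = true := by
  refine Fast.check_of ?_
  iterate 4 all_goals try first | apply Fast.splitM_ok | apply Fast.splitC_ok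
  all_goals decide +kernel

theorem row6Floor_ok :
    check (row6Bins.map Prod.fst) (1848 * 6640 * 10 ^ 6 + 10 ^ 8) noSkip row6Floor 30000 30000 400000 (10 ^ 8) = true := by
  refine Fast.check_of ?_
  iterate 2 all_goals try apply Fast.splitM_ok
  all_goals decide +kernel

/-- The nodes of a crossing. -/
def row6Cross : List (ℕ × ℕ) :=
  [
  (34219, 2635), (46875, 4425), (67969, 5345), (97500, 5680),
  (135469, 5632), (181875, 5297), (236719, 4686), (300000, 3723)]

theorem row6Cross_ok :
    excursionOK 30000 300000 (max 400000 300000) (2 * (1848 * 6640 * 10 ^ 6) : ℕ) 3069981 11209983 row6Cross = true := by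
  decide +kernel

/-- The bins, with their tangency parameters. -/
def row7Bins : List (Bin × ℕ) :=
  [(⟨1600000, 1966666, 550158508339033, 617000321⟩, 32414894),
   (⟨1966666, 2333333, 623196643104401, 579717959⟩, 34499535),
   (⟨2333333, 2700000, 692176185980674, 550073826⟩, 36358756),
   (⟨2700000, 3066666, 757872384134793, 525691877⟩, 38045100),
   (⟨3066666, 3433333, 820833507074377, 505128380⟩, 39593895),
   (⟨3433333, 3800000, 881465241433170, 487446225⟩, 41030167),
   (⟨3800000, 4166666, 940078130699073, 472005797⟩, 42372361),
   (⟨4166666, 4533333, 996917014419613, 458352710⟩, 43634519),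
   (⟨4533333, 4900000, 1052179065094999, 446153680⟩, 44827603),
   (⟨4900000, 5266666, 1106025752458253, 435157715⟩, 45960348),
   (⟨5266666, 5633333, 1158591973960591, 425171406⟩, 47039852),
   (⟨5633333, 6000000, 1209991495102691, 416042932⟩, 48071962)]

theorem row7Bins_dom : row7Bins.all domOK = true := by decide +kernel

theorem row7Bins_covers : covers 1600000 6000000 (row7Bins.map Prod.fst) = true := by
  decide +kernel

/-- A certificate. -/
def row7MainN4 : Cert :=
  .leaf 5013256 37594118 5013257 37594119
    [(235426, 6979), (917713, 7521), (1600000, 6903)]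

/-- A certificate. -/
def row7MainN7 : Cert :=
  .leaf 5013256 51899676 5013257 51899677
    [(157713, 6342), (1514281, 8053), (4498730, 6230)]

/-- A certificate. -/
def row7MainN8 : Cert :=
  .leaf 5013256 63038362 5013257 63038363
    [(157713, 6461), (2787778, 8060), (8573920, 5233)]

/-- A certificate. -/
def row7MainN6 : Cert :=
  .splitM 8573920 row7MainN7 row7MainN8

/-- A certificate. -/
def row7MainN10 : Cert :=
  .leaf 7038963 51899676 7038964 51899677
    [(235426, 4989), (2367078, 7238), (4498730, 5963)]

/-- A certificate. -/
def row7MainN11 : Cert :=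
  .leaf 7038963 63038362 7038964 63038363
    [(235426, 5119), (2841205, 7698), (8573920, 5058)]

/-- A certificate. -/
def row7MainN9 : Cert :=
  .splitM 8573920 row7MainN10 row7MainN11

/-- A certificate. -/
def row7MainN5 : Cert :=
  .splitC 157713 row7MainN6 row7MainN9

/-- A certificate. -/
def row7MainN3 : Cert :=
  .splitM 4498730 row7MainN4 row7MainN5

/-- A certificate. -/
def row7MainN13 : Cert :=
  .leaf 8600073 37594118 8600074 37594119
    [(692820, 6082), (1146410, 6262), (1600000, 6032)]

/-- A certificate. -/
def row7MainN16 : Cert :=
  .leaf 8600073 51899676 8600074 51899677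
    [(464123, 5856), (2481427, 6879), (4498730, 5757)]

/-- A certificate. -/
def row7MainN17 : Cert :=
  .leaf 8600073 63038362 8600074 63038363
    [(464123, 6062), (4519021, 6868), (8573920, 4925)]

/-- A certificate. -/
def row7MainN15 : Cert :=
  .splitM 8573920 row7MainN16 row7MainN17

/-- A certificate. -/
def row7MainN18 : Cert :=
  .leaf 12075120 63038362 12075121 63038363
    [(692820, 4687), (2595775, 6780), (4498730, 6379)]

/-- A certificate. -/
def row7MainN14 : Cert :=
  .splitC 464123 row7MainN15 row7MainN18

/-- A certificate. -/
def row7MainN12 : Cert :=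
  .splitM 4498730 row7MainN13 row7MainN14

/-- A certificate. -/
def row7MainN2 : Cert :=
  .splitC 235426 row7MainN3 row7MainN12

/-- A certificate. -/
def row7MainN25 : Cert :=
  .leaf 5013256 75984807 5013257 75984808
    [(118856, 5346), (321893, 8060), (1511106, 8745), (4034560, 8205), (7544192, 7164),
     (10995813, 5923), (12649110, 5221)]

/-- A certificate. -/
def row7MainN26 : Cert :=
  .leaf 5013256 87026126 5013257 87026127
    [(118856, 5392), (5824910, 8177), (18378229, 4599)]

/-- A certificate. -/
def row7MainN24 : Cert :=
  .splitM 18378229 row7MainN25 row7MainN26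

/-- A certificate. -/
def row7MainN28 : Cert :=
  .leaf 6110623 75984807 6110624 75984808
    [(157713, 4574), (1545646, 8510), (7560022, 7045), (12649110, 5143)]

/-- A certificate. -/
def row7MainN29 : Cert :=
  .leaf 6110623 87026126 6110624 87026127
    [(157713, 4622), (5851624, 8048), (18378229, 4540)]

/-- A certificate. -/
def row7MainN27 : Cert :=
  .splitM 18378229 row7MainN28 row7MainN29

/-- A certificate. -/
def row7MainN23 : Cert :=
  .splitC 118856 row7MainN24 row7MainN27

/-- A certificate. -/
def row7MainN30 : Cert :=
  .leaf 5013256 100000000 5013257 100000000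
    [(157713, 6706), (7641974, 8569), (24107348, 6044)]

/-- A certificate. -/
def row7MainN22 : Cert :=
  .splitM 24107348 row7MainN23 row7MainN30

/-- A certificate. -/
def row7MainN33 : Cert :=
  .leaf 7038963 75984807 7038964 75984808
    [(235426, 5224), (4114702, 7906), (12649110, 5077)]

/-- A certificate. -/
def row7MainN34 : Cert :=
  .leaf 7038963 87026126 7038964 87026127
    [(235426, 5289), (5905052, 7931), (18378229, 4490)]

/-- A certificate. -/
def row7MainN32 : Cert :=
  .splitM 18378229 row7MainN33 row7MainN34

/-- A certificate. -/
def row7MainN35 : Cert :=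
  .leaf 7038963 100000000 7038964 100000000
    [(235426, 5391), (7695402, 8380), (24107348, 5954)]

/-- A certificate. -/
def row7MainN31 : Cert :=
  .splitM 24107348 row7MainN32 row7MainN35

/-- A certificate. -/
def row7MainN21 : Cert :=
  .splitC 157713 row7MainN22 row7MainN31

/-- A certificate. -/
def row7MainN36 : Cert :=
  .leaf 5013256 0 5013257 0
    [(235426, 8131), (10109039, 9967), (31830988, 9994), (33698288, 9994), (35565587, 9994)]

/-- A certificate. -/
def row7MainN20 : Cert :=
  .splitM 35565587 row7MainN21 row7MainN36

/-- A certificate. -/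
def row7MainN42 : Cert :=
  .leaf 8600073 75984807 8600074 75984808
    [(349774, 5087), (4193316, 7667), (12649110, 4968)]

/-- A certificate. -/
def row7MainN43 : Cert :=
  .leaf 8600073 87026126 8600074 87026127
    [(349774, 5165), (5983666, 7734), (18378229, 4408)]

/-- A certificate. -/
def row7MainN41 : Cert :=
  .splitM 18378229 row7MainN42 row7MainN43

/-- A certificate. -/
def row7MainN44 : Cert :=
  .leaf 10482592 87026126 10482593 87026127
    [(464123, 4387), (1818010, 7712), (7684856, 7196), (12649110, 6067)]

/-- A certificate. -/
def row7MainN40 : Cert :=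
  .splitC 349774 row7MainN41 row7MainN44

/-- A certificate. -/
def row7MainN45 : Cert :=
  .leaf 8600073 100000000 8600074 100000000
    [(464123, 6485), (7852631, 8217), (24107348, 5885)]

/-- A certificate. -/
def row7MainN39 : Cert :=
  .splitM 24107348 row7MainN40 row7MainN45

/-- A certificate. -/
def row7MainN47 : Cert :=
  .leaf 12075120 87026126 12075121 87026127
    [(692820, 4972), (6670965, 7203), (12649110, 5942)]

/-- A certificate. -/
def row7MainN48 : Cert :=
  .leaf 12075120 100000000 12075121 100000000
    [(692820, 5148), (8009860, 7865), (24107348, 5733)]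

/-- A certificate. -/
def row7MainN46 : Cert :=
  .splitM 24107348 row7MainN47 row7MainN48

/-- A certificate. -/
def row7MainN38 : Cert :=
  .splitC 464123 row7MainN39 row7MainN46

/-- A certificate. -/
def row7MainN49 : Cert :=
  .leaf 8600073 0 8600074 0
    [(692820, 8144), (10423498, 9908), (31830988, 9982), (33698288, 9983), (35565587, 9984)]

/-- A certificate. -/
def row7MainN37 : Cert :=
  .splitM 35565587 row7MainN38 row7MainN49

/-- A certificate. -/
def row7MainN19 : Cert :=
  .splitC 235426 row7MainN20 row7MainN37

/-- A certificate. -/
def row7MainN1 : Cert :=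
  .splitM 12649110 row7MainN2 row7MainN19

/-- A certificate. -/
def row7MainN53 : Cert :=
  .leaf 14753163 37594118 14753164 37594119 []

/-- A certificate. -/
def row7MainN54 : Cert :=
  .leaf 14753163 63038362 14753164 63038363
    [(2038852, 6030), (3268791, 6194), (4498730, 5982)]

/-- A certificate. -/
def row7MainN52 : Cert :=
  .splitM 4498730 row7MainN53 row7MainN54

/-- A certificate. -/
def row7MainN55 : Cert :=
  .leaf 25308580 63038362 25308581 63038363 []

/-- A certificate. -/
def row7MainN51 : Cert :=
  .splitC 2038852 row7MainN52 row7MainN55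

/-- A certificate. -/
def row7MainN60 : Cert :=
  .leaf 14753163 87026126 14753164 87026127
    [(1365836, 5829), (7007473, 6836), (12649110, 5731)]

/-- A certificate. -/
def row7MainN61 : Cert :=
  .leaf 14753163 100000000 14753164 100000000
    [(1365836, 6109), (12736592, 7154), (24107348, 5618)]

/-- A certificate. -/
def row7MainN59 : Cert :=
  .splitM 24107348 row7MainN60 row7MainN61

/-- A certificate. -/
def row7MainN62 : Cert :=
  .leaf 20714488 100000000 20714489 100000000
    [(2038852, 4747), (7343981, 6941), (12649110, 6686)]

/-- A certificate. -/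
def row7MainN58 : Cert :=
  .splitC 1365836 row7MainN59 row7MainN62

/-- A certificate. -/
def row7MainN63 : Cert :=
  .leaf 14753163 0 14753164 0
    [(2038852, 8181), (16934920, 9855), (31830988, 9948), (33698288, 9951),
     (35565587, 9954)]

/-- A certificate. -/
def row7MainN57 : Cert :=
  .splitM 35565587 row7MainN58 row7MainN63

/-- A certificate. -/
def row7MainN65 : Cert :=
  .leaf 25308580 100000000 25308581 100000000
    [(6000000, 6179), (9324555, 6410), (12649110, 6301)]

/-- A certificate. -/
def row7MainN66 : Cert :=
  .leaf 25308580 0 25308581 0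
    [(6000000, 8289), (18915494, 9623), (31830988, 9843), (33698288, 9852),
     (35565587, 9860)]

/-- A certificate. -/
def row7MainN64 : Cert :=
  .splitM 35565587 row7MainN65 row7MainN66

/-- A certificate. -/
def row7MainN56 : Cert :=
  .splitC 2038852 row7MainN57 row7MainN64

/-- A certificate. -/
def row7MainN50 : Cert :=
  .splitM 12649110 row7MainN51 row7MainN56

/-- A certificate. -/
def row7Main : Cert :=
  .splitC 692820 row7MainN1 row7MainN50

/-- A certificate. -/
def row7FloorN2 : Cert :=
  .leaf 5013256 37594118 5013257 37594119
    [(840000, 7568), (1600000, 6903)]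

/-- A certificate. -/
def row7FloorN4 : Cert :=
  .leaf 5013256 51899676 5013257 51899677
    [(570970, 8169), (2698507, 7436), (4498730, 6230)]

/-- A certificate. -/
def row7FloorN5 : Cert :=
  .leaf 5013256 63038362 5013257 63038363
    [(511332, 8334), (2734350, 8080), (6350902, 6495), (8573920, 5233)]

/-- A certificate. -/
def row7FloorN3 : Cert :=
  .splitM 8573920 row7FloorN4 row7FloorN5

/-- A certificate. -/
def row7FloorN1 : Cert :=
  .splitM 4498730 row7FloorN2 row7FloorN3

/-- A certificate. -/
def row7FloorN10 : Cert :=
  .leaf 5013256 69812340 5013257 69812341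
    [(718275, 8589), (4007847, 7954), (9359538, 5851), (12649110, 3996)]

/-- A certificate. -/
def row7FloorN11 : Cert :=
  .leaf 5013256 75984807 5013257 75984808
    [(863741, 8723), (4903022, 7967), (11474388, 5729), (15513669, 3694)]

/-- A certificate. -/
def row7FloorN9 : Cert :=
  .splitM 15513669 row7FloorN10 row7FloorN11

/-- A certificate. -/
def row7FloorN12 : Cert :=
  .leaf 5013256 87026126 5013257 87026127
    [(1009207, 8880), (5798197, 8183), (13589239, 6227), (18378229, 4599)]

/-- A certificate. -/
def row7FloorN8 : Cert :=
  .splitM 18378229 row7FloorN9 row7FloorN12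

/-- A certificate. -/
def row7FloorN13 : Cert :=
  .leaf 5013256 100000000 5013257 100000000
    [(1300139, 9122), (7588546, 8576), (17818941, 7125), (24107348, 6044)]

/-- A certificate. -/
def row7FloorN7 : Cert :=
  .splitM 24107348 row7FloorN8 row7FloorN13

/-- A certificate. -/
def row7FloorN14 : Cert :=
  .leaf 5013256 0 5013257 0
    [(1692355, 9768), (10002184, 9967), (23521159, 9990), (31830988, 9994),
     (32414519, 9994), (33698288, 9994), (34982056, 9994), (35565587, 9994)]

/-- A certificate. -/
def row7FloorN6 : Cert :=
  .splitM 35565587 row7FloorN7 row7FloorN14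

/-- A certificate. -/
def row7Floor : Cert :=
  .splitM 12649110 row7FloorN1 row7FloorN6

theorem row7Main_ok :
    check (row7Bins.map Prod.fst) (10 ^ 8) tubeSkip row7Main 80000 6000000 1600000 (10 ^ 8) = true := by
  refine Fast.check_of ?_
  iterate 4 all_goals try first | apply Fast.splitM_ok | apply Fast.splitC_ok
  all_goals decide +kernel

theorem row7Floor_ok :
    check (row7Bins.map Prod.fst) (2752 * 10557 * 10 ^ 6 + 10 ^ 8) noSkip row7Floor 80000 80000 1600000 (10 ^ 8) = true := by
  refine Fast.check_of ?_
  iterate 2 all_goals try apply Fast.splitM_ok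
  all_goals decide +kernel

/-- The nodes of a crossing. -/
def row7Cross : List (ℕ × ℕ) :=
  [
  (88125, 2412), (112500, 4235), (153125, 5370), (210000, 5993),
  (283125, 6280), (372500, 6343), (478125, 6244), (600000, 6014)]

theorem row7Cross_ok :
    excursionOK 80000 600000 (max 1600000 600000) (2 * (2752 * 10557 * 10 ^ 6) : ℕ) 5013257 22419965 row7Cross = true := by
  decide +kernel

/-- The bins, with their tangency parameters. -/
def row8Bins : List (Bin × ℕ) :=
  [(⟨6000000, 6250000, 1252382354392649, 408941172⟩, 48906790),
   (⟨6250000, 6500000, 1286233050954116, 403524097⟩, 49563335),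
   (⟨6500000, 6750000, 1319644048774244, 398383099⟩, 50202933),
   (⟨6750000, 7000000, 1352637234741748, 393494474⟩, 50826635),
   (⟨7000000, 7250000, 1385232846798368, 388837298⟩, 51435395),
   (⟨7250000, 7500000, 1417449384042296, 384393051⟩, 52030077),
   (⟨7500000, 7750000, 1449303849301365, 380145264⟩, 52611467),
   (⟨7750000, 8000000, 1480811950201426, 376079233⟩, 53180283),
   (⟨8000000, 8250000, 1511988357401227, 372181759⟩, 53737185),
   (⟨8250000, 8500000, 1542846617559706, 368440982⟩, 54282778),
   (⟨8500000, 8750000, 1573399263649549, 364846207⟩, 54817618),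
   (⟨8750000, 9000000, 1603658074242117, 361387744⟩, 55342220)]

theorem row8Bins_dom : row8Bins.all domOK = true := by decide +kernel

theorem row8Bins_covers : covers 6000000 9000000 (row8Bins.map Prod.fst) = true := by
  decide +kernel

/-- A certificate. -/
def row8MainN4 : Cert :=
  .leaf 6390673 61713707 6390674 61713708
    [(374988, 7210), (3187494, 7619), (6000000, 6369)]

/-- A certificate. -/
def row8MainN7 : Cert :=
  .leaf 6390673 75841546 6390674 75841547
    [(252494, 6379), (855298, 8292), (3962056, 8029), (9016334, 6523), (12123092, 5332)]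

/-- A certificate. -/
def row8MainN8 : Cert :=
  .leaf 6390673 87722852 6390674 87722853
    [(252494, 6458), (1169426, 8575), (5895150, 8032), (13583269, 6191), (18308994, 4667)]

/-- A certificate. -/
def row8MainN6 : Cert :=
  .splitM 18308994 row8MainN7 row8MainN8

/-- A certificate. -/
def row8MainN10 : Cert :=
  .leaf 8906364 75841546 8906365 75841547
    [(374988, 5062), (4046270, 7648), (12123092, 5147)]

/-- A certificate. -/
def row8MainN11 : Cert :=
  .leaf 8906364 87722852 8906365 87722853
    [(374988, 5148), (2367655, 8155), (11002547, 6659), (18308994, 4530)]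

/-- A certificate. -/
def row8MainN9 : Cert :=
  .splitM 18308994 row8MainN10 row8MainN11

/-- A certificate. -/
def row8MainN5 : Cert :=
  .splitC 252494 row8MainN6 row8MainN9

/-- A certificate. -/
def row8MainN3 : Cert :=
  .splitM 12123092 row8MainN4 row8MainN5

/-- A certificate. -/
def row8MainN13 : Cert :=
  .leaf 10853845 61713707 10853846 61713708
    [(1081665, 6560), (3540833, 6765), (6000000, 5851)]

/-- A certificate. -/
def row8MainN16 : Cert :=
  .leaf 10853845 75841546 10853846 75841547
    [(728326, 5970), (6425709, 6838), (12123092, 5005)]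

/-- A certificate. -/
def row8MainN17 : Cert :=
  .leaf 10853845 87722852 10853846 87722853
    [(728326, 6105), (6222285, 7450), (18308994, 4425)]

/-- A certificate. -/
def row8MainN15 : Cert :=
  .splitM 18308994 row8MainN16 row8MainN17

/-- A certificate. -/
def row8MainN19 : Cert :=
  .leaf 15126478 75841546 15126479 75841547
    [(1081665, 4622), (6602379, 6288), (12123092, 4698)]

/-- A certificate. -/
def row8MainN20 : Cert :=
  .leaf 15126478 87722852 15126479 87722853
    [(1081665, 4765), (9695329, 6375), (18308994, 4200)]

/-- A certificate. -/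
def row8MainN18 : Cert :=
  .splitM 18308994 row8MainN19 row8MainN20

/-- A certificate. -/
def row8MainN14 : Cert :=
  .splitC 728326 row8MainN15 row8MainN18

/-- A certificate. -/
def row8MainN12 : Cert :=
  .splitM 12123092 row8MainN13 row8MainN14

/-- A certificate. -/
def row8MainN2 : Cert :=
  .splitC 374988 row8MainN3 row8MainN12

/-- A certificate. -/
def row8MainN27 : Cert :=
  .leaf 6390673 98278133 6390674 98278134
    [(191247, 5296), (2891653, 8733), (14593410, 6775), (24494897, 4222)]

/-- A certificate. -/
def row8MainN28 : Cert :=
  .leaf 6390673 100000000 6390674 100000000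
    [(191247, 5355), (9739061, 8307), (30744252, 5168)]

/-- A certificate. -/
def row8MainN26 : Cert :=
  .splitM 30744252 row8MainN27 row8MainN28

/-- A certificate. -/
def row8MainN29 : Cert :=
  .leaf 7751259 100000000 7751260 100000000
    [(252494, 4607), (275058, 5162), (424132, 6918), (801810, 8111), (1483554, 8607),
     (2518191, 8756), (3927917, 8732), (5708292, 8604), (7828245, 8401), (10230069, 8141),
     (12829424, 7837), (15515339, 7502), (18150206, 7153), (20569785, 6814),
     (22583204, 6518), (23972954, 6304), (24494897, 6222)]

/-- A certificate. -/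
def row8MainN25 : Cert :=
  .splitC 191247 row8MainN26 row8MainN29

/-- A certificate. -/
def row8MainN30 : Cert :=
  .leaf 6390673 100000000 6390674 100000000
    [(252494, 6686), (10120773, 8933), (31830988, 7467), (34412298, 7001), (36993608, 6464)]

/-- A certificate. -/
def row8MainN24 : Cert :=
  .splitM 36993608 row8MainN25 row8MainN30

/-- A certificate. -/
def row8MainN32 : Cert :=
  .leaf 8906364 100000000 8906365 100000000
    [(374988, 5291), (1599827, 8376), (7912460, 8287), (18182265, 7081), (24494897, 6173)]

/-- A certificate. -/
def row8MainN33 : Cert :=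
  .leaf 8906364 100000000 8906365 100000000
    [(374988, 5403), (10204988, 8759), (31830988, 7394), (34412298, 6929), (36993608, 6395)]

/-- A certificate. -/
def row8MainN31 : Cert :=
  .splitM 36993608 row8MainN32 row8MainN33

/-- A certificate. -/
def row8MainN23 : Cert :=
  .splitC 252494 row8MainN24 row8MainN31

/-- A certificate. -/
def row8MainN34 : Cert :=
  .leaf 6390673 0 6390674 0
    [(374988, 8093), (10204988, 9948), (31830988, 9990), (40661654, 9992), (49492319, 9994)]

/-- A certificate. -/
def row8MainN22 : Cert :=
  .splitM 49492319 row8MainN23 row8MainN34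

/-- A certificate. -/
def row8MainN38 : Cert :=
  .leaf 10853845 100000000 10853846 100000000
    [(728326, 6326), (8155379, 8084), (24494897, 6090)]

/-- A certificate. -/
def row8MainN39 : Cert :=
  .leaf 10853845 100000000 10853846 100000000
    [(728326, 6499), (10447908, 8610), (31830988, 7337), (34412298, 6873), (36993608, 6342)]

/-- A certificate. -/
def row8MainN37 : Cert :=
  .splitM 36993608 row8MainN38 row8MainN39

/-- A certificate. -/
def row8MainN41 : Cert :=
  .leaf 15126478 100000000 15126479 100000000
    [(1081665, 5010), (8398300, 7650), (24494897, 5912)]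

/-- A certificate. -/
def row8MainN42 : Cert :=
  .leaf 15126478 100000000 15126479 100000000
    [(1081665, 5203), (10690828, 8283), (31830988, 7213), (34412298, 6753),
     (36993608, 6227)]

/-- A certificate. -/
def row8MainN40 : Cert :=
  .splitM 36993608 row8MainN41 row8MainN42

/-- A certificate. -/
def row8MainN36 : Cert :=
  .splitC 728326 row8MainN37 row8MainN40

/-- A certificate. -/
def row8MainN43 : Cert :=
  .leaf 10853845 0 10853846 0
    [(1081665, 8113), (10690828, 9858), (31830988, 9972), (40661654, 9979),
     (49492319, 9984)]

/-- A certificate. -/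
def row8MainN35 : Cert :=
  .splitM 49492319 row8MainN36 row8MainN43

/-- A certificate. -/
def row8MainN21 : Cert :=
  .splitC 374988 row8MainN22 row8MainN35

/-- A certificate. -/
def row8MainN1 : Cert :=
  .splitM 24494897 row8MainN2 row8MainN21

/-- A certificate. -/
def row8MainN47 : Cert :=
  .leaf 18434073 61713707 18434074 61713708
    [(3120093, 5363), (4560047, 5311), (6000000, 4954)]

/-- A certificate. -/
def row8MainN50 : Cert :=
  .leaf 18434073 75841546 18434074 75841547
    [(2100879, 5271), (7111985, 5792), (12123092, 4462)]

/-- A certificate. -/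
def row8MainN51 : Cert :=
  .leaf 18434073 87722852 18434074 87722853
    [(2100879, 5503), (10204937, 5967), (18308994, 4028)]

/-- A certificate. -/
def row8MainN49 : Cert :=
  .splitM 18308994 row8MainN50 row8MainN51

/-- A certificate. -/
def row8MainN52 : Cert :=
  .leaf 25690671 87722852 25690672 87722853
    [(3120093, 4129), (7621593, 5463), (12123092, 4998)]

/-- A certificate. -/
def row8MainN48 : Cert :=
  .splitC 2100879 row8MainN49 row8MainN52

/-- A certificate. -/
def row8MainN46 : Cert :=
  .splitM 12123092 row8MainN47 row8MainN48

/-- A certificate. -/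
def row8MainN54 : Cert :=
  .leaf 31308243 61713707 31308244 61713708 []

/-- A certificate. -/
def row8MainN56 : Cert :=
  .leaf 31308243 87722852 31308244 87722853
    [(6060046, 4453), (9091569, 4736), (12123092, 4513)]

/-- A certificate. -/
def row8MainN57 : Cert :=
  .leaf 43632781 87722852 43632782 87722853
    [(9000000, 3035), (10561546, 3288), (12123092, 3356)]

/-- A certificate. -/
def row8MainN55 : Cert :=
  .splitC 6060046 row8MainN56 row8MainN57

/-- A certificate. -/
def row8MainN53 : Cert :=
  .splitM 12123092 row8MainN54 row8MainN55

/-- A certificate. -/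
def row8MainN45 : Cert :=
  .splitC 3120093 row8MainN46 row8MainN53

/-- A certificate. -/
def row8MainN61 : Cert :=
  .leaf 18434073 100000000 18434074 100000000
    [(2100879, 6202), (7906736, 7995), (18689040, 7784), (24494897, 7514)]

/-- A certificate. -/
def row8MainN62 : Cert :=
  .leaf 25690671 100000000 25690672 100000000
    [(3120093, 4901), (13807495, 7434), (24494897, 7208)]

/-- A certificate. -/
def row8MainN60 : Cert :=
  .splitC 2100879 row8MainN61 row8MainN62

/-- A certificate. -/
def row8MainN63 : Cert :=
  .leaf 18434073 0 18434074 0
    [(3120093, 8169), (17475541, 9782), (31830988, 9918), (40661654, 9938),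
     (49492319, 9955)]

/-- A certificate. -/
def row8MainN59 : Cert :=
  .splitM 49492319 row8MainN60 row8MainN63

/-- A certificate. -/
def row8MainN65 : Cert :=
  .leaf 31308243 100000000 31308244 100000000
    [(9000000, 6584), (16747448, 7042), (24494897, 6962)]

/-- A certificate. -/
def row8MainN66 : Cert :=
  .leaf 31308243 0 31308244 0
    [(9000000, 8331), (20415494, 9470), (31830988, 9754), (40661654, 9814),
     (49492319, 9865)]

/-- A certificate. -/
def row8MainN64 : Cert :=
  .splitM 49492319 row8MainN65 row8MainN66

/-- A certificate. -/
def row8MainN58 : Cert :=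
  .splitC 3120093 row8MainN59 row8MainN64

/-- A certificate. -/
def row8MainN44 : Cert :=
  .splitM 24494897 row8MainN45 row8MainN58

/-- A certificate. -/
def row8Main : Cert :=
  .splitC 1081665 row8MainN1 row8MainN44

/-- A certificate. -/
def row8FloorN2 : Cert :=
  .leaf 6390673 61713707 6390674 61713708
    [(428086, 7426), (1964375, 8015), (4463711, 7097), (6000000, 6369)]

/-- A certificate. -/
def row8FloorN5 : Cert :=
  .leaf 6390673 69139430 6390674 69139431
    [(1462566, 8307), (7237017, 6568), (12123092, 4104)]

/-- A certificate. -/
def row8FloorN6 : Cert :=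
  .leaf 6390673 75841546 6390674 75841547
    [(896088, 8316), (4844388, 7802), (11267743, 5686), (15216043, 3774)]

/-- A certificate. -/
def row8FloorN4 : Cert :=
  .splitM 15216043 row8FloorN5 row8FloorN6

/-- A certificate. -/
def row8FloorN8 : Cert :=
  .leaf 6390673 81997678 6390674 81997679
    [(1053152, 8469), (5810936, 7828), (13551210, 5591), (18308994, 3514)]

/-- A certificate. -/
def row8FloorN9 : Cert :=
  .leaf 6390673 87722852 6390674 87722853
    [(1210216, 8585), (6777483, 7850), (15834678, 5519), (21401945, 3302)]

/-- A certificate. -/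
def row8FloorN7 : Cert :=
  .splitM 21401945 row8FloorN8 row8FloorN9

/-- A certificate. -/
def row8FloorN3 : Cert :=
  .splitM 18308994 row8FloorN4 row8FloorN7

/-- A certificate. -/
def row8FloorN1 : Cert :=
  .splitM 12123092 row8FloorN2 row8FloorN3

/-- A certificate. -/
def row8FloorN13 : Cert :=
  .leaf 6390673 98278133 6390674 98278134
    [(524802, 8074), (2837211, 8738), (7744030, 8052), (14568457, 6780), (21280084, 5193),
     (24494897, 4222)]

/-- A certificate. -/
def row8FloorN14 : Cert :=
  .leaf 6390673 100000000 6390674 100000000
    [(1684630, 8933), (9696954, 8312), (22731928, 6559), (30744252, 5168)]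

/-- A certificate. -/
def row8FloorN12 : Cert :=
  .splitM 30744252 row8FloorN13 row8FloorN14

/-- A certificate. -/
def row8FloorN15 : Cert :=
  .leaf 6390673 100000000 6390674 100000000
    [(3652332, 9225), (18915771, 8384), (31830988, 7467), (33169445, 7233),
     (35655151, 6752), (36993608, 6464)]

/-- A certificate. -/
def row8FloorN11 : Cert :=
  .splitM 36993608 row8FloorN12 row8FloorN15

/-- A certificate. -/
def row8FloorN16 : Cert :=
  .leaf 6390673 0 6390674 0
    [(3652332, 9832), (18915771, 9977), (31830988, 9990), (36409852, 9991),
     (44913455, 9993), (49492319, 9994)]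

/-- A certificate. -/
def row8FloorN10 : Cert :=
  .splitM 49492319 row8FloorN11 row8FloorN16

/-- A certificate. -/
def row8Floor : Cert :=
  .splitM 24494897 row8FloorN1 row8FloorN10

theorem row8Main_ok :
    check (row8Bins.map Prod.fst) (10 ^ 8) tubeSkip row8Main 130000 9000000 6000000 (10 ^ 8) = true := by
  refine Fast.check_of ?_
  iterate 4 all_goals try first | apply Fast.splitM_ok | apply Fast.splitC_ok
  all_goals decide +kernel

theorem row8Floor_ok :
    check (row8Bins.map Prod.fst) (2958 * 13068 * 10 ^ 6 + 10 ^ 8) noSkip row8Floor 130000 130000 6000000 (10 ^ 8) = true := by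
  refine Fast.check_of ?_
  iterate 2 all_goals try apply Fast.splitM_ok
  all_goals decide +kernel

/-- The nodes of a crossing. -/
def row8Cross : List (ℕ × ℕ) :=
  [
  (140469, 2351), (171875, 4240), (224219, 5544), (297500, 6376),
  (391719, 6888), (506875, 7191), (642969, 7356), (800000, 7426)]

theorem row8Cross_ok :
    excursionOK 130000 800000 (max 6000000 800000) (2 * (2958 * 13068 * 10 ^ 6) : ℕ) 6390674 43416076 row8Cross = true := by
  decide +kernel

/-- The bins, with their tangency parameters. -/
def row9Bins : List (Bin × ℕ) :=
  [(⟨9000000, 9500000, 1648519299908400, 356436598⟩, 56110961),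
   (⟨9500000, 10000000, 1707402675860094, 350236439⟩, 57104281),
   (⟨10000000, 10500000, 1765287540786962, 344446344⟩, 58064196),
   (⟨10500000, 11000000, 1822238346390455, 339021091⟩, 58993380),
   (⟨11000000, 11500000, 1878312651381239, 333922256⟩, 59894181),
   (⟨11500000, 12000000, 1933562050139697, 329116951⟩, 60768672),
   (⟨12000000, 12500000, 1988033053679479, 324576825⟩, 61618694),
   (⟨12500000, 13000000, 2041767693616572, 320277289⟩, 62445889),
   (⟨13000000, 13500000, 2094804281489458, 316196881⟩, 63251731),
   (⟨13500000, 14000000, 2147177814168298, 312316768⟩, 64037548),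
   (⟨14000000, 14500000, 2198920087040154, 308620368⟩, 64804537),
   (⟨14500000, 15000000, 2250060626868310, 305092968⟩, 65553789)]

theorem row9Bins_dom : row9Bins.all domOK = true := by decide +kernel

theorem row9Bins_covers : covers 9000000 15000000 (row9Bins.map Prod.fst) = true := by
  decide +kernel

/-- A certificate. -/
def row9MainN6 : Cert :=
  .leaf 7089815 66908665 7089816 66908666
    [(328933, 6404), (3038641, 7806), (9000000, 5439)]

/-- A certificate. -/
def row9MainN7 : Cert :=
  .leaf 7089815 78269442 7089816 78269443
    [(328933, 6515), (4679266, 7856), (14250000, 4730)]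

/-- A certificate. -/
def row9MainN5 : Cert :=
  .splitM 14250000 row9MainN6 row9MainN7

/-- A certificate. -/
def row9MainN9 : Cert :=
  .leaf 10165498 66908665 10165499 66908666
    [(497866, 4967), (4748933, 6838), (9000000, 5172)]

/-- A certificate. -/
def row9MainN10 : Cert :=
  .leaf 10165498 78269442 10165499 78269443
    [(497866, 5089), (4795408, 7417), (14250000, 4538)]

/-- A certificate. -/
def row9MainN8 : Cert :=
  .splitM 14250000 row9MainN9 row9MainN10

/-- A certificate. -/
def row9MainN4 : Cert :=
  .splitC 328933 row9MainN5 row9MainN8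

/-- A certificate. -/
def row9MainN14 : Cert :=
  .leaf 7089815 88178465 7089816 88178466
    [(244466, 5413), (2383970, 8498), (11655153, 6686), (19500000, 4245)]

/-- A certificate. -/
def row9MainN15 : Cert :=
  .leaf 7089815 97081295 7089816 97081296
    [(244466, 5455), (641546, 7987), (2967303, 8604), (7902445, 7916), (14766264, 6604),
     (21516631, 4937), (24750000, 3885)]

/-- A certificate. -/
def row9MainN13 : Cert :=
  .splitM 24750000 row9MainN14 row9MainN15

/-- A certificate. -/
def row9MainN17 : Cert :=
  .leaf 8763632 88178465 8763633 88178466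
    [(328933, 4578), (2459052, 8191), (11689565, 6538), (19500000, 4162)]

/-- A certificate. -/
def row9MainN18 : Cert :=
  .leaf 8763632 97081295 8763633 97081296
    [(328933, 4622), (1569065, 8203), (7960516, 7739), (18358549, 5675), (24750000, 3817)]

/-- A certificate. -/
def row9MainN16 : Cert :=
  .splitM 24750000 row9MainN17 row9MainN18

/-- A certificate. -/
def row9MainN12 : Cert :=
  .splitC 244466 row9MainN13 row9MainN16

/-- A certificate. -/
def row9MainN20 : Cert :=
  .leaf 10165498 88178465 10165499 88178466
    [(497866, 5170), (2609214, 7927), (11758390, 6404), (19500000, 4094)]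

/-- A certificate. -/
def row9MainN21 : Cert :=
  .leaf 10165498 97081295 10165499 97081296
    [(497866, 5228), (3192548, 8104), (14869501, 6357), (24750000, 3761)]

/-- A certificate. -/
def row9MainN19 : Cert :=
  .splitM 24750000 row9MainN20 row9MainN21

/-- A certificate. -/
def row9MainN11 : Cert :=
  .splitC 328933 row9MainN12 row9MainN19

/-- A certificate. -/
def row9MainN3 : Cert :=
  .splitM 19500000 row9MainN4 row9MainN11

/-- A certificate. -/
def row9MainN25 : Cert :=
  .leaf 12506367 66908665 12506368 66908666
    [(1023529, 5816), (5011765, 6437), (9000000, 4970)]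

/-- A certificate. -/
def row9MainN26 : Cert :=
  .leaf 12506367 78269442 12506368 78269443
    [(1023529, 6014), (7636765, 6502), (14250000, 4395)]

/-- A certificate. -/
def row9MainN24 : Cert :=
  .splitM 14250000 row9MainN25 row9MainN26

/-- A certificate. -/
def row9MainN28 : Cert :=
  .leaf 17931846 66908665 17931847 66908666
    [(1549193, 4336), (5274597, 5618), (9000000, 4506)]

/-- A certificate. -/
def row9MainN29 : Cert :=
  .leaf 17931846 78269442 17931847 78269443
    [(1549193, 4547), (7899597, 5854), (14250000, 4067)]

/-- A certificate. -/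
def row9MainN27 : Cert :=
  .splitM 14250000 row9MainN28 row9MainN29

/-- A certificate. -/
def row9MainN23 : Cert :=
  .splitC 1023529 row9MainN24 row9MainN27

/-- A certificate. -/
def row9MainN33 : Cert :=
  .leaf 12506367 88178465 12506368 88178466
    [(760697, 5068), (6616729, 7208), (19500000, 3981)]

/-- A certificate. -/
def row9MainN34 : Cert :=
  .leaf 12506367 97081295 12506368 97081296
    [(760697, 5140), (3426175, 7708), (14976580, 6163), (24750000, 3668)]

/-- A certificate. -/
def row9MainN32 : Cert :=
  .splitM 24750000 row9MainN33 row9MainN34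

/-- A certificate. -/
def row9MainN36 : Cert :=
  .leaf 15458978 88178465 15458979 88178466
    [(1023529, 4221), (5813725, 6938), (14709804, 5277), (19500000, 3841)]

/-- A certificate. -/
def row9MainN37 : Cert :=
  .leaf 15458978 97081295 15458979 97081296
    [(1023529, 4296), (3659804, 7194), (15083660, 5927), (24750000, 3552)]

/-- A certificate. -/
def row9MainN35 : Cert :=
  .splitM 24750000 row9MainN36 row9MainN37

/-- A certificate. -/
def row9MainN31 : Cert :=
  .splitC 760697 row9MainN32 row9MainN35

/-- A certificate. -/
def row9MainN39 : Cert :=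
  .leaf 17931846 88178465 17931847 88178466
    [(1549193, 4686), (10524597, 5985), (19500000, 3725)]

/-- A certificate. -/
def row9MainN40 : Cert :=
  .leaf 17931846 97081295 17931847 97081296
    [(1549193, 4788), (7564217, 6787), (18734976, 5029), (24750000, 3457)]

/-- A certificate. -/
def row9MainN38 : Cert :=
  .splitM 24750000 row9MainN39 row9MainN40

/-- A certificate. -/
def row9MainN30 : Cert :=
  .splitC 1023529 row9MainN31 row9MainN38

/-- A certificate. -/
def row9MainN22 : Cert :=
  .splitM 19500000 row9MainN23 row9MainN30

/-- A certificate. -/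
def row9MainN2 : Cert :=
  .splitC 497866 row9MainN3 row9MainN22

/-- A certificate. -/
def row9MainN51 : Cert :=
  .leaf 7089815 100000000 7089816 100000000
    [(181116, 3182), (1695356, 8659), (9499517, 7800), (22195839, 5260), (30000000, 2633)]

/-- A certificate. -/
def row9MainN52 : Cert :=
  .leaf 7089815 100000000 7089816 100000000
    [(181116, 3197), (1788336, 8741), (10071701, 7965), (23547623, 5711), (31830988, 3652),
     (32009244, 3526), (32187500, 3395)]

/-- A certificate. -/
def row9MainN50 : Cert :=
  .splitM 32187500 row9MainN51 row9MainN52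

/-- A certificate. -/
def row9MainN53 : Cert :=
  .leaf 7543160 100000000 7543161 100000000
    [(202233, 3013), (229968, 4296), (413204, 6969), (877430, 8232), (1715401, 8639),
     (2987135, 8695), (4719912, 8574), (6908276, 8336), (9514035, 8003), (12466258, 7587),
     (15661280, 7099), (18962695, 6549), (22201366, 5956), (25175413, 5351),
     (27650225, 4789), (29358450, 4358), (30000000, 4185)]

/-- A certificate. -/
def row9MainN49 : Cert :=
  .splitC 181116 row9MainN50 row9MainN53

/-- A certificate. -/
def row9MainN56 : Cert :=
  .leaf 7089815 100000000 7089816 100000000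
    [(181116, 3211), (1788336, 8802), (10071701, 8176), (23547623, 6301), (31830988, 4763),
     (32228490, 4571), (33102994, 4108), (33977498, 3572), (34375000, 3294)]

/-- A certificate. -/
def row9MainN57 : Cert :=
  .leaf 7089815 100000000 7089816 100000000
    [(181116, 3222), (1788336, 8855), (10071701, 8349), (23547623, 6757), (31830988, 5526),
     (32570287, 5248), (34196744, 4552), (35823201, 3687), (36562500, 3202)]

/-- A certificate. -/
def row9MainN55 : Cert :=
  .splitM 36562500 row9MainN56 row9MainN57

/-- A certificate. -/
def row9MainN59 : Cert :=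
  .leaf 7543160 100000000 7543161 100000000
    [(202233, 3027), (1808381, 8717), (10086219, 8137), (23553150, 6280), (31830988, 4754),
     (32228490, 4562), (33102994, 4100), (33977498, 3564), (34375000, 3287)]

/-- A certificate. -/
def row9MainN60 : Cert :=
  .leaf 7543160 100000000 7543161 100000000
    [(202233, 3039), (1808381, 8771), (10086219, 8313), (23553150, 6736), (31830988, 5515),
     (32570287, 5237), (34196744, 4542), (35823201, 3679), (36562500, 3195)]

/-- A certificate. -/
def row9MainN58 : Cert :=
  .splitM 36562500 row9MainN59 row9MainN60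

/-- A certificate. -/
def row9MainN54 : Cert :=
  .splitC 181116 row9MainN55 row9MainN58

/-- A certificate. -/
def row9MainN48 : Cert :=
  .splitM 34375000 row9MainN49 row9MainN54

/-- A certificate. -/
def row9MainN62 : Cert :=
  .leaf 7970782 100000000 7970783 100000000
    [(244466, 3859), (455138, 6902), (1755489, 8556), (4755742, 8520), (9543070, 7962),
     (15681602, 7067), (22212419, 5932), (27653555, 4774), (30000000, 4174)]

/-- A certificate. -/
def row9MainN65 : Cert :=
  .leaf 7970782 100000000 7970783 100000000
    [(223349, 2869), (1828424, 8635), (10100736, 8101), (23558676, 6260), (31830988, 4745),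
     (32228490, 4553), (33102994, 4092), (33977498, 3557), (34375000, 3281)]

/-- A certificate. -/
def row9MainN66 : Cert :=
  .leaf 7970782 100000000 7970783 100000000
    [(223349, 2881), (1828424, 8691), (10100736, 8278), (23558676, 6717), (31830988, 5505),
     (32570287, 5227), (34196744, 4534), (35823201, 3672), (36562500, 3189)]

/-- A certificate. -/
def row9MainN64 : Cert :=
  .splitM 36562500 row9MainN65 row9MainN66

/-- A certificate. -/
def row9MainN68 : Cert :=
  .leaf 8376583 100000000 8376584 100000000
    [(244466, 2733), (1848469, 8555), (10115254, 8066), (23564203, 6241), (31830988, 4736),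
     (32228490, 4545), (33102994, 4084), (33977498, 3551), (34375000, 3275)]

/-- A certificate. -/
def row9MainN69 : Cert :=
  .leaf 8376583 100000000 8376584 100000000
    [(244466, 2745), (1848469, 8613), (10115254, 8244), (23564203, 6698), (31830988, 5495),
     (32570287, 5218), (34196744, 4525), (35823201, 3665), (36562500, 3183)]

/-- A certificate. -/
def row9MainN67 : Cert :=
  .splitM 36562500 row9MainN68 row9MainN69

/-- A certificate. -/
def row9MainN63 : Cert :=
  .splitC 223349 row9MainN64 row9MainN67

/-- A certificate. -/
def row9MainN61 : Cert :=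
  .splitM 34375000 row9MainN62 row9MainN63

/-- A certificate. -/
def row9MainN47 : Cert :=
  .splitC 202233 row9MainN48 row9MainN61

/-- A certificate. -/
def row9MainN73 : Cert :=
  .leaf 7089815 100000000 7089816 100000000
    [(181116, 3243), (210575, 4653), (405200, 7374), (898280, 8559), (1788336, 8941),
     (3139116, 9023), (4979595, 8966), (7303979, 8823), (10071701, 8618), (13207422, 8364),
     (16601033, 8070), (20107651, 7750), (23547623, 7419), (26706525, 7100),
     (29335161, 6823), (31149561, 6624), (31830988, 6548), (31908692, 6528),
     (32128289, 6473), (32469510, 6385), (32912084, 6268), (33435739, 6124),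
     (34020207, 5958), (34645215, 5771), (35290494, 5568), (35935773, 5354),
     (36560781, 5135), (37145249, 4918), (37668904, 4712), (38111478, 4528),
     (38452699, 4380), (38672296, 4281), (38750000, 4245)]

/-- A certificate. -/
def row9MainN74 : Cert :=
  .leaf 7089815 100000000 7089816 100000000
    [(181116, 3259), (1788336, 9009), (10071701, 8816), (23547623, 7876), (31830988, 7214),
     (33595677, 6865), (37477994, 5955), (41360311, 4758), (43125000, 4054)]

/-- A certificate. -/
def row9MainN72 : Cert :=
  .splitM 43125000 row9MainN73 row9MainN74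

/-- A certificate. -/
def row9MainN76 : Cert :=
  .leaf 7543160 100000000 7543161 100000000
    [(202233, 3059), (426167, 7165), (1808381, 8861), (4997511, 8919), (10086219, 8584),
     (16611194, 8044), (23553150, 7399), (29336826, 6808), (31830988, 6535),
     (32128289, 6461), (32912084, 6256), (34020207, 5946), (35290494, 5557),
     (36560781, 5125), (37668904, 4702), (38452699, 4371), (38750000, 4236)]

/-- A certificate. -/
def row9MainN77 : Cert :=
  .leaf 7543160 100000000 7543161 100000000
    [(202233, 3075), (1808381, 8930), (10086219, 8784), (23553150, 7857), (31830988, 7201),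
     (33595677, 6852), (37477994, 5943), (41360311, 4749), (43125000, 4045)]

/-- A certificate. -/
def row9MainN75 : Cert :=
  .splitM 43125000 row9MainN76 row9MainN77

/-- A certificate. -/
def row9MainN71 : Cert :=
  .splitC 181116 row9MainN72 row9MainN75

/-- A certificate. -/
def row9MainN79 : Cert :=
  .leaf 7970782 100000000 7970783 100000000
    [(244466, 3922), (756285, 8043), (3754080, 8910), (10115254, 8551), (18962405, 7810),
     (27663322, 6969), (31830988, 6524), (32343507, 6394), (33624806, 6048),
     (35290494, 5547), (36956182, 4970), (38237481, 4456), (38750000, 4228)]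

/-- A certificate. -/
def row9MainN80 : Cert :=
  .leaf 7970782 100000000 7970783 100000000
    [(244466, 3944), (3754080, 9012), (18962405, 8173), (31830988, 7188), (34759065, 6590),
     (40196923, 5138), (43125000, 4037)]

/-- A certificate. -/
def row9MainN78 : Cert :=
  .splitM 43125000 row9MainN79 row9MainN80

/-- A certificate. -/
def row9MainN70 : Cert :=
  .splitC 202233 row9MainN71 row9MainN78

/-- A certificate. -/
def row9MainN46 : Cert :=
  .splitM 38750000 row9MainN47 row9MainN70

/-- A certificate. -/
def row9MainN84 : Cert :=
  .leaf 8763632 100000000 8763633 100000000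
    [(286699, 3538), (768165, 7562), (3588177, 8497), (9572106, 7889), (17894581, 6657),
     (26079495, 5106), (30000000, 4154)]

/-- A certificate. -/
def row9MainN85 : Cert :=
  .leaf 8763632 100000000 8763633 100000000
    [(286699, 3573), (355154, 5194), (797833, 7713), (1888557, 8543), (3791620, 8674),
     (6561785, 8525), (10144289, 8211), (14374838, 7777), (18979611, 7253),
     (23575256, 6679), (27668894, 6118), (30658117, 5671), (31830988, 5486),
     (31890240, 5464), (32052705, 5405), (32295447, 5314), (32595530, 5199),
     (32930016, 5067), (33275972, 4925), (33610458, 4782), (33910541, 4649),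
     (34153283, 4538), (34315748, 4461), (34375000, 4433)]

/-- A certificate. -/
def row9MainN83 : Cert :=
  .splitM 34375000 row9MainN84 row9MainN85

/-- A certificate. -/
def row9MainN87 : Cert :=
  .leaf 9490476 100000000 9490477 100000000
    [(328933, 3281), (809714, 7312), (3625718, 8391), (9601141, 7821), (17911788, 6610),
     (26085068, 5077), (30000000, 4137)]

/-- A certificate. -/
def row9MainN88 : Cert :=
  .leaf 9490476 100000000 9490477 100000000
    [(328933, 3317), (839383, 7472), (3829161, 8578), (10173325, 8150), (18996817, 7211),
     (27674467, 6092), (31830988, 5469), (32019433, 5400), (32490547, 5223),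
     (33102994, 4981), (33715441, 4721), (34186555, 4508), (34375000, 4419)]

/-- A certificate. -/
def row9MainN86 : Cert :=
  .splitM 34375000 row9MainN87 row9MainN88

/-- A certificate. -/
def row9MainN82 : Cert :=
  .splitC 286699 row9MainN83 row9MainN86

/-- A certificate. -/
def row9MainN91 : Cert :=
  .leaf 8763632 100000000 8763633 100000000
    [(286699, 3601), (1888557, 8640), (10144289, 8490), (23575256, 7344), (31830988, 6502),
     (32912084, 6223), (35290494, 5528), (37668904, 4676), (38750000, 4213)]

/-- A certificate. -/
def row9MainN92 : Cert :=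
  .leaf 8763632 100000000 8763633 100000000
    [(286699, 3624), (3791620, 8918), (18979611, 8132), (31830988, 7166), (34759065, 6568),
     (40196923, 5119), (43125000, 4022)]

/-- A certificate. -/
def row9MainN90 : Cert :=
  .splitM 43125000 row9MainN91 row9MainN92

/-- A certificate. -/
def row9MainN94 : Cert :=
  .leaf 9490476 100000000 9490477 100000000
    [(328933, 3345), (1928647, 8501), (10173325, 8433), (23586310, 7312), (31830988, 6483),
     (32912084, 6204), (35290494, 5510), (37668904, 4661), (38750000, 4199)]

/-- A certificate. -/
def row9MainN95 : Cert :=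
  .leaf 9490476 100000000 9490477 100000000
    [(328933, 3368), (3829161, 8829), (18996817, 8094), (31830988, 7145), (34759065, 6548),
     (40196923, 5102), (43125000, 4008)]

/-- A certificate. -/
def row9MainN93 : Cert :=
  .splitM 43125000 row9MainN94 row9MainN95

/-- A certificate. -/
def row9MainN89 : Cert :=
  .splitC 286699 row9MainN90 row9MainN93

/-- A certificate. -/
def row9MainN81 : Cert :=
  .splitM 38750000 row9MainN82 row9MainN89

/-- A certificate. -/
def row9MainN45 : Cert :=
  .splitC 244466 row9MainN46 row9MainN81

/-- A certificate. -/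
def row9MainN96 : Cert :=
  .leaf 7089815 100000000 7089816 100000000
    [(328933, 6926), (3829161, 9344), (18996817, 8974), (31830988, 8512), (35893324, 8125),
     (43437664, 7228), (47500000, 6622)]

/-- A certificate. -/
def row9MainN44 : Cert :=
  .splitM 47500000 row9MainN45 row9MainN96

/-- A certificate. -/
def row9MainN101 : Cert :=
  .leaf 10165498 100000000 10165499 100000000
    [(413399, 4111), (1915844, 8110), (9659212, 7754), (22256632, 5815), (30000000, 4120)]

/-- A certificate. -/
def row9MainN102 : Cert :=
  .leaf 10165498 100000000 10165499 100000000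
    [(413399, 4160), (922480, 7344), (3904242, 8486), (10231396, 8090), (19031230, 7170),
     (27685612, 6067), (31830988, 5453), (32019433, 5384), (32490547, 5208),
     (33102994, 4966), (33715441, 4707), (34186555, 4494), (34375000, 4405)]

/-- A certificate. -/
def row9MainN100 : Cert :=
  .splitM 34375000 row9MainN101 row9MainN102

/-- A certificate. -/
def row9MainN104 : Cert :=
  .leaf 11396189 100000000 11396190 100000000
    [(497866, 3704), (1996021, 7846), (9717283, 7636), (22278738, 5750), (30000000, 4090)]

/-- A certificate. -/
def row9MainN105 : Cert :=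
  .leaf 11396189 100000000 11396190 100000000
    [(497866, 3754), (2089001, 8029), (10289467, 7985), (23630522, 6556), (31830988, 5424),
     (32228490, 5279), (33102994, 4939), (33977498, 4565), (34375000, 4381)]

/-- A certificate. -/
def row9MainN103 : Cert :=
  .splitM 34375000 row9MainN104 row9MainN105

/-- A certificate. -/
def row9MainN99 : Cert :=
  .splitC 413399 row9MainN100 row9MainN103

/-- A certificate. -/
def row9MainN109 : Cert :=
  .leaf 10165498 100000000 10165499 100000000
    [(371166, 3134), (1968735, 8370), (10202360, 8380), (23597363, 7282), (31830988, 6464),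
     (32912084, 6187), (35290494, 5494), (37668904, 4646), (38750000, 4186)]

/-- A certificate. -/
def row9MainN110 : Cert :=
  .leaf 10165498 100000000 10165499 100000000
    [(371166, 3157), (3866702, 8745), (19014023, 8059), (31830988, 7125), (34759065, 6530),
     (40196923, 5087), (43125000, 3996)]

/-- A certificate. -/
def row9MainN108 : Cert :=
  .splitM 43125000 row9MainN109 row9MainN110

/-- A certificate. -/
def row9MainN112 : Cert :=
  .leaf 10798390 100000000 10798391 100000000
    [(413399, 2957), (3904242, 8548), (19031230, 7657), (31830988, 6447), (33624806, 5976),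
     (36956182, 4907), (38750000, 4174)]

/-- A certificate. -/
def row9MainN113 : Cert :=
  .leaf 10798390 100000000 10798391 100000000
    [(413399, 2980), (3904242, 8664), (19031230, 8026), (31830988, 7107), (34759065, 6512),
     (40196923, 5072), (43125000, 3984)]

/-- A certificate. -/
def row9MainN111 : Cert :=
  .splitM 43125000 row9MainN112 row9MainN113

/-- A certificate. -/
def row9MainN107 : Cert :=
  .splitC 371166 row9MainN108 row9MainN111

/-- A certificate. -/
def row9MainN114 : Cert :=
  .leaf 11396189 100000000 11396190 100000000
    [(497866, 3825), (527030, 4311), (719707, 6050), (1207853, 7497), (2089001, 8230),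
     (3426262, 8540), (5248322, 8632), (7549444, 8603), (10289467, 8496), (13393806, 8336),
     (16753453, 8139), (20224977, 7918), (23630522, 7689), (26757811, 7468),
     (29360139, 7277), (31156381, 7142), (31830988, 7090), (31908692, 7075),
     (32128289, 7034), (32469510, 6969), (32912084, 6882), (33435739, 6776),
     (34020207, 6655), (34645215, 6521), (35290494, 6377), (35935773, 6227),
     (36560781, 6077), (37145249, 5930), (37668904, 5794), (38111478, 5675),
     (38452699, 5581), (38672296, 5519), (38750000, 5497)]

/-- A certificate. -/
def row9MainN106 : Cert :=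
  .splitC 413399 row9MainN107 row9MainN114

/-- A certificate. -/
def row9MainN98 : Cert :=
  .splitM 38750000 row9MainN99 row9MainN106

/-- A certificate. -/
def row9MainN115 : Cert :=
  .leaf 10165498 100000000 10165499 100000000
    [(497866, 5553), (10289467, 9065), (31830988, 8421), (39665494, 7615), (47500000, 6535)]

/-- A certificate. -/
def row9MainN97 : Cert :=
  .splitM 47500000 row9MainN98 row9MainN115

/-- A certificate. -/
def row9MainN43 : Cert :=
  .splitC 328933 row9MainN44 row9MainN97

/-- A certificate. -/
def row9MainN116 : Cert :=
  .leaf 7089815 0 7089816 0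
    [(497866, 8251), (10289467, 9937), (31830988, 9988), (48415494, 9993), (65000000, 9996)]

/-- A certificate. -/
def row9MainN42 : Cert :=
  .splitM 65000000 row9MainN43 row9MainN116

/-- A certificate. -/
def row9MainN124 : Cert :=
  .leaf 12506367 100000000 12506368 100000000
    [(629281, 4065), (3892694, 7936), (18034152, 6406), (30000000, 4064)]

/-- A certificate. -/
def row9MainN125 : Cert :=
  .leaf 12506367 100000000 12506368 100000000
    [(629281, 4127), (4096137, 8159), (19119181, 7032), (31830988, 5398), (32490547, 5156),
     (33715441, 4658), (34375000, 4360)]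

/-- A certificate. -/
def row9MainN123 : Cert :=
  .splitM 34375000 row9MainN124 row9MainN125

/-- A certificate. -/
def row9MainN127 : Cert :=
  .leaf 14060386 100000000 14060387 100000000
    [(760697, 3645), (4009508, 7694), (18087691, 6303), (30000000, 4027)]

/-- A certificate. -/
def row9MainN128 : Cert :=
  .leaf 14060386 100000000 14060387 100000000
    [(760697, 3708), (4212952, 7935), (19172721, 6941), (31830988, 5363), (32490547, 5121),
     (33715441, 4627), (34375000, 4330)]

/-- A certificate. -/
def row9MainN126 : Cert :=
  .splitM 34375000 row9MainN127 row9MainN128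

/-- A certificate. -/
def row9MainN122 : Cert :=
  .splitC 629281 row9MainN123 row9MainN126

/-- A certificate. -/
def row9MainN129 : Cert :=
  .leaf 12506367 100000000 12506368 100000000
    [(760697, 5415), (1264151, 7149), (4212952, 8455), (10470163, 8405), (19172721, 7931),
     (27731436, 7358), (31830988, 7058), (32343507, 6961), (33624806, 6707),
     (35290494, 6347), (36956182, 5949), (38237481, 5613), (38750000, 5470)]

/-- A certificate. -/
def row9MainN121 : Cert :=
  .splitM 38750000 row9MainN122 row9MainN129

/-- A certificate. -/
def row9MainN133 : Cert :=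
  .leaf 15458978 100000000 15458979 100000000
    [(892113, 3323), (4126323, 7473), (18141231, 6210), (30000000, 3995)]

/-- A certificate. -/
def row9MainN134 : Cert :=
  .leaf 15458978 100000000 15458979 100000000
    [(892113, 3387), (4329766, 7729), (19226261, 6859), (31830988, 5331), (32490547, 5091),
     (33715441, 4599), (34375000, 4303)]

/-- A certificate. -/
def row9MainN132 : Cert :=
  .splitM 34375000 row9MainN133 row9MainN134

/-- A certificate. -/
def row9MainN136 : Cert :=
  .leaf 16741133 100000000 16741134 100000000
    [(1023529, 3066), (4243137, 7268), (18194771, 6124), (30000000, 3965)]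

/-- A certificate. -/
def row9MainN137 : Cert :=
  .leaf 16741133 100000000 16741134 100000000
    [(1023529, 3131), (4446580, 7538), (19279801, 6783), (31830988, 5302), (32490547, 5063),
     (33715441, 4573), (34375000, 4279)]

/-- A certificate. -/
def row9MainN135 : Cert :=
  .splitM 34375000 row9MainN136 row9MainN137

/-- A certificate. -/
def row9MainN131 : Cert :=
  .splitC 892113 row9MainN132 row9MainN135

/-- A certificate. -/
def row9MainN138 : Cert :=
  .leaf 15458978 100000000 15458979 100000000
    [(1023529, 4586), (4446580, 8059), (19279801, 7773), (31830988, 6975), (33624806, 6625),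
     (36956182, 5874), (38750000, 5398)]

/-- A certificate. -/
def row9MainN130 : Cert :=
  .splitM 38750000 row9MainN131 row9MainN138

/-- A certificate. -/
def row9MainN120 : Cert :=
  .splitC 760697 row9MainN121 row9MainN130

/-- A certificate. -/
def row9MainN139 : Cert :=
  .leaf 12506367 100000000 12506368 100000000
    [(1023529, 6756), (10650860, 8908), (31830988, 8351), (39665494, 7544),
     (47500000, 6468)]

/-- A certificate. -/
def row9MainN119 : Cert :=
  .splitM 47500000 row9MainN120 row9MainN139

/-- A certificate. -/
def row9MainN144 : Cert :=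
  .leaf 17931846 100000000 17931847 100000000
    [(1286361, 3819), (4476765, 7094), (18301851, 6037), (30000000, 3938)]

/-- A certificate. -/
def row9MainN145 : Cert :=
  .leaf 17931846 100000000 17931847 100000000
    [(1286361, 3908), (4680208, 7377), (19386881, 6708), (31830988, 5276), (32490547, 5037),
     (33715441, 4550), (34375000, 4257)]

/-- A certificate. -/
def row9MainN143 : Cert :=
  .splitM 34375000 row9MainN144 row9MainN145

/-- A certificate. -/
def row9MainN147 : Cert :=
  .leaf 20102791 100000000 20102792 100000000
    [(1549193, 3411), (8925328, 6856), (22623865, 5274), (30000000, 3889)]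

/-- A certificate. -/
def row9MainN148 : Cert :=
  .leaf 20102791 100000000 20102792 100000000
    [(1549193, 3502), (11012254, 7195), (31830988, 5228), (33102994, 4757),
     (34375000, 4217)]

/-- A certificate. -/
def row9MainN146 : Cert :=
  .splitM 34375000 row9MainN147 row9MainN148

/-- A certificate. -/
def row9MainN142 : Cert :=
  .splitC 1286361 row9MainN143 row9MainN146

/-- A certificate. -/
def row9MainN149 : Cert :=
  .leaf 17931846 100000000 17931847 100000000
    [(1549193, 5187), (11012254, 7964), (31830988, 6905), (35290494, 6202),
     (38750000, 5339)]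

/-- A certificate. -/
def row9MainN141 : Cert :=
  .splitM 38750000 row9MainN142 row9MainN149

/-- A certificate. -/
def row9MainN150 : Cert :=
  .leaf 17931846 100000000 17931847 100000000
    [(1549193, 5372), (11012254, 8525), (31830988, 8184), (39665494, 7378),
     (47500000, 6313)]

/-- A certificate. -/
def row9MainN140 : Cert :=
  .splitM 47500000 row9MainN141 row9MainN150

/-- A certificate. -/
def row9MainN118 : Cert :=
  .splitC 1023529 row9MainN119 row9MainN140

/-- A certificate. -/
def row9MainN151 : Cert :=
  .leaf 12506367 0 12506368 0
    [(1549193, 8278), (11012254, 9817), (31830988, 9963), (48415494, 9978),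
     (65000000, 9990)]

/-- A certificate. -/
def row9MainN117 : Cert :=
  .splitM 65000000 row9MainN118 row9MainN151

/-- A certificate. -/
def row9MainN41 : Cert :=
  .splitC 497866 row9MainN42 row9MainN117

/-- A certificate. -/
def row9MainN1 : Cert :=
  .splitM 30000000 row9MainN2 row9MainN41

/-- A certificate. -/
def row9MainN157 : Cert :=
  .leaf 22061127 66908665 22061128 66908666
    [(3184881, 4749), (6092441, 4913), (9000000, 4153)]

/-- A certificate. -/
def row9MainN158 : Cert :=
  .leaf 22061127 78269442 22061128 78269443
    [(3184881, 5113), (8717441, 5260), (14250000, 3821)]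

/-- A certificate. -/
def row9MainN156 : Cert :=
  .splitM 14250000 row9MainN157 row9MainN158

/-- A certificate. -/
def row9MainN160 : Cert :=
  .leaf 31631627 66908665 31631628 66908666
    [(4820569, 3217), (6910285, 3577), (9000000, 3312)]

/-- A certificate. -/
def row9MainN161 : Cert :=
  .leaf 31631627 78269442 31631628 78269443
    [(4820569, 3599), (9535285, 4154), (14250000, 3256)]

/-- A certificate. -/
def row9MainN159 : Cert :=
  .splitM 14250000 row9MainN160 row9MainN161

/-- A certificate. -/
def row9MainN155 : Cert :=
  .splitC 3184881 row9MainN156 row9MainN159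

/-- A certificate. -/
def row9MainN165 : Cert :=
  .leaf 22061127 88178465 22061128 88178466
    [(2367037, 4471), (10933519, 5536), (19500000, 3534)]

/-- A certificate. -/
def row9MainN166 : Cert :=
  .leaf 22061127 97081295 22061128 97081296
    [(2367037, 4596), (13558519, 5677), (24750000, 3300)]

/-- A certificate. -/
def row9MainN164 : Cert :=
  .splitM 24750000 row9MainN165 row9MainN166

/-- A certificate. -/
def row9MainN168 : Cert :=
  .leaf 27269517 88178465 27269518 88178466
    [(3184881, 3612), (11342441, 5000), (19500000, 3297)]

/-- A certificate. -/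
def row9MainN169 : Cert :=
  .leaf 27269517 97081295 27269518 97081296
    [(3184881, 3740), (13967441, 5201), (24750000, 3105)]

/-- A certificate. -/
def row9MainN167 : Cert :=
  .splitM 24750000 row9MainN168 row9MainN169

/-- A certificate. -/
def row9MainN163 : Cert :=
  .splitC 2367037 row9MainN164 row9MainN167

/-- A certificate. -/
def row9MainN171 : Cert :=
  .leaf 31631627 88178465 31631628 88178466
    [(4820569, 3847), (12160285, 4509), (19500000, 3100)]

/-- A certificate. -/
def row9MainN172 : Cert :=
  .leaf 31631627 97081295 31631628 97081296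
    [(4820569, 4025), (14785285, 4757), (24750000, 2945)]

/-- A certificate. -/
def row9MainN170 : Cert :=
  .splitM 24750000 row9MainN171 row9MainN172

/-- A certificate. -/
def row9MainN162 : Cert :=
  .splitC 3184881 row9MainN163 row9MainN170

/-- A certificate. -/
def row9MainN154 : Cert :=
  .splitM 19500000 row9MainN155 row9MainN162

/-- A certificate. -/
def row9MainN176 : Cert :=
  .leaf 38915632 66908665 38915633 66908666 []

/-- A certificate. -/
def row9MainN178 : Cert :=
  .leaf 38915632 78269442 38915633 78269443
    [(7365426, 3097), (10807713, 3319), (14250000, 2819)]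

/-- A certificate. -/
def row9MainN180 : Cert :=
  .leaf 48103189 72810971 48103190 72810972
    [(9910284, 1960), (12080142, 2005), (14250000, 1650)]

/-- A certificate. -/
def row9MainN181 : Cert :=
  .leaf 48103189 78269442 48103190 78269443
    [(9910284, 2200), (13392642, 2325), (16875000, 1705)]

/-- A certificate. -/
def row9MainN179 : Cert :=
  .splitM 16875000 row9MainN180 row9MainN181

/-- A certificate. -/
def row9MainN177 : Cert :=
  .splitC 7365426 row9MainN178 row9MainN179

/-- A certificate. -/
def row9MainN175 : Cert :=
  .splitM 14250000 row9MainN176 row9MainN177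

/-- A certificate. -/
def row9MainN183 : Cert :=
  .leaf 55797916 66908665 55797917 66908666 []

/-- A certificate. -/
def row9MainN186 : Cert :=
  .leaf 55797916 72810971 55797917 72810972
    [(12455142, 1309), (13352571, 1313), (14250000, 1232)]

/-- A certificate. -/
def row9MainN187 : Cert :=
  .leaf 55797916 78269442 55797917 78269443
    [(12455142, 1586), (14665071, 1655), (16875000, 1376)]

/-- A certificate. -/
def row9MainN185 : Cert :=
  .splitM 16875000 row9MainN186 row9MainN187

/-- A certificate. -/
def row9MainN184 : Cert :=
  .splitC 12455142 row9MainN185 .skip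

/-- A certificate. -/
def row9MainN182 : Cert :=
  .splitM 14250000 row9MainN183 row9MainN184

/-- A certificate. -/
def row9MainN174 : Cert :=
  .splitC 9910284 row9MainN175 row9MainN182

/-- A certificate. -/
def row9MainN192 : Cert :=
  .leaf 38915632 88178465 38915633 88178466
    [(7365426, 3417), (10511427, 3872), (16353999, 3393), (19500000, 2772)]

/-- A certificate. -/
def row9MainN193 : Cert :=
  .leaf 38915632 97081295 38915633 97081296
    [(7365426, 3644), (16057713, 4070), (24750000, 2679)]

/-- A certificate. -/
def row9MainN191 : Cert :=
  .splitM 24750000 row9MainN192 row9MainN193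

/-- A certificate. -/
def row9MainN195 : Cert :=
  .leaf 48103189 88178465 48103190 88178466
    [(9910284, 2538), (14705142, 2912), (19500000, 2350)]

/-- A certificate. -/
def row9MainN196 : Cert :=
  .leaf 48103189 97081295 48103190 97081296
    [(9910284, 2772), (17330142, 3295), (24750000, 2344)]

/-- A certificate. -/
def row9MainN194 : Cert :=
  .splitM 24750000 row9MainN195 row9MainN196

/-- A certificate. -/
def row9MainN190 : Cert :=
  .splitC 7365426 row9MainN191 row9MainN194

/-- A certificate. -/
def row9MainN199 : Cert :=
  .leaf 55797916 88178465 55797917 88178466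
    [(12455142, 1951), (15977571, 2246), (19500000, 1978)]

/-- A certificate. -/
def row9MainN198 : Cert :=
  .splitC 12455142 row9MainN199 .skip

/-- A certificate. -/
def row9MainN201 : Cert :=
  .leaf 55797916 97081295 55797917 97081296
    [(15000000, 2615), (19875000, 2612), (24750000, 2056)]

/-- A certificate. -/
def row9MainN197 : Cert :=
  .splitM 24750000 row9MainN198 row9MainN201

/-- A certificate. -/
def row9MainN189 : Cert :=
  .splitC 9910284 row9MainN190 row9MainN197

/-- A certificate. -/
def row9MainN173 : Cert :=
  .splitM 19500000 row9MainN174 row9MainN189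

/-- A certificate. -/
def row9MainN153 : Cert :=
  .splitC 4820569 row9MainN154 row9MainN173

/-- A certificate. -/
def row9MainN210 : Cert :=
  .leaf 22061127 100000000 22061128 100000000
    [(1958115, 3710), (9228233, 6633), (22729882, 5166), (30000000, 3846)]

/-- A certificate. -/
def row9MainN211 : Cert :=
  .leaf 22061127 100000000 22061128 100000000
    [(1958115, 3823), (9702934, 7052), (24086169, 6047), (31830988, 5185), (32490547, 4950),
     (33715441, 4470), (34375000, 4182)]

/-- A certificate. -/
def row9MainN209 : Cert :=
  .splitM 34375000 row9MainN210 row9MainN211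

/-- A certificate. -/
def row9MainN212 : Cert :=
  .leaf 24802418 100000000 24802419 100000000
    [(2367037, 3406), (4413923, 5988), (9531139, 6768), (16183519, 6550), (22835898, 6044),
     (27953114, 5553), (30000000, 5334)]

/-- A certificate. -/
def row9MainN208 : Cert :=
  .splitC 1958115 row9MainN209 row9MainN212

/-- A certificate. -/
def row9MainN213 : Cert :=
  .leaf 22061127 100000000 22061128 100000000
    [(2367037, 5105), (17099013, 7505), (31830988, 6788), (35290494, 6093),
     (38750000, 5242)]

/-- A certificate. -/
def row9MainN207 : Cert :=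
  .splitM 38750000 row9MainN208 row9MainN213

/-- A certificate. -/
def row9MainN215 : Cert :=
  .leaf 27269517 100000000 27269518 100000000
    [(3184881, 4062), (7374743, 6325), (16592441, 6361), (25810138, 5676), (30000000, 5269)]

/-- A certificate. -/
def row9MainN216 : Cert :=
  .leaf 27269517 100000000 27269518 100000000
    [(3184881, 4280), (17507935, 7173), (31830988, 6642), (35290494, 5956),
     (38750000, 5119)]

/-- A certificate. -/
def row9MainN214 : Cert :=
  .splitM 38750000 row9MainN215 row9MainN216

/-- A certificate. -/
def row9MainN206 : Cert :=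
  .splitC 2367037 row9MainN207 row9MainN214

/-- A certificate. -/
def row9MainN217 : Cert :=
  .leaf 22061127 100000000 22061128 100000000
    [(3184881, 6488), (17507935, 8272), (31830988, 8055), (39665494, 7249),
     (47500000, 6194)]

/-- A certificate. -/
def row9MainN205 : Cert :=
  .splitM 47500000 row9MainN206 row9MainN217

/-- A certificate. -/
def row9MainN220 : Cert :=
  .leaf 31631627 100000000 31631628 100000000
    [(4820569, 4488), (11348570, 6097), (23471999, 5687), (30000000, 5156)]

/-- A certificate. -/
def row9MainN221 : Cert :=
  .leaf 31631627 100000000 31631628 100000000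
    [(4820569, 4792), (18325779, 6890), (31830988, 6519), (35290494, 5841),
     (38750000, 5017)]

/-- A certificate. -/
def row9MainN219 : Cert :=
  .splitM 38750000 row9MainN220 row9MainN221

/-- A certificate. -/
def row9MainN222 : Cert :=
  .leaf 31631627 100000000 31631628 100000000
    [(4820569, 5114), (18325779, 7703), (31830988, 7740), (39665494, 6941),
     (47500000, 5913)]

/-- A certificate. -/
def row9MainN218 : Cert :=
  .splitM 47500000 row9MainN219 row9MainN222

/-- A certificate. -/
def row9MainN204 : Cert :=
  .splitC 3184881 row9MainN205 row9MainN218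

/-- A certificate. -/
def row9MainN223 : Cert :=
  .leaf 22061127 0 22061128 0
    [(4820569, 8364), (18325779, 9704), (31830988, 9882), (48415494, 9932),
     (65000000, 9969)]

/-- A certificate. -/
def row9MainN203 : Cert :=
  .splitM 65000000 row9MainN204 row9MainN223

/-- A certificate. -/
def row9MainN229 : Cert :=
  .leaf 38915632 100000000 38915633 100000000
    [(7365426, 4270), (18682713, 5521), (30000000, 4969)]

/-- A certificate. -/
def row9MainN230 : Cert :=
  .leaf 38915632 100000000 38915633 100000000
    [(7365426, 4661), (19598207, 6434), (31830988, 6310), (35290494, 5647),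
     (38750000, 4845)]

/-- A certificate. -/
def row9MainN228 : Cert :=
  .splitM 38750000 row9MainN229 row9MainN230

/-- A certificate. -/
def row9MainN231 : Cert :=
  .leaf 48103189 100000000 48103190 100000000
    [(9910284, 3893), (19955142, 5820), (30000000, 6040)]

/-- A certificate. -/
def row9MainN227 : Cert :=
  .splitC 7365426 row9MainN228 row9MainN231

/-- A certificate. -/
def row9MainN232 : Cert :=
  .leaf 38915632 100000000 38915633 100000000
    [(9910284, 6130), (20870636, 7315), (31830988, 7483), (39665494, 6694),
     (47500000, 5689)]

/-- A certificate. -/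
def row9MainN226 : Cert :=
  .splitM 47500000 row9MainN227 row9MainN232

/-- A certificate. -/
def row9MainN233 : Cert :=
  .leaf 55797916 100000000 55797917 100000000
    [(15000000, 4889), (22500000, 6209), (30000000, 6717)]

/-- A certificate. -/
def row9MainN225 : Cert :=
  .splitC 9910284 row9MainN226 row9MainN233

/-- A certificate. -/
def row9MainN234 : Cert :=
  .leaf 38915632 0 38915633 0
    [(15000000, 8623), (23415494, 9309), (31830988, 9603), (48415494, 9775),
     (65000000, 9897)]

/-- A certificate. -/
def row9MainN224 : Cert :=
  .splitM 65000000 row9MainN225 row9MainN234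

/-- A certificate. -/
def row9MainN202 : Cert :=
  .splitC 4820569 row9MainN203 row9MainN224

/-- A certificate. -/
def row9MainN152 : Cert :=
  .splitM 30000000 row9MainN153 row9MainN202

/-- A certificate. -/
def row9Main : Cert :=
  .splitC 1549193 row9MainN1 row9MainN152

/-- A certificate. -/
def row9FloorN3 : Cert :=
  .leaf 7089815 66908665 7089816 66908666
    [(1142222, 8041), (5398519, 7019), (9000000, 5439)]

/-- A certificate. -/
def row9FloorN4 : Cert :=
  .leaf 7089815 78269442 7089816 78269443
    [(388310, 6960), (1725556, 8338), (4563125, 7883), (8509630, 6818), (12390903, 5500),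
     (14250000, 4730)]

/-- A certificate. -/
def row9FloorN2 : Cert :=
  .splitM 14250000 row9FloorN3 row9FloorN4

/-- A certificate. -/
def row9FloorN6 : Cert :=
  .leaf 7089815 88178465 7089816 88178466
    [(201970, 4202), (473380, 7458), (1142109, 8382), (2308889, 8502), (4007295, 8302),
     (6203750, 7908), (8797526, 7363), (11620741, 6694), (14438359, 5941), (16948194, 5172),
     (18780906, 4526), (19500000, 4245)]

/-- A certificate. -/
def row9FloorN8 : Cert :=
  .leaf 7089815 92736777 7089816 92736778
    [(558449, 7766), (2892222, 8538), (7844375, 7766), (14731852, 6278), (21505486, 4285),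
     (24750000, 2867)]

/-- A certificate. -/
def row9FloorN9 : Cert :=
  .leaf 7089815 97081295 7089816 97081296
    [(600984, 7902), (3183889, 8586), (8664688, 7786), (16287407, 6269), (23784132, 4227),
     (27375000, 2748)]

/-- A certificate. -/
def row9FloorN7 : Cert :=
  .splitM 27375000 row9FloorN8 row9FloorN9

/-- A certificate. -/
def row9FloorN5 : Cert :=
  .splitM 24750000 row9FloorN6 row9FloorN7

/-- A certificate. -/
def row9FloorN1 : Cert :=
  .splitM 19500000 row9FloorN2 row9FloorN5

/-- A certificate. -/
def row9FloorN15 : Cert :=
  .leaf 7089815 100000000 7089816 100000000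
    [(643519, 8020), (3475556, 8627), (9485000, 7802), (17842963, 6259), (26062778, 4172),
     (30000000, 2633)]

/-- A certificate. -/
def row9FloorN16 : Cert :=
  .leaf 7089815 100000000 7089816 100000000
    [(384233, 7134), (1768292, 8739), (4961681, 8602), (10057184, 7967), (16590871, 6978),
     (23542097, 5713), (29333496, 4377), (31830988, 3652), (32009244, 3526),
     (32187500, 3395)]

/-- A certificate. -/
def row9FloorN14 : Cert :=
  .splitM 32187500 row9FloorN15 row9FloorN16

/-- A certificate. -/
def row9FloorN18 : Cert :=
  .leaf 7089815 100000000 7089816 100000000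
    [(228730, 5152), (673187, 8163), (1768292, 8800), (3678999, 8812), (6460291, 8576),
     (10057184, 8177), (14304725, 7647), (18927993, 7010), (23542097, 6302),
     (27652177, 5593), (30653406, 5011), (31830988, 4763), (31890240, 4735),
     (32052705, 4657), (32295447, 4538), (32595530, 4384), (32930016, 4205),
     (33275972, 4009), (33610458, 3808), (33910541, 3616), (34153283, 3452),
     (34315748, 3337), (34375000, 3294)]

/-- A certificate. -/
def row9FloorN19 : Cert :=
  .leaf 7089815 100000000 7089816 100000000
    [(189479, 3722), (384233, 7195), (877642, 8473), (1768292, 8852), (3119973, 8909),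
     (4961681, 8813), (7287615, 8620), (10057184, 8351), (13194997, 8018), (16590871, 7632),
     (20099829, 7205), (23542097, 6758), (26703106, 6317), (29333496, 5925),
     (31149107, 5638), (31830988, 5526), (31884125, 5507), (32034295, 5451),
     (32267636, 5364), (32570287, 5248), (32928385, 5105), (33328068, 4940),
     (33755475, 4754), (34196744, 4552), (34638013, 4338), (35065420, 4117),
     (35465103, 3897), (35823201, 3687), (36125852, 3498), (36359193, 3343),
     (36509363, 3240), (36562500, 3202)]

/-- A certificate. -/
def row9FloorN17 : Cert :=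
  .splitM 36562500 row9FloorN18 row9FloorN19

/-- A certificate. -/
def row9FloorN13 : Cert :=
  .splitM 34375000 row9FloorN14 row9FloorN17

/-- A certificate. -/
def row9FloorN22 : Cert :=
  .leaf 7089815 100000000 7089816 100000000
    [(228730, 5188), (673187, 8230), (1768292, 8898), (3678999, 8958), (6460291, 8794),
     (10057184, 8496), (14304725, 8099), (18927993, 7629), (23542097, 7122),
     (27652177, 6635), (30653406, 6254), (31830988, 6098), (31967126, 6058),
     (32343507, 5943), (32912084, 5764), (33624806, 5526), (34433626, 5238),
     (35290494, 4906), (36147362, 4542), (36956182, 4161), (37668904, 3786),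
     (38237481, 3453), (38613862, 3210), (38750000, 3117)]

/-- A certificate. -/
def row9FloorN23 : Cert :=
  .leaf 7089815 100000000 7089816 100000000
    [(384233, 7243), (1768292, 8938), (4961681, 8967), (10057184, 8620), (16590871, 8071),
     (23542097, 7420), (29333496, 6823), (31830988, 6548), (32222283, 6449),
     (33253880, 6175), (34712345, 5751), (36384244, 5198), (38056143, 4552),
     (39514608, 3873), (40546205, 3292), (40937500, 3039)]

/-- A certificate. -/
def row9FloorN21 : Cert :=
  .splitM 40937500 row9FloorN22 row9FloorN23

/-- A certificate. -/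
def row9FloorN24 : Cert :=
  .leaf 7089815 100000000 7089816 100000000
    [(384233, 7282), (1768292, 9005), (4961681, 9083), (10057184, 8817), (16590871, 8385),
     (23542097, 7877), (29333496, 7420), (31830988, 7214), (32316278, 7121),
     (33595677, 6865), (35404484, 6468), (37477994, 5955), (39551504, 5363),
     (41360311, 4758), (42639710, 4262), (43125000, 4054)]

/-- A certificate. -/
def row9FloorN20 : Cert :=
  .splitM 43125000 row9FloorN21 row9FloorN24

/-- A certificate. -/
def row9FloorN12 : Cert :=
  .splitM 38750000 row9FloorN13 row9FloorN20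

/-- A certificate. -/
def row9FloorN25 : Cert :=
  .leaf 7089815 100000000 7089816 100000000
    [(189479, 3814), (384233, 7382), (877642, 8723), (1768292, 9171), (3119973, 9322),
     (4961681, 9353), (7287615, 9323), (10057184, 9256), (13194997, 9164), (16590871, 9055),
     (20099829, 8936), (23542097, 8815), (26703106, 8702), (29333496, 8605),
     (31149107, 8538), (31830988, 8512), (32006958, 8497), (32504266, 8452),
     (33277005, 8381), (34279271, 8286), (35465158, 8168), (36788761, 8031),
     (38204175, 7877), (39665494, 7708), (41126813, 7530), (42542227, 7348),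
     (43865830, 7169), (45051717, 6999), (46053983, 6850), (46826722, 6730),
     (47324030, 6651), (47500000, 6622)]

/-- A certificate. -/
def row9FloorN11 : Cert :=
  .splitM 47500000 row9FloorN12 row9FloorN25

/-- A certificate. -/
def row9FloorN26 : Cert :=
  .leaf 7089815 0 7089816 0
    [(1768292, 9552), (10057184, 9935), (23542097, 9980), (31830988, 9988),
     (37013646, 9989), (48415494, 9993), (59817342, 9995), (65000000, 9996)]

/-- A certificate. -/
def row9FloorN10 : Cert :=
  .splitM 65000000 row9FloorN11 row9FloorN26

/-- A certificate. -/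
def row9Floor : Cert :=
  .splitM 30000000 row9FloorN1 row9FloorN10

theorem row9Main_ok :
    check (row9Bins.map Prod.fst) (10 ^ 8) tubeSkip row9Main 160000 15000000 9000000 (10 ^ 8) = true := by
  refine Fast.check_of ?_
  iterate 4 all_goals try first | apply Fast.splitM_ok | apply Fast.splitC_ok
  all_goals decide +kernel

theorem row9Floor_ok :
    check (row9Bins.map Prod.fst) (3234 * 14440 * 10 ^ 6 + 10 ^ 8) noSkip row9Floor 160000 160000 9000000 (10 ^ 8) = true := by
  refine Fast.check_of ?_
  iterate 2 all_goals try apply Fast.splitM_ok
  all_goals decide +kernel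

/-- The nodes of a crossing. -/
def row9Cross : List (ℕ × ℕ) :=
  [
  (172812, 2379), (211250, 4294), (275312, 5622), (365000, 6477),
  (480312, 7010), (621250, 7335), (787812, 7524), (980000, 7619)]

theorem row9Cross_ok :
    excursionOK 160000 980000 (max 9000000 980000) (2 * (3234 * 14440 * 10 ^ 6) : ℕ) 7089816 53173616 row9Cross = true := by
  decide +kernel

end Vale.Agent.P232.Scalar
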