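import Vale.Agent.P232.Pins

/-!
# P232: vocabulary of the scalar certificate (half units)
-/

noncomputable section

namespace Vale.Agent.P232.Scalar

open Real Set

/-- A rational minorant of `(prof / 2) ^ 2`. -/
def lowSqR (a : ℝ) : ℝ :=
  min (31415926535 / 10 ^ 10 * a) (min 1 (31415926535 / 10 ^ 10 * (1 - a)))

/-- A rational majorant of `(prof / 2) ^ 2`. -/
def upSqR (a : ℝ) : ℝ :=
  min (31415926536 / 10 ^ 10 * a) (min 1 (31415926536 / 10 ^ 10 * (1 - a)))

/-- A chord through `(C, prof C)`, `(M, prof M)` with `lo ≤ C ≤ c` and `m ≤ M` reaches twice the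
target at the mean value `v`. -/
def Calibrated (lo c m v tg : ℝ) : Prop :=
  ∃ C M, lo ≤ C ∧ C ≤ c ∧ m ≤ M ∧ M ≤ 1 ∧
    2 * tg ≤ chord C M v + 2 * ∫ a in c..m, weight C M a

end Vale.Agent.P232.Scalar
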