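import Vale.Agent.P232.Scalar.Base

/-!
# P232: the scalar inequality at the diagonal
-/

noncomputable section

namespace Vale.Agent.P232.Scalar

open Real Set MeasureTheory

theorem chord_self (c v : ℝ) : chord c c v = prof c := by simp [chord]

theorem tube_gap {s x y z : ℝ} (hs0 : 0 < s) (hs2 : s ^ 2 = π) (hs177 : 177 / 100 ≤ s)
    (hx33 : 316 / 1000 ≤ x) (hxy : x < y) (hy : y * y ≤ 32 / 100) :
    s * ((z - x) * (y - z)) / (x + y) + ((y - x) * (x + y)) ^ 2 / 250 ≤
      π * ((y - x) * (x + y)) * (y - x) / (8 * y) := by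
  have hy0 : 0 < y := by linarith
  have hsum : 0 < x + y := by linarith
  have k2 : (z - x) * (y - z) ≤ (y - x) ^ 2 / 4 := by
    linarith [sq_nonneg (2 * z - x - y)]
  have k4 : 22 / 10 * y ≤ s * (x + y) ^ 2 := by
    have q1 : 223 / 100 ≤ 4 * (s * x) := by
      linarith [mul_le_mul hs177 hx33 (by norm_num) hs0.le]
    linarith [mul_le_mul_of_nonneg_right q1 hy0.le, mul_nonneg hs0.le (sq_nonneg (x - y))]
  have k3 : s * ((z - x) * (y - z)) / (x + y) ≤
      π * ((y - x) * (x + y)) * (y - x) * 10 / (88 * y) := by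
    rw [div_le_div_iff₀ hsum (by positivity), ← hs2]
    linear_combination 88 * mul_le_mul_of_nonneg_left k2 (mul_nonneg hs0.le hy0.le) +
      10 * mul_le_mul_of_nonneg_left k4 (mul_nonneg hs0.le (sq_nonneg (y - x)))
  have h88 : 88 * y * (x + y) ≤ 250 * π := by
    linarith [mul_le_mul_of_nonneg_left hxy.le hy0.le, Real.pi_gt_three]
  have k5 : ((y - x) * (x + y)) ^ 2 / 250 ≤ π * ((y - x) * (x + y)) * (y - x) / (88 * y) := by
    rw [div_le_div_iff₀ (by norm_num) (by positivity)]
    linear_combination mul_le_mul_of_nonneg_left h88 (mul_nonneg hsum.le (sq_nonneg (y - x)))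
  have k6 : π * ((y - x) * (x + y)) * (y - x) / (8 * y) =
      π * ((y - x) * (x + y)) * (y - x) * 10 / (88 * y) +
        π * ((y - x) * (x + y)) * (y - x) / (88 * y) := by
    field_simp
    ring
  linarith

theorem calibrated_tube {c m v : ℝ} (hc : 10 / 100 ≤ c) (hm : m ≤ 3183 / 10000) (hcv : c ≤ v)
    (hvm : v ≤ m) {lo tg : ℝ} (hlo : lo ≤ c) (htg : tg ≤ √(π * v) + (m - c) ^ 2 / 250) :
    Calibrated lo c m v tg := by
  rcases (hcv.trans hvm).eq_or_lt with rfl | hcm
  · obtain rfl : v = c := le_antisymm hvm hcv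
    refine ⟨v, v, hlo, le_rfl, le_rfl, by linarith, ?_⟩
    have : π * v ≤ 1 := by
      have := pi_up
      nlinarith
    rw [chord_self, prof_eq_sqrt this, intervalIntegral.integral_same]
    simp only [sub_self, zero_pow two_ne_zero, zero_div, add_zero] at htg
    linarith
  have hpm : ∀ a, a ≤ m → π * a ≤ 1 := fun a ha => by
    have := Real.pi_lt_d6
    nlinarith [Real.pi_pos]
  refine ⟨c, m, hlo, le_rfl, le_rfl, by linarith, ?_⟩
  set x := √c with hx
  set y := √m with hy
  have hx2 : x ^ 2 = c := Real.sq_sqrt (by linarith)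
  have hy2 : y ^ 2 = m := Real.sq_sqrt (by linarith)
  have hx0 : 0 < x := Real.sqrt_pos.2 (by linarith)
  have hxy : x < y := Real.sqrt_lt_sqrt (by linarith) hcm
  have hy0 : 0 < y := hx0.trans hxy
  have hsum : 0 < x + y := by linarith
  set s := √π with hs
  have hs2 : s ^ 2 = π := Real.sq_sqrt Real.pi_pos.le
  have hs0 : 0 < s := Real.sqrt_pos.2 Real.pi_pos
  have hI : ∀ a, 0 ≤ a → a ≤ m → prof a = 2 * (s * √a) := fun a _ h1 => by
    rw [prof_eq_sqrt (hpm a h1), Real.sqrt_mul Real.pi_pos.le]
  have hmc : m - c = (y - x) * (x + y) := by rw [← hx2, ← hy2]; ring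
  have hch : ∀ a, chord c m a = 2 * (s * (x * y + a) / (x + y)) := fun a => by
    have h1 : y - x ≠ 0 := by linarith
    have h2 : x + y ≠ 0 := hsum.ne'
    rw [chord_eq, hI c (by linarith) hcm.le, hI m (by linarith) le_rfl, ← hx, ← hy, hmc]
    field_simp
    linear_combination (y - x) * hx2
  have node : ∀ u ∈ Icc (-1 : ℝ) 1, (m - c) * √(1 - u ^ 2) / (2 * (x + y) * y) ≤
      weight c m ((m - c) / 2 * u + (c + m) / 2) := by
    intro u hu
    set a := (m - c) / 2 * u + (c + m) / 2 with ha
    have hca : c ≤ a := by simp only [ha]; nlinarith [hu.1]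
    have ham : a ≤ m := by simp only [ha]; nlinarith [hu.2]
    have ha0 : 0 < a := by linarith
    have hu2 : 0 ≤ 1 - u ^ 2 := by nlinarith [hu.1, hu.2]
    refine Real.le_sqrt_of_sq_le (le_max_of_le_right ?_)
    rw [hch, hI a ha0.le ham, mul_div_mul_left _ _ two_ne_zero]
    have e : 1 - (s * (x * y + a) / (x + y) / (s * √a)) ^ 2 =
        (a - x ^ 2) * (y ^ 2 - a) / ((x + y) ^ 2 * a) := by
      have hsa : √a ^ 2 = a := Real.sq_sqrt ha0.le
      have h1 : 0 < √a := Real.sqrt_pos.2 ha0
      have h2 : (0 : ℝ) < (x + y) ^ 2 * a := mul_pos (pow_pos hsum 2) ha0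
      rw [show s * (x * y + a) / (x + y) / (s * √a) = (x * y + a) / ((x + y) * √a) by field_simp,
        div_pow, mul_pow, hsa, one_sub_div h2.ne']
      ring
    rw [e, hx2, hy2, show (a - c) * (m - a) = (m - c) ^ 2 * (1 - u ^ 2) / 4 by simp only [ha]; ring,
      div_pow, mul_pow, Real.sq_sqrt hu2, mul_pow, mul_pow, hy2]
    have hK : 0 ≤ (m - c) ^ 2 * (1 - u ^ 2) := mul_nonneg (sq_nonneg _) hu2
    have hm0 : 0 < m := by linarith
    rw [div_div, div_le_div_iff₀ (by positivity) (by positivity)]
    nlinarith [mul_le_mul_of_nonneg_left ham (mul_nonneg hK (sq_nonneg (x + y)))]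
  have hG : π * (m - c) * (y - x) / (8 * y) ≤
      ∫ a in c..m, weight c m a := by
    have e1 : ∫ a in c..m, weight c m a = (m - c) / 2 *
        ∫ u in (-1 : ℝ)..1, weight c m ((m - c) / 2 * u + (c + m) / 2) := by
      have := intervalIntegral.smul_integral_comp_mul_add
        (weight c m) ((m - c) / 2) ((c + m) / 2) (a := -1) (b := 1)
      rw [smul_eq_mul] at this
      rw [this]
      congr 1 <;> ring
    rw [e1]
    have e2 : π * (m - c) * (y - x) / (8 * y) =
        (m - c) / 2 * ∫ u in (-1 : ℝ)..1, (m - c) * √(1 - u ^ 2) / (2 * (x + y) * y) := by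
      rw [intervalIntegral.integral_div, intervalIntegral.integral_const_mul,
        integral_sqrt_one_sub_sq, hmc]
      field_simp
      ring
    rw [e2]
    refine mul_le_mul_of_nonneg_left ?_ (by linarith)
    refine intervalIntegral.integral_mono_on (by norm_num)
      (Continuous.intervalIntegrable (by fun_prop) _ _) ?_ node
    refine (intervalIntegrable_const (c := (1 : ℝ))).mono_fun
      ((weight_measurable c m).comp (by fun_prop)).aestronglyMeasurable ?_
    refine Filter.Eventually.of_forall fun a => ?_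
    simp only [norm_one]
    rw [Real.norm_of_nonneg (weight_nonneg _ _ _)]
    exact weight_le_one _ _ _
  have hv0 : 0 ≤ v := by linarith
  set z := √v with hz
  have hz2 : z ^ 2 = v := Real.sq_sqrt hv0
  have hJ : tg ≤ s * z + (m - c) ^ 2 / 250 := by
    rw [← Real.sqrt_mul Real.pi_pos.le]
    exact htg
  rw [hch]
  have hx33 : 316 / 1000 ≤ x := by
    rw [hx]; exact Real.le_sqrt_of_sq_le (by linarith)
  have hs177 : 177 / 100 ≤ s := by
    rw [hs]; exact Real.le_sqrt_of_sq_le (by linarith [Real.pi_gt_d2])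
  have k1 : s * z - s * (x * y + v) / (x + y) = s * ((z - x) * (y - z)) / (x + y) := by
    rw [← hz2]; field_simp; ring
  have k3 := tube_gap (z := z) hs0 hs2 hs177 hx33 hxy (by linarith [sq y])
  rw [← hmc] at k3
  linarith

theorem slab_gap {c m v a0 a1 : ℝ} (hc : 311 / 1000 ≤ c) (hcv : c ≤ v) (hv0 : 36 / 100 ≤ v)
    (hv1 : v ≤ 1 / 2) (hmm : 6816 / 10000 < m) (ha0' : a0 ≤ 1 / 2)
    (hA1 : a1 = 6816 / 10000) (ha0 : a0 = max c (3184 / 10000)) :
    m - v + 3 / 1000 ≤ 13 * (a1 - a0) * (m - (a0 + a1) / 2) ∧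
      v - c + 3 / 1000 ≤ 13 * (a1 - a0) * ((a0 + a1) / 2 - c) := by
  subst hA1
  rcases le_or_gt c (3184 / 10000) with hcc | hcc
  · rw [max_eq_right hcc] at ha0
    subst ha0
    constructor <;> linarith
  · rw [max_eq_left hcc.le] at ha0
    subst ha0
    have p1 := mul_le_mul_of_nonneg_right
      (show (236 : ℝ) / 100 ≤ 13 * (6816 / 10000 - a0) by linarith)
      (show 0 ≤ m - (a0 + 6816 / 10000) / 2 by linarith)
    have p2 := mul_le_mul_of_nonneg_right
      (show (236 : ℝ) / 100 ≤ 13 * (6816 / 10000 - a0) by linarith)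
      (show 0 ≤ (a0 + 6816 / 10000) / 2 - a0 by linarith)
    constructor <;> linarith

theorem calibrated_slab {c m v : ℝ} (hc : 311 / 1000 ≤ c) (hm : m ≤ 689 / 1000) (hcv : c ≤ v)
    (hvm : v ≤ m) (hv1 : v ≤ 1 / 2) {lo tg : ℝ} (hlo : lo ≤ c) (htg : tg ≤ 1 + ((1 - prof c / 2) + (1 - prof m / 2)) / 400)
    (htg' : v < 36 / 100 → tg ≤ 985 / 1000) : Calibrated lo c m v tg := by
  have hp0 : (3.1415 : ℝ) < π := Real.pi_gt_d4
  have small : ∀ a, 311 / 1000 ≤ a → a ≤ 689 / 1000 → 988 / 1000 + 4 / 10000 ≤ prof a / 2 := by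
    intro a h0 h1
    rw [prof, mul_div_cancel_left₀ _ two_ne_zero]
    refine le_min (le_min (Real.le_sqrt_of_sq_le ?_) (by norm_num)) (Real.le_sqrt_of_sq_le ?_)
    · nlinarith [mul_le_mul hp0.le h0 (by norm_num) Real.pi_pos.le]
    · nlinarith [mul_le_mul hp0.le (show 311 / 1000 ≤ 1 - a by linarith) (by norm_num) Real.pi_pos.le]
  have hI0 : 0 ≤ ∫ a in c..m, weight c m a :=
    intervalIntegral.integral_nonneg (hcv.trans hvm) fun a _ => weight_nonneg c m a
  refine ⟨c, m, hlo, le_rfl, le_rfl, by linarith, ?_⟩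
  rcases (hcv.trans hvm).eq_or_lt with hcm | hcm
  · subst hcm
    obtain rfl : v = c := le_antisymm hvm hcv
    rw [chord_self]
    rcases lt_or_ge v (36 / 100) with h | h
    · linarith [small v hc (by linarith), htg' h]
    · rw [prof_eq_two (by nlinarith) (by nlinarith)] at htg ⊢
      linarith
  rcases lt_or_ge v (36 / 100) with hv | hv0
  · have h1 := small c hc (by linarith)
    have h2 := small m (by linarith) hm
    have ht0 : 0 ≤ (v - c) / (m - c) := div_nonneg (by linarith) (by linarith)
    have ht1 : (v - c) / (m - c) ≤ 1 := (div_le_one (by linarith)).2 (by linarith)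
    rw [chord_eq]
    nlinarith [htg' hv, mul_nonneg (sub_nonneg.2 ht1) (sub_nonneg.2 h1),
      mul_nonneg ht0 (sub_nonneg.2 h2)]
  set e := 1 - prof c / 2 with he
  set d := 1 - prof m / 2 with hd
  have he0 : 0 ≤ e := by linarith [prof_le_two c]
  have hd0 : 0 ≤ d := by linarith [prof_le_two m]
  have he1 : e ≤ 116 / 10000 := by linarith [small c hc (by linarith)]
  have hd1 : d ≤ 116 / 10000 := by linarith [small m (by linarith) hm]
  set a0 := max c (3184 / 10000) with ha0
  set a1 := min m (6816 / 10000) with ha1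
  have hle : a0 ≤ a1 := by
    simp only [ha0, ha1, max_le_iff, le_min_iff]
    refine ⟨⟨hcm.le, by linarith⟩, by linarith, by norm_num⟩
  have hmid : ∀ a, 3184 / 10000 ≤ a → a ≤ 6816 / 10000 → prof a = 2 := fun a h0 h1 =>
    prof_eq_two (by nlinarith) (by nlinarith)
  set l : ℝ → ℝ := fun a => e * ((m - a) / (m - c)) + d * ((a - c) / (m - c)) with hl
  have hch : ∀ a, chord c m a = 2 * (1 - l a) := fun a => by
    have : m - c ≠ 0 := by linarith
    rw [chord_eq]
    simp only [hl, he, hd]
    field_simp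
    ring
  have hg : ∀ a ∈ Icc a0 a1, 13 * l a ≤ weight c m a := by
    intro a ha
    have h0 : c ≤ a := (le_max_left _ _).trans ha.1
    have h0' : 3184 / 10000 ≤ a := (le_max_right _ _).trans ha.1
    have h1 : a ≤ m := ha.2.trans (min_le_left _ _)
    have h1' : a ≤ 6816 / 10000 := ha.2.trans (min_le_right _ _)
    have hu : (m - a) / (m - c) + (a - c) / (m - c) = 1 := by
      rw [← add_div, div_eq_one_iff_eq (by linarith)]; ring
    have hp : 0 ≤ (m - a) / (m - c) := div_nonneg (by linarith) (by linarith)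
    have hq : 0 ≤ (a - c) / (m - c) := div_nonneg (by linarith) (by linarith)
    have hl0 : 0 ≤ l a := by simp only [hl]; positivity
    have hl1 : l a ≤ 116 / 10000 := by
      have := add_le_add (mul_le_mul_of_nonneg_right he1 hp) (mul_le_mul_of_nonneg_right hd1 hq)
      rw [← mul_add, hu, mul_one] at this
      exact this
    refine Real.le_sqrt_of_sq_le (le_max_of_le_right ?_)
    rw [hch, hmid a h0' h1', mul_div_cancel_left₀ _ two_ne_zero]
    nlinarith
  have hint : ∫ a in a0..a1, 13 * l a = 13 * (a1 - a0) * l ((a0 + a1) / 2) := by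
    have h1 : m - c ≠ 0 := by linarith
    have e1 : (fun a => 13 * l a) = fun a => 13 * (d - e) / (m - c) * a + 13 * (e * m - d * c) / (m - c) := by
      funext a; simp only [hl]; field_simp; ring
    rw [e1]
    rw [intervalIntegral.integral_add (f := fun a => 13 * (d - e) / (m - c) * a)
        (g := fun _ => 13 * (e * m - d * c) / (m - c))
        (Continuous.intervalIntegrable (by fun_prop) _ _) intervalIntegrable_const,
      intervalIntegral.integral_const_mul, integral_id, intervalIntegral.integral_const, smul_eq_mul]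
    simp only [hl]
    field_simp
    ring
  have hG : 13 * (a1 - a0) * l ((a0 + a1) / 2) ≤
      ∫ a in c..m, weight c m a := by
    rw [← hint]
    refine (intervalIntegral.integral_mono_on hle ?_ (intervalIntegrable_weight _ _ _ _) hg).trans ?_
    · exact Continuous.intervalIntegrable (by simp only [hl]; fun_prop) _ _
    refine intervalIntegral.integral_mono_interval (le_max_left _ _) hle (min_le_left _ _) ?_
      (intervalIntegrable_weight _ _ _ _)
    exact Filter.Eventually.of_forall fun a => Real.sqrt_nonneg _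
  rw [hch]
  suffices l v + (e + d) / 400 ≤ 13 * (a1 - a0) * l ((a0 + a1) / 2) by linarith
  have h1 : 0 < m - c := by linarith
  have lm : ∀ a, l a = (e * (m - a) + d * (a - c)) / (m - c) := fun a => by
    simp only [hl]; ring
  have hed : (e + d) / 400 ≤ (e + d) * (3 / 1000) / (m - c) := by
    rw [div_le_div_iff₀ (by norm_num) h1]
    nlinarith [mul_le_mul_of_nonneg_left (show m - c ≤ 1 by linarith) (add_nonneg he0 hd0)]
  refine le_trans (add_le_add le_rfl hed) ?_
  rw [lm, lm, ← add_div, ← mul_div_assoc (13 * (a1 - a0)), div_le_div_iff_of_pos_right h1]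
  rcases le_or_gt m (6816 / 10000) with hmm | hmm
  · rcases le_or_gt (3184 / 10000) c with hcc | hcc
    · have he' : e = 0 := by simp [he, hmid c hcc (by linarith)]
      have hd' : d = 0 := by simp [hd, hmid m (by linarith) hmm]
      simp [he', hd']
    · have hd' : d = 0 := by simp [hd, hmid m (by linarith) hmm]
      have e0 : a0 = 3184 / 10000 := max_eq_right hcc.le
      have e1 : a1 = m := min_eq_left hmm
      have key : m - v + 3 / 1000 ≤ 13 * (m - 3184 / 10000) * ((m - 3184 / 10000) / 2) := by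
        nlinarith [sq_nonneg (m - 3184 / 10000 - 1 / 13)]
      rw [e0, e1, hd']
      linear_combination (mul_le_mul_of_nonneg_left key he0)
  · have hA1 : a1 = 6816 / 10000 := min_eq_right hmm.le
    have ha0' : a0 ≤ 1 / 2 := max_le (by linarith) (by norm_num)
    clear_value a0 a1
    have k := slab_gap hc hcv hv0 hv1 hmm ha0' hA1 ha0
    linear_combination (mul_le_mul_of_nonneg_left k.1 he0) + mul_le_mul_of_nonneg_left k.2 hd0

end Vale.Agent.P232.Scalar
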