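import Vale.Agent.P232.Scalar.Check
import Vale.Agent.P232.Scalar.Diag

/-!
# P232: from certificates to the conditions on a row
-/

noncomputable section

namespace Vale.Agent.P232.Scalar

open Real Set MeasureTheory

/-- The bin is a tangent of the ball, tube or slab value, at the parameter `R`. -/
def domOK (p : Bin × ℕ) : Bool :=
  decide (0 < p.2 ∧ 31415926536 * (p.2 : ℤ) ^ 2 ≤ 6 * 10 ^ 10 * p.1.A ∧
      2 * 10 ^ 16 ≤ p.1.S * p.2) ||
    decide (0 < p.2 ∧ (p.2 : ℤ) * 10 ^ 8 ≤ 2 * p.1.A ∧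
      31415926536 * 10 ^ 6 ≤ 2 * p.1.S * p.2) ||
    decide (10 ^ 16 ≤ p.1.A ∧ 0 ≤ p.1.S)

theorem ballPer_le {v r : ℝ} (hv : 0 ≤ v) (hr : 0 < r) :
    ballPer v ≤ 4 * v / r + π * r ^ 2 / 3 := by
  have am := Real.geom_mean_le_arith_mean2_weighted (w₁ := 2 / 3) (w₂ := 1 / 3)
    (p₁ := 6 * v / r) (p₂ := π * r ^ 2) (by norm_num) (by norm_num) (by positivity) (by positivity)
    (by norm_num)
  have e : (6 * v / r) ^ (2 / 3 : ℝ) * (π * r ^ 2) ^ (1 / 3 : ℝ) = ballPer v := by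
    rw [ballPer, show (2 / 3 : ℝ) = ((2 : ℕ) : ℝ) * (1 / 3) by norm_num,
      Real.rpow_mul (by positivity), Real.rpow_mul hv, Real.rpow_natCast, Real.rpow_natCast,
      ← Real.mul_rpow (by positivity) (by positivity), ← Real.mul_rpow (by positivity) (by positivity)]
    congr 1
    field_simp
    ring
  rw [e] at am
  refine am.trans (le_of_eq ?_)
  field_simp
  ring

theorem canonical_le_line {p : Bin × ℕ} (h : domOK p = true) {v : ℝ} (hv : 0 ≤ v) :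
    canonical v / 2 ≤ p.1.line v := by
  simp only [domOK, Bool.or_eq_true, decide_eq_true_eq] at h
  have hpi := pi_up
  unfold Bin.line
  rw [le_div_iff₀ (by norm_num : (0 : ℝ) < 10 ^ 16)]
  rcases h with (⟨hR, hA, hS⟩ | ⟨hR, hA, hS⟩) | ⟨hA, hS⟩
  · have hA' := (Int.cast_le (R := ℝ)).2 hA
    have hS' := (Int.cast_le (R := ℝ)).2 hS
    push_cast at hA' hS'
    have hR' : (0 : ℝ) < p.2 := by exact_mod_cast hR
    set r : ℝ := (p.2 : ℝ) / 10 ^ 8 with hr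
    have hr0 : 0 < r := div_pos hR' (by norm_num)
    have h1 : canonical v ≤ 4 * v / r + π * r ^ 2 / 3 :=
      ((min_le_left _ _).trans (min_le_left _ _)).trans (ballPer_le hv hr0)
    have h2 : 4 * v / r ≤ 2 * ((p.1.S : ℝ) * (10 ^ 8 * v)) / 10 ^ 16 := by
      rw [div_le_iff₀ hr0, hr]
      linarith [mul_le_mul_of_nonneg_right hS' hv]
    have h3 : π * r ^ 2 / 3 ≤ 2 * (p.1.A : ℝ) / 10 ^ 16 := by
      have := mul_le_mul_of_nonneg_right hpi (sq_nonneg r)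
      rw [hr] at this ⊢
      linarith
    linarith
  · have hA' := (Int.cast_le (R := ℝ)).2 hA
    have hS' := (Int.cast_le (R := ℝ)).2 hS
    push_cast at hA' hS'
    have hR' : (0 : ℝ) < p.2 := by exact_mod_cast hR
    set r : ℝ := (p.2 : ℝ) / 10 ^ 8 with hr
    have hr0 : 0 < r := div_pos hR' (by norm_num)
    have h1 : canonical v ≤ r + π * v / r := by
      refine ((min_le_left _ _).trans (min_le_right _ _)).trans ?_
      rw [tubePer, le_iff_eq_or_lt]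
      have hs := Real.sq_sqrt (by positivity : (0 : ℝ) ≤ π * v)
      have : 2 * √(π * v) ≤ r + π * v / r := by
        rw [add_div' _ _ _ hr0.ne', le_div_iff₀ hr0]
        linarith [sq_nonneg (√(π * v) - r)]
      exact this.eq_or_lt
    have h2 : π * v / r ≤ 2 * ((p.1.S : ℝ) * (10 ^ 8 * v)) / 10 ^ 16 := by
      rw [div_le_iff₀ hr0, hr]
      linarith [mul_le_mul_of_nonneg_right hS' hv, mul_le_mul_of_nonneg_right hpi hv]
    have h3 : r ≤ 2 * (p.1.A : ℝ) / 10 ^ 16 := by rw [hr]; linarith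
    linarith
  · have hA' := (Int.cast_le (R := ℝ)).2 hA
    push_cast at hA'
    have hS' : (0 : ℝ) ≤ (p.1.S : ℝ) * (10 ^ 8 * v) :=
      mul_nonneg (by exact_mod_cast hS) (by positivity)
    have := min_le_right (min (ballPer v) (tubePer v)) 2
    change canonical v ≤ 2 at this
    linarith

theorem canonical_dom (tl : List (Bin × ℕ)) (h : tl.all domOK = true) {v0 : ℕ}
    (hlo : ∀ q ∈ tl.map Prod.fst, v0 ≤ q.a) :
    ∀ q ∈ tl.map Prod.fst, ∀ v : ℝ, (q.a : ℝ) / 10 ^ 8 ≤ v → v ≤ (q.b : ℝ) / 10 ^ 8 →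
      canonical v / 2 ≤ q.line v := by
  intro q hq v hv _
  have := hlo q hq
  obtain ⟨p, hp, rfl⟩ := List.mem_map.1 hq
  simp only [List.all_eq_true] at h
  exact canonical_le_line (h p hp) (le_trans (by positivity) hv)

/-- The boxes handled by `calibrated_tube`. -/
def tubeSkip (a _b _c d : ℕ) : Bool := decide (10000000 ≤ a ∧ d ≤ 31830000)

/-- The boxes handled by `calibrated_slab`. -/
def slabSkip (a _b _c d : ℕ) : Bool := decide (31100000 ≤ a ∧ d ≤ 68900000)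

/-- No box is skipped. -/
def noSkip (_a _b _c _d : ℕ) : Bool := false

theorem tubeSkip_sound (lo hi C0 C1 M0 M1 : ℕ) (h : tubeSkip C0 C1 M0 M1 = true) :
    BoxPin (fun v => canonical v / 2) lo hi 0 C0 C1 M0 M1 := by
  intro c m v _ hc hm hcv hvm
  simp only [tubeSkip, decide_eq_true_eq] at h
  have h1 : (10000000 : ℝ) ≤ C0 := by exact_mod_cast h.1
  have h2 : (M1 : ℝ) ≤ 31830000 := by exact_mod_cast h.2
  refine calibrated_tube (by linarith [hc.1]) (by linarith [hm.2]) hcv hvm hc.1 ?_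
  have : canonical v ≤ tubePer v := (min_le_left _ _).trans (min_le_right _ _)
  rw [tubePer] at this
  simp only [Nat.cast_zero, zero_div, add_zero]
  linarith [sq_nonneg (m - c)]

theorem slabSkip_sound {tg : ℝ → ℝ} {lo hi : ℕ} (hhi : hi ≤ 50000000)
    (htg : ∀ v, (lo : ℝ) / 10 ^ 8 ≤ v → v ≤ (hi : ℝ) / 10 ^ 8 →
      tg v ≤ 1 ∧ (v < 36 / 100 → tg v ≤ 985 / 1000))
    (C0 C1 M0 M1 : ℕ) (h : slabSkip C0 C1 M0 M1 = true) :
    BoxPin tg lo hi 0 C0 C1 M0 M1 := by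
  intro c m v hv hc hm hcv hvm
  simp only [slabSkip, decide_eq_true_eq] at h
  have h1 : (31100000 : ℝ) ≤ C0 := by exact_mod_cast h.1
  have h2 : (M1 : ℝ) ≤ 68900000 := by exact_mod_cast h.2
  have h3 : (hi : ℝ) ≤ 50000000 := by exact_mod_cast hhi
  simp only [Nat.cast_zero, zero_div, add_zero]
  exact calibrated_slab (by linarith [hc.1]) (by linarith [hm.2]) hcv hvm (by linarith [hv.2]) hc.1
    ((htg v hv.1 hv.2).1.trans (by linarith [prof_le_two c, prof_le_two m])) (htg v hv.1 hv.2).2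

theorem noSkip_sound {tg : ℝ → ℝ} {lo hi D : ℕ} (C0 C1 M0 M1 : ℕ)
    (h : noSkip C0 C1 M0 M1 = true) : BoxPin tg lo hi D C0 C1 M0 M1 := by
  simp [noSkip] at h

/-- A certificate with a spare is a certificate without. -/
theorem check_mono {bins : List Bin} {D D' : ℕ} (hD : D ≤ D') {sk : ℕ → ℕ → ℕ → ℕ → Bool} :
    ∀ {T : Cert} {C0 C1 M0 M1 : ℕ}, check bins D' sk T C0 C1 M0 M1 = true →
      check bins D sk T C0 C1 M0 M1 = true := by
  intro T
  induction T with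
  | leaf P0 P1 U0 U1 xs =>
    intro C0 C1 M0 M1 h
    simp only [check, leafOK, Bool.and_eq_true, decide_eq_true_eq, List.all_eq_true] at h ⊢
    refine ⟨h.1, fun q hq => ?_⟩
    have hCM : (C0 : ℤ) ≤ M1 := by exact_mod_cast h.1.1.1.le
    have hDZ : (D : ℤ) ≤ D' := by exact_mod_cast hD
    have := h.2 q hq
    simp only [binOK, valueOK, Bool.or_eq_true, Bool.and_eq_true, decide_eq_true_eq] at this ⊢
    refine this.imp_right (And.imp ?_ ?_) <;> intro hh <;>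
      linarith [mul_le_mul_of_nonneg_left hDZ (sub_nonneg.2 hCM)]
  | skip => exact fun h => h
  | splitC s l r il ir =>
    intro C0 C1 M0 M1 h
    simp only [check, Bool.and_eq_true] at h ⊢
    exact ⟨⟨h.1.1, il h.1.2⟩, ir h.2⟩
  | splitM s l r il ir =>
    intro C0 C1 M0 M1 h
    simp only [check, Bool.and_eq_true] at h ⊢
    exact ⟨il h.1, ir h.2⟩

/-- The integer conditions on a row: bottom, excursion height, loss, rate, relative loss, time. -/
def sideOK (V0 V1 P E β k T l : ℕ) : Bool :=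
  decide (0 < P ∧ P < V0 ∧ P < E ∧ V1 ≤ 50000000 ∧ E ≤ 1000000 ∧ k < 1000 ∧ 0 < T ∧
    (β : ℤ) ^ 2 * E * 10 ^ 4 ≤ 4 * (k : ℤ) ^ 2 * 31415926535 ∧
    4 * (E : ℤ) * 10 ^ 8 < (1000 - (k : ℤ)) ^ 2 * 31415926535 ∧
    (P : ℤ) * 10 ^ 18 ≤ (1000 - (k : ℤ)) ^ 2 * 31415926535 * (T : ℤ) ^ 2 ∧
    4 * 31415926536 * (P : ℤ) * (V0 : ℤ) ^ 2 ≤ 10 ^ 8 * ((l : ℤ) * ((V0 : ℤ) - P)) ^ 2)

theorem good_of {r : Row} {tg : ℝ → ℝ} {V0 V1 P E β k T l : ℕ}
    (hr : r.v0 = (V0 : ℝ) / 10 ^ 8 ∧ r.v1 = (V1 : ℝ) / 10 ^ 8 ∧ r.p = (P : ℝ) / 10 ^ 8 ∧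
      r.η = (E : ℝ) / 10 ^ 8 ∧ r.β = (β : ℝ) / 100 ∧ r.k = (k : ℝ) / 1000 ∧
      r.T = (T : ℝ) / 10 ^ 5 ∧ r.ℓ = (l : ℝ) / 10 ^ 5)
    (htg : ∀ v, r.target v = 2 * tg v) (hside : sideOK V0 V1 P E β k T l = true)
    {U0 U1 : ℕ} {xs : List (ℕ × ℕ)}
    (hexc : excursionOK P E (max V0 E) (2 * (T * l * 10 ^ 6) : ℕ) U0 U1 xs = true)
    {bins : List Bin} (hcov : covers V0 V1 bins = true) (hV : V0 < V1)
    (hdom : ∀ q ∈ bins, ∀ v : ℝ, (q.a : ℝ) / 10 ^ 8 ≤ v → v ≤ (q.b : ℝ) / 10 ^ 8 →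
      tg v ≤ q.line v)
    {sk : ℕ → ℕ → ℕ → ℕ → Bool}
    (hsk : ∀ C0 C1 M0 M1, sk C0 C1 M0 M1 = true → BoxPin tg V0 V1 0 C0 C1 M0 M1)
    {main floor : Cert} (hmain : check bins 0 sk main P V1 V0 (10 ^ 8) = true)
    (hfloor : check bins (T * l * 10 ^ 6) noSkip floor P P V0 (10 ^ 8) = true) : r.Good := by
  obtain ⟨e0, e1, ep, eη, eβ, ek, eT, el⟩ := hr
  simp only [sideOK, decide_eq_true_eq] at hside
  obtain ⟨sP, sPV, sPE, sV1, sE, sk', sT, sβ, sEt, sPt, sl⟩ := hside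
  have cP : (0 : ℝ) < P := by exact_mod_cast sP
  have cPV : (P : ℝ) < V0 := by exact_mod_cast sPV
  have cPE : (P : ℝ) < E := by exact_mod_cast sPE
  have cV1 : (V1 : ℝ) ≤ 50000000 := by exact_mod_cast sV1
  have cE : (E : ℝ) ≤ 1000000 := by exact_mod_cast sE
  have ck : (k : ℝ) < 1000 := by exact_mod_cast sk'
  have cT : (0 : ℝ) < T := by exact_mod_cast sT
  have cV : (V0 : ℝ) < V1 := by exact_mod_cast hV
  have cβ := (Int.cast_le (R := ℝ)).2 sβ
  have cEt := (Int.cast_lt (R := ℝ)).2 sEt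
  have cPt := (Int.cast_le (R := ℝ)).2 sPt
  have cl := (Int.cast_le (R := ℝ)).2 sl
  push_cast at cβ cEt cPt cl
  have hpl := pi_low
  have hpu := pi_up
  have sqπ := Real.sq_sqrt Real.pi_pos.le
  have sqE : √((E : ℝ) / 10 ^ 8) ^ 2 = (E : ℝ) / 10 ^ 8 := Real.sq_sqrt (by positivity)
  refine ⟨by rw [ep]; positivity, by rw [ep, e0]; linarith, by rw [ep, eη]; linarith,
    by rw [e1]; linarith, by rw [eη]; linarith, by rw [ek]; linarith, by rw [eβ]; positivity,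
    ?_, ?_, by rw [eT]; positivity, ?_, ?_, ?_, ?_⟩
  · rw [eβ, eη, ek]
    refine (sq_le_sq₀ (by positivity) (by positivity)).1 ?_
    rw [mul_pow, sqE, mul_pow, mul_pow, sqπ]
    linarith [mul_le_mul_of_nonneg_left hpl (sq_nonneg ((k : ℝ)))]
  · rw [eη, ek]
    have h1 : 0 ≤ (1 - (k : ℝ) / 1000) * √π :=
      mul_nonneg (by linarith) (Real.sqrt_nonneg _)
    refine (sq_lt_sq₀ (by positivity) h1).1 ?_
    rw [mul_pow, sqE, mul_pow, sqπ]
    linarith [mul_le_mul_of_nonneg_left hpl (sq_nonneg ((1000 : ℝ) - k))]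
  · rw [ep, ek, eT]
    linarith [mul_le_mul_of_nonneg_left hpl
      (mul_nonneg (sq_nonneg ((1000 : ℝ) - k)) (sq_nonneg (T : ℝ)))]
  · rw [ep, e0, el]
    have h1 : 0 ≤ (V0 : ℝ) / 10 ^ 8 - (P : ℝ) / 10 ^ 8 := by linarith
    refine (mul_le_mul_of_nonneg_right (prof_le_sqrt _) (by positivity)).trans ?_
    refine (sq_le_sq₀ (by positivity) (mul_nonneg (by positivity) h1)).1 ?_
    rw [mul_pow, mul_pow, mul_pow, Real.sq_sqrt (by positivity)]
    linarith [mul_le_mul_of_nonneg_right hpu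
      (mul_nonneg cP.le (sq_nonneg (V0 : ℝ)))]
  · intro m hm hm1
    have hM : ((max V0 E : ℕ) : ℝ) / 10 ^ 8 ≤ m := by
      rw [e0, eη] at hm
      push_cast
      rw [← max_div_div_right (by norm_num : (0 : ℝ) ≤ 10 ^ 8)]
      exact hm
    have := excursion_sound hexc hM hm1 sPE.le
    rw [ep, eη, el, eT]
    push_cast at this
    linarith
  · intro c m v hpc hcv hvm hm1 hv0 hv1
    rw [ep] at hpc
    rw [e0] at hv0
    rw [e1] at hv1
    have hvI : v ∈ Icc ((V0 : ℝ) / 10 ^ 8) ((V1 : ℝ) / 10 ^ 8) := ⟨hv0, hv1⟩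
    have hmI : m ∈ Icc ((V0 : ℝ) / 10 ^ 8) (((10 ^ 8 : ℕ) : ℝ) / 10 ^ 8) :=
      ⟨hv0.trans hvm, by push_cast; linarith⟩
    have hV0 : V0 ≤ 10 ^ 8 := by omega
    rw [ep, htg, eT, el]
    rcases eq_or_lt_of_le hpc with h | h
    · obtain ⟨C, M, h1, h2, h3, h4, h5⟩ := check_sound hcov hV hdom noSkip_sound floor P P V0
        (10 ^ 8) hfloor le_rfl hV0 c m v hvI ⟨h.le, h.ge⟩ hmI hcv hvm
      refine ⟨C, M, h1, h2, h3, h4, ?_⟩
      rw [if_pos h.symm]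
      push_cast at h5
      linarith
    · obtain ⟨C, M, h1, h2, h3, h4, h5⟩ := check_sound hcov hV hdom hsk main P V1 V0
        (10 ^ 8) hmain (by omega) hV0 c m v hvI ⟨h.le, hcv.trans hv1⟩ hmI hcv hvm
      refine ⟨C, M, h1, h2, h3, h4, ?_⟩
      rw [if_neg h.ne']
      push_cast at h5
      linarith

end Vale.Agent.P232.Scalar
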